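import Vale.Agent.P255.Defs

/-! Auxiliary definitions shared by all files (no proofs to do here). -/

open scoped ContDiff Manifold Topology
open Set Filter

noncomputable section

namespace Vale.Agent.P255

variable {E : Type} [NormedAddCommGroup E] [NormedSpace ℝ E]

/-- `G` is a smooth Riemannian metric on the open set `U`. -/
structure LM (G : E → E →L[ℝ] E →L[ℝ] ℝ) (U : Set E) : Prop where
  op : IsOpen U
  sm : ContDiffOn ℝ ∞ G U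
  symm : ∀ y ∈ U, ∀ a b, G y a b = G y b a
  pos : ∀ y ∈ U, ∀ a, a ≠ 0 → 0 < G y a a

/-- geodesic spray in coordinates -/
def spray (G : E → E →L[ℝ] E →L[ℝ] ℝ) (z : E × E) : E × E := (z.2, - chris G z.1 z.2 z.2)

/-- covariant derivative of the variation field `δ.1` whose ordinary derivative is `δ.2` -/
def dJ (G : E → E →L[ℝ] E →L[ℝ] ℝ) (z δ : E × E) : E := δ.2 + chris G z.1 z.2 δ.1

def nn (G : E → E →L[ℝ] E →L[ℝ] ℝ) (z δ : E × E) : ℝ := G z.1 δ.1 δ.1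
def mm (G : E → E →L[ℝ] E →L[ℝ] ℝ) (z δ : E × E) : ℝ := G z.1 δ.1 (dJ G z δ)
def qq (G : E → E →L[ℝ] E →L[ℝ] ℝ) (z δ : E × E) : ℝ := G z.1 (dJ G z δ) (dJ G z δ)
def rr (G : E → E →L[ℝ] E →L[ℝ] ℝ) (z δ : E × E) : ℝ := G z.1 (curv G z.1 δ.1 z.2 z.2) δ.1

/-- `(z, δ)` solves the geodesic equation and its linearisation at time `t`. -/
def Sol (G : E → E →L[ℝ] E →L[ℝ] ℝ) (z δ : ℝ → E × E) (t : ℝ) : Prop :=
  HasDerivAt z (spray G (z t)) t ∧ HasDerivAt δ (fderiv ℝ (spray G) (z t) (δ t)) t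

/-- tangent map of `τ` -/
def tmap (τ : E → E) (z : E × E) : E × E := (τ z.1, fderiv ℝ τ z.1 z.2)

/-- `τ : U → U'` pulls `G'` back to `G`. -/
structure PB (G : E → E →L[ℝ] E →L[ℝ] ℝ) (U : Set E) (G' : E → E →L[ℝ] E →L[ℝ] ℝ) (U' : Set E)
    (τ : E → E) : Prop where
  lm : LM G U
  lm' : LM G' U'
  sm : ContDiffOn ℝ ∞ τ U
  maps : MapsTo τ U U'
  pull : ∀ y ∈ U, ∀ a b, G y a b = G' (τ y) (fderiv ℝ τ y a) (fderiv ℝ τ y b)

/-- one-sided local monotonicity at `t` with right rate at least `κ` -/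
def LMo (Q : ℝ → ℝ) (t κ : ℝ) : Prop :=
  (∀ η > 0, ∀ᶠ s in 𝓝[>] t, Q t + (κ - η) * (s - t) ≤ Q s) ∧
  (∀ η > 0, ∀ᶠ s in 𝓝[<] t, Q s ≤ Q t + η)

variable {M : Type} [TopologicalSpace M] [ChartedSpace E M]

/-- coordinates of a tangent vector in the chart `e` -/
def Lam (e : OpenPartialHomeomorph M E) (s : M × E) : E × E := (e s.1, toChart e s.1 s.2)

/-- inverse of `Lam e` -/
def Lami (e : OpenPartialHomeomorph M E) (z : E × E) : M × E := (e.symm z.1, ofChart e z.1 z.2)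

/-- `c` is (the velocity lift of) a geodesic at time `t` -/
def GeoL (g : RMetric E M) (c : ℝ → M × E) (t : ℝ) : Prop :=
  ContinuousAt (fun s => (c s).1) t ∧ ∀ e ∈ atlas E M, (c t).1 ∈ e.source →
    HasDerivAt (fun s => Lam e (c s)) (spray (loc g.inner e) (Lam e (c t))) t

/-- `f : E → M` is infinitesimally expanding from the inner product `B` to the metric `g` -/
def Expand (g : RMetric E M) (B : E →L[ℝ] E →L[ℝ] ℝ) (f : E → M) : Prop :=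
  Continuous f ∧ ∀ v, ∀ e ∈ atlas E M, f v ∈ e.source → ContDiffAt ℝ 1 (e ∘ f) v ∧
    ∀ η, B η η ≤ loc g.inner e (e (f v)) (fderiv ℝ (e ∘ f) v η) (fderiv ℝ (e ∘ f) v η)

/-- abstract system of exponential maps of a nonpositively curved manifold -/
structure ES (B : M → E →L[ℝ] E →L[ℝ] ℝ) (ex : M → E → M) : Prop where
  symm : ∀ p v w, B p v w = B p w v
  pos : ∀ p v, v ≠ 0 → 0 < B p v v
  cov : ∀ p, IsCoveringMap (ex p)
  zero : ∀ p, ex p 0 = p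
  flow : ∀ p u (s : ℝ), ∃ u', B (ex p (s • u)) u' u' = B p u u ∧
    ∀ t : ℝ, ex p ((s + t) • u) = ex (ex p (s • u)) (t • u')
  expand : ∀ m p u (c : ℝ → E), ContinuousOn c (Icc 0 1) →
    (∀ t ∈ Icc (0 : ℝ) 1, ex m (c t) = ex p (t • u)) → B m (c 1 - c 0) (c 1 - c 0) ≤ B p u u

/-- deck group of a map `P` -/
def Deck {X Y : Type} [TopologicalSpace X] (P : X → Y) : Subgroup (Equiv.Perm X) where
  carrier := {T | Continuous T ∧ Continuous T.symm ∧ ∀ x, P (T x) = P x}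
  mul_mem' := fun {S T} hS hT => ⟨hS.1.comp hT.1, hT.2.1.comp hS.2.1, fun x => by
    rw [Equiv.Perm.mul_apply, hS.2.2, hT.2.2]⟩
  one_mem' := ⟨continuous_id, continuous_id, fun _ => rfl⟩
  inv_mem' := fun {T} hT => ⟨hT.2.1, hT.1, fun x => by
    have := hT.2.2 (T.symm x)
    rw [Equiv.apply_symm_apply] at this
    exact this.symm⟩

/-- a metric with midpoints satisfying the Bruhat-Tits inequality -/
structure CatD {X : Type} (d : X → X → ℝ) : Prop where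
  self : ∀ x, d x x = 0
  eq : ∀ x y, d x y = 0 → x = y
  symm : ∀ x y, d x y = d y x
  tri : ∀ x y z, d x z ≤ d x y + d y z
  mid : ∀ y z, ∃ m, d m y = d y z / 2 ∧ d m z = d y z / 2 ∧
    ∀ x, 2 * d x m ^ 2 + d y z ^ 2 / 2 ≤ d x y ^ 2 + d x z ^ 2

/-- gluing data: open sets `Ω i` of `E` and a gluing relation `R` -/
structure Etale {ι : Type} (E : Type) [NormedAddCommGroup E] [NormedSpace ℝ E]
    (Ω : ι → Set E) (R : ι → E → ι → E → Prop) : Prop where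
  op : ∀ i, IsOpen (Ω i)
  refl : ∀ i, ∀ y ∈ Ω i, R i y i y
  symm : ∀ i j, ∀ y ∈ Ω i, ∀ y' ∈ Ω j, R i y j y' → R j y' i y
  trans : ∀ i j k, ∀ y ∈ Ω i, ∀ y' ∈ Ω j, ∀ y'' ∈ Ω k, R i y j y' → R j y' k y'' → R i y k y''
  loc : ∀ i j, ∀ y ∈ Ω i, ∀ y' ∈ Ω j, R i y j y' → ∃ τ : E → E, ContDiffAt ℝ ∞ τ y ∧ τ y = y' ∧
    ∀ᶠ z in 𝓝 y, R i z j (τ z)
  inj : ∀ i, ∀ y ∈ Ω i, ∀ᶠ z in 𝓝 (y, y), R i z.1 i z.2 → z.1 = z.2
  closed : ∀ i j, ∀ y ∈ Ω i, ∀ y' ∈ Ω j, ¬ R i y j y' → ∀ᶠ z in 𝓝 (y, y'), ¬ R i z.1 j z.2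
  cpt : ∃ K : ι → Set E, (∀ i, IsCompact (K i) ∧ K i ⊆ Ω i) ∧
    ∀ i, ∀ y ∈ Ω i, ∃ j, ∃ y' ∈ K j, R i y j y'

/-- `e` is a local inverse of the parametrisation `π i` -/
def Ty {ι : Type} (Ω : ι → Set E) (π : ι → E → M) (e : OpenPartialHomeomorph M E) (i : ι) :
    Prop :=
  e.target ⊆ Ω i ∧ ∀ y ∈ e.target, e.symm y = π i y

/-- `M` is presented by the gluing data -/
structure Pres {ι : Type} (Ω : ι → Set E) (R : ι → E → ι → E → Prop) (π : ι → E → M) : Prop where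
  cont : ∀ i, ContinuousOn (π i) (Ω i)
  rel : ∀ i j, ∀ y ∈ Ω i, ∀ y' ∈ Ω j, π i y = π j y' ↔ R i y j y'
  ty : ∀ e ∈ atlas E M, ∃ i, Ty Ω π e i

/-- the local metrics `G i` are compatible with the gluing -/
def Compat {ι : Type} (Ω : ι → Set E) (R : ι → E → ι → E → Prop)
    (G : ι → E → E →L[ℝ] E →L[ℝ] ℝ) : Prop :=
  ∀ i j (τ : E → E), ∀ y ∈ Ω i, τ y ∈ Ω j → DifferentiableAt ℝ τ y →
    (∀ᶠ z in 𝓝 y, R i z j (τ z)) →
    ∀ a b, G i y a b = G j (τ y) (fderiv ℝ τ y a) (fderiv ℝ τ y b)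

end Vale.Agent.P255
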