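import Vale.Agent.P255.Base

open scoped ContDiff Manifold Topology
open Set Filter

noncomputable section

namespace Vale.Agent.P255

variable {X : Type} {d : X → X → ℝ}

theorem CatD.nonneg (h : CatD d) (x y : X) : 0 ≤ d x y := by
  have h1 := h.tri x y x
  rw [h.self, h.symm y x] at h1
  linarith

/-- quadrilateral inequality -/
theorem CatD.quad (h : CatD d) (x y z w : X) :
    d x z ^ 2 + d y w ^ 2 ≤ d x y ^ 2 + d y z ^ 2 + d z w ^ 2 + d w x ^ 2 := by
  obtain ⟨m, -, -, hm⟩ := h.mid y w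
  have h1 := hm x
  have h2 := hm z
  have h3 := h.tri x m z
  rw [h.symm m z] at h3
  rw [h.symm y z, h.symm w x]
  have h4 := pow_le_pow_left₀ (h.nonneg x z) h3 2
  nlinarith [sq_nonneg (d x m - d z m)]

namespace CatX

/-- isometries -/
def Iso (d : X → X → ℝ) (T : Equiv.Perm X) : Prop := ∀ x y, d (T x) (T y) = d x y

/-- points of minimal displacement -/
def Mn (d : X → X → ℝ) (T : Equiv.Perm X) (τ : ℝ) (x : X) : Prop :=
  d x (T x) = τ ∧ ∀ y, τ ≤ d y (T y)

/-- the difference of heights along the axis -/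
def ka (d : X → X → ℝ) (T : Equiv.Perm X) (τ : ℝ) (x y : X) : ℝ :=
  (d x y ^ 2 + τ ^ 2 - d x (T y) ^ 2) / 2

variable {T g g' : Equiv.Perm X} {τ : ℝ} {x y z : X}

lemma ap_inv (g : Equiv.Perm X) (x : X) : g (g⁻¹ x) = x := Equiv.apply_symm_apply g x

lemma Iso.inv (hg : Iso d g) : Iso d g⁻¹ := fun x y => by
  rw [← hg (g⁻¹ x) (g⁻¹ y), ap_inv, ap_inv]

lemma Iso.mul (hg : Iso d g) (hg' : Iso d g') : Iso d (g * g') := fun x y => by
  rw [Equiv.Perm.mul_apply, Equiv.Perm.mul_apply, hg, hg']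

lemma Iso.pow (hg : Iso d g) (n : ℕ) : Iso d (g ^ n) := by
  induction n with
  | zero => intro x y; simp
  | succ n ih => rw [pow_succ]; exact ih.mul hg

lemma Iso.zpow (hg : Iso d g) (n : ℤ) : Iso d (g ^ n) := by
  cases n with
  | ofNat n => simpa using hg.pow n
  | negSucc n => rw [zpow_negSucc]; exact (hg.pow _).inv

lemma comm_apply (hc : Commute g T) (x : X) : T (g x) = g (T x) := by
  rw [← Equiv.Perm.mul_apply, ← hc.eq, Equiv.Perm.mul_apply]

lemma Mn.comm (hx : Mn d T τ x) (hg : Iso d g) (hc : Commute g T) : Mn d T τ (g x) :=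
  ⟨by rw [comm_apply hc, hg, hx.1], hx.2⟩

lemma ka_comm (hg : Iso d g) (hc : Commute g T) (x y : X) :
    ka d T τ (g x) (g y) = ka d T τ x y := by
  unfold ka
  rw [comm_apply hc, hg, hg]

/-- every midpoint satisfies the Bruhat-Tits inequality -/
lemma cn (h : CatD d) {m y z : X} (h1 : d m y = d y z / 2) (h2 : d m z = d y z / 2) (x : X) :
    2 * d x m ^ 2 + d y z ^ 2 / 2 ≤ d x y ^ 2 + d x z ^ 2 := by
  obtain ⟨m', -, -, hm⟩ := h.mid y z
  have h3 := hm m
  rw [h1, h2] at h3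
  have h4 : d m m' = 0 := by
    have : d m m' ^ 2 ≤ 0 := by nlinarith
    exact pow_eq_zero_iff (two_ne_zero) |>.1 (le_antisymm this (sq_nonneg _))
  rw [h.eq m m' h4]
  exact hm x

lemma two_step (h : CatD d) (hT : Iso d T) (hx : Mn d T τ x) : d x (T (T x)) = 2 * τ := by
  obtain ⟨m, h1, h2, hm⟩ := h.mid x (T x)
  rw [hx.1] at h1 h2 hm
  have h3 := hm (T m)
  have h4 := hm (T⁻¹ x)
  rw [hT, h1] at h3
  rw [← hT (T⁻¹ x) m, ← hT (T⁻¹ x) x, ← hT (T⁻¹ x) (T x), ap_inv, hx.1] at h4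
  have h5 := hx.2 m
  have h0 : 0 ≤ τ := hx.1 ▸ h.nonneg _ _
  have h6 := pow_le_pow_left₀ h0 h5 2
  rw [h.symm (T m) m, h.symm (T m) x] at h3
  have h7 := h.tri x (T x) (T (T x))
  rw [hT, hx.1] at h7
  have h8 : (2 * τ) ^ 2 ≤ d x (T (T x)) ^ 2 := by nlinarith
  have h9 := (pow_le_pow_iff_left₀ (by linarith) (h.nonneg _ _) two_ne_zero).1 h8
  linarith

lemma step (h : CatD d) (hT : Iso d T) (hx : Mn d T τ x) (hy : Mn d T τ y) :
    d x (T (T y)) ^ 2 + d x y ^ 2 = 2 * d x (T y) ^ 2 + 2 * τ ^ 2 := by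
  have h1 := two_step h hT hy
  have h2 := cn h (m := T y) (y := y) (z := T (T y)) (by rw [h1, h.symm, hy.1]; ring)
    (by rw [h1, hT, hy.1]; ring) x
  have h3 := h.quad x (T x) (T (T y)) (T y)
  rw [h.symm (T (T y)) (T y), hT, hT, hT, hx.1, hy.1, h.symm (T y) x] at h3
  rw [h1] at h2
  nlinarith

lemma quadZ (h : CatD d) (hT : Iso d T) (hx : Mn d T τ x) (hy : Mn d T τ y) (n : ℤ) :
    d x ((T ^ n) y) ^ 2 = d x y ^ 2 - 2 * n * ka d T τ x y + (n : ℝ) ^ 2 * τ ^ 2 := by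
  have hs : ∀ n : ℤ, d x ((T ^ (n + 2)) y) ^ 2 + d x ((T ^ n) y) ^ 2 =
      2 * d x ((T ^ (n + 1)) y) ^ 2 + 2 * τ ^ 2 := fun n => by
    have h1 := step h hT hx (hy.comm (hT.zpow n) (Commute.zpow_self T n))
    have e1 : T ^ (n + 1) = T * T ^ n := by rw [add_comm, zpow_one_add]
    have e2 : T ^ (n + 2) = T * (T * T ^ n) := by
      rw [← e1, ← zpow_one_add]; congr 1; ring
    rw [e1, e2]
    exact h1
  have key : ∀ n : ℤ, d x ((T ^ (n + 1)) y) ^ 2 - d x ((T ^ n) y) ^ 2 =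
      - 2 * ka d T τ x y + (2 * n + 1) * τ ^ 2 := fun n => by
    induction n using Int.induction_on with
    | zero => simp [ka]; ring
    | succ n ih =>
      have := hs n
      rw [add_assoc, one_add_one_eq_two]
      push_cast at ih ⊢
      linarith
    | pred n ih =>
      have := hs (-n - 1)
      rw [show -(n : ℤ) - 1 + 2 = -n + 1 by ring, show -(n : ℤ) - 1 + 1 = -n by ring] at this
      rw [show -(n : ℤ) - 1 + 1 = -n by ring]
      push_cast at ih ⊢
      linarith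
  induction n using Int.induction_on with
  | zero => simp
  | succ n ih =>
    have := key n
    push_cast at ih this ⊢
    linarith
  | pred n ih =>
    have := key (-n - 1)
    rw [show -(n : ℤ) - 1 + 1 = -n by ring] at this
    push_cast at ih this ⊢
    linarith

lemma zero_of_bdd {r C : ℝ} (h : ∀ n : ℤ, n * r ≤ C) : r = 0 := by
  by_contra hr
  rcases lt_or_gt_of_ne hr with h1 | h1
  · obtain ⟨n, hn⟩ := exists_nat_gt (C / (-r))
    have h2 := h (-n)
    rw [div_lt_iff₀ (by linarith)] at hn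
    push_cast at h2
    linarith
  · obtain ⟨n, hn⟩ := exists_nat_gt (C / r)
    have h2 := h n
    rw [div_lt_iff₀ h1] at hn
    push_cast at h2
    linarith

lemma ka_add (h : CatD d) (hT : Iso d T) (hx : Mn d T τ x) (hy : Mn d T τ y) (hz : Mn d T τ z) :
    ka d T τ x z = ka d T τ x y + ka d T τ y z := by
  have key : ka d T τ x y + ka d T τ y z - ka d T τ x z = 0 := by
    refine zero_of_bdd (C := (2 * d x y ^ 2 + 2 * d y z ^ 2 - d x z ^ 2) / 4) fun n => ?_
    have h1 := quadZ h hT hx hy n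
    have h2 := quadZ h hT hy hz n
    have h3 := quadZ h hT hx hz (n + n)
    have h4 := h.tri x ((T ^ n) y) ((T ^ (n + n)) z)
    rw [zpow_add, Equiv.Perm.mul_apply] at h3 h4
    rw [hT.zpow n] at h4
    have h5 := pow_le_pow_left₀ (h.nonneg _ _) h4 2
    push_cast at h3
    nlinarith [sq_nonneg (d x ((T ^ n) y) - d y ((T ^ n) z))]
  linarith

lemma be_mul (h : CatD d) (hT : Iso d T) (hx : Mn d T τ x) (hg : Iso d g) (hc : Commute g T)
    (hg' : Iso d g') (hc' : Commute g' T) :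
    ka d T τ ((g * g') x) x = ka d T τ (g x) x + ka d T τ (g' x) x := by
  rw [ka_add h hT (hx.comm (hg.mul hg') (hc.mul_left hc')) (hx.comm hg hc) hx,
    Equiv.Perm.mul_apply, ka_comm hg hc, add_comm]

lemma be_one (h : CatD d) (hx : Mn d T τ x) : ka d T τ x x = 0 := by
  unfold ka
  rw [h.self, hx.1]
  ring

lemma be_pow (h : CatD d) (hT : Iso d T) (hx : Mn d T τ x) (hg : Iso d g) (hc : Commute g T)
    (n : ℕ) : ka d T τ ((g ^ n) x) x = n * ka d T τ (g x) x := by
  induction n with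
  | zero => simpa using be_one h hx
  | succ n ih =>
    rw [pow_succ, be_mul h hT hx (hg.pow n) (hc.pow_left n) hg hc, ih]
    push_cast
    ring

lemma be_comm (h : CatD d) (hT : Iso d T) (hx : Mn d T τ x) {a b u : Equiv.Perm X}
    (ha : Iso d a) (hb : Iso d b) (hu : Iso d u) (ca : Commute a T) (cb : Commute b T)
    (cu : Commute u T) (hab : a * b = b * u * a) : ka d T τ (u x) x = 0 := by
  have h1 := be_mul h hT hx ha ca hb cb
  have h2 := be_mul h hT hx (hb.mul hu) (cb.mul_left cu) ha ca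
  have h3 := be_mul h hT hx hb cb hu cu
  rw [hab, h2, h3] at h1
  linarith

lemma pow_le (h : CatD d) (hg : Iso d g) (x : X) (n : ℕ) : d ((g ^ n) x) x ≤ n * d (g x) x := by
  induction n with
  | zero => simp [h.self]
  | succ n ih =>
    have h1 := h.tri ((g ^ (n + 1)) x) ((g ^ n) x) x
    rw [pow_succ, Equiv.Perm.mul_apply, hg.pow n] at h1
    rw [pow_succ, Equiv.Perm.mul_apply, Nat.cast_succ]
    linarith

lemma near (h : CatD d) (hg : Iso d g) (hg' : Iso d g') (x y : X) :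
    d (g x) (g' x) ≤ d (g y) (g' y) + 2 * d x y := by
  have h1 := h.tri (g x) (g y) (g' x)
  have h2 := h.tri (g y) (g' y) (g' x)
  rw [hg] at h1
  rw [hg', h.symm y x] at h2
  linarith

end CatX

open CatX in
theorem cat_obstruction (h : CatD d) {a b c e u s : Equiv.Perm X}
    (iso : ∀ T ∈ ({a, b, c, e, u, s} : Set (Equiv.Perm X)), ∀ x y, d (T x) (T y) = d x y)
    (hus : u * s = s * u) (has : a * s = s * a) (hbs : b * s = s * b) (hab : a * b = b * u * a)
    (hc : c * (u * s) = (u * s) * c) (he : e * (u * s) = (u * s) * e) (hce : c * e = e * s * c)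
    {x₁ : X} (h₁ : ∀ y, d x₁ (s x₁) ≤ d y (s y))
    {x₂ : X} (h₂ : ∀ y, d x₂ ((u * s) x₂) ≤ d y ((u * s) y)) : s x₁ = x₁ := by
  have ia : Iso d a := iso a (by simp)
  have ib : Iso d b := iso b (by simp)
  have ic : Iso d c := iso c (by simp)
  have ie : Iso d e := iso e (by simp)
  have iu : Iso d u := iso u (by simp)
  have is : Iso d s := iso s (by simp)
  have it : Iso d (u * s) := iu.mul is
  have cus : Commute u s := hus
  have cts : Commute (u * s) s := cus.mul_left (Commute.refl s)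
  set t := u * s with ht
  set τ := d x₁ (s x₁) with hτ
  set σ := d x₂ (t x₂) with hσ
  have m1 : Mn d s τ x₁ := ⟨rfl, h₁⟩
  have m2 : Mn d t σ x₂ := ⟨rfl, h₂⟩
  have b1 : ka d s τ (t x₁) x₁ = τ ^ 2 := by
    rw [ht, be_mul h is m1 iu cus is (Commute.refl s), be_comm h is m1 ia ib iu has hbs cus hab]
    unfold ka
    rw [h.self, h.symm (s x₁) x₁]
    ring
  have b2 : ka d t σ (s x₂) x₂ = 0 := be_comm h it m2 ic ie is hc he cts.symm hce
  have b3 : ka d t σ (s⁻¹ x₂) x₂ = 0 := by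
    have h1 := be_mul h it m2 is cts.symm is.inv cts.symm.inv_left
    rw [mul_inv_cancel, Equiv.Perm.one_apply, be_one h m2, b2] at h1
    linarith
  have hδ := h.nonneg x₁ x₂
  have hτ0 : 0 ≤ τ := h.nonneg _ _
  have hC := h.nonneg (t x₁) x₁
  have key : ∀ n : ℕ, 4 * (n : ℝ) ^ 2 * τ ^ 2 ≤
      8 * d x₁ x₂ * (n * (d (t x₁) x₁ + τ)) + 16 * d x₁ x₂ ^ 2 := fun n => by
    have mt := m1.comm (it.pow n) (cts.pow_left n)
    have q1 := quadZ h is mt m1 n
    have q2 := quadZ h is mt m1 (-n)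
    rw [be_pow h is m1 it cts, b1] at q1 q2
    have q3 := quadZ h it (m2.comm (is.pow n) (cts.symm.pow_left n)) m2 n
    have q4 := quadZ h it (m2.comm (is.inv.pow n) (cts.symm.inv_left.pow_left n)) m2 n
    rw [be_pow h it m2 is cts.symm, b2] at q3
    rw [be_pow h it m2 is.inv cts.symm.inv_left, b3] at q4
    rw [zpow_neg, zpow_natCast] at q2
    rw [zpow_natCast] at q1 q3 q4
    rw [inv_pow] at q4
    have e1 : d ((s ^ n)⁻¹ x₂) x₂ = d ((s ^ n) x₂) x₂ := by
      rw [← is.pow n ((s ^ n)⁻¹ x₂) x₂, ap_inv, h.symm]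
    rw [e1] at q4
    have e2 : d ((s ^ n)⁻¹ x₂) ((t ^ n) x₂) = d ((s ^ n) x₂) ((t ^ n) x₂) := by
      refine (pow_left_inj₀ (h.nonneg _ _) (h.nonneg _ _) two_ne_zero).1 ?_
      rw [q3, q4]
    have n1 := near h (it.pow n) (is.pow n).inv x₁ x₂
    have n2 := near h (it.pow n) (is.pow n) x₂ x₁
    rw [h.symm ((t ^ n) x₂), e2, h.symm ((s ^ n) x₂)] at n1
    rw [h.symm x₂ x₁] at n2
    have n3 : d ((t ^ n) x₁) ((s ^ n)⁻¹ x₁) ≤ d ((t ^ n) x₁) ((s ^ n) x₁) + 4 * d x₁ x₂ := by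
      linarith
    have n4 := pow_le_pow_left₀ (h.nonneg _ _) n3 2
    have n5 : d ((t ^ n) x₁) ((s ^ n) x₁) ≤ n * (d (t x₁) x₁ + τ) := by
      have k1 := h.tri ((t ^ n) x₁) x₁ ((s ^ n) x₁)
      have k2 := pow_le h it x₁ n
      have k3 := pow_le h is x₁ n
      rw [h.symm ((s ^ n) x₁), h.symm (s x₁)] at k3
      linarith
    have n6 := mul_le_mul_of_nonneg_left n5 hδ
    rw [Int.cast_neg] at q2
    rw [Int.cast_natCast] at q1 q2
    nlinarith
  have hz : τ = 0 := by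
    by_contra hne
    have hp : 0 < τ ^ 2 := by positivity
    set A := 8 * d x₁ x₂ * (d (t x₁) x₁ + τ) + 16 * d x₁ x₂ ^ 2 with hA
    obtain ⟨n, hn⟩ := exists_nat_gt (A / (4 * τ ^ 2))
    have hA0 : 0 ≤ A := by positivity
    rw [div_lt_iff₀ (by positivity)] at hn
    have hn1 : (1 : ℝ) ≤ n := by
      have : (0 : ℝ) < n := by
        by_contra h0
        nlinarith
      exact_mod_cast Nat.one_le_iff_ne_zero.2 (by rintro rfl; simp at this)
    have k := key n
    nlinarith [mul_le_mul_of_nonneg_left hn1 (sq_nonneg (d x₁ x₂)),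
      mul_lt_mul_of_pos_left hn (by linarith : (0 : ℝ) < n)]
  exact (h.eq _ _ hz).symm

end Vale.Agent.P255
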