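import Vale.Agent.P255.Base

open scoped ContDiff Manifold Topology
open Set Filter

noncomputable section

namespace Vale.Agent.P255

variable {E : Type} [NormedAddCommGroup E] [NormedSpace ℝ E]
variable {M : Type} [TopologicalSpace M] [ChartedSpace E M] [IsManifold 𝓘(ℝ, E) ∞ M]
variable {e e' : OpenPartialHomeomorph M E}

theorem contDiffOn_trans (he : e ∈ atlas E M) (he' : e' ∈ atlas E M) :
    ContDiffOn ℝ ∞ (e' ∘ e.symm) (e.target ∩ e.symm ⁻¹' e'.source) := by
  have h := (contDiffGroupoid ∞ 𝓘(ℝ, E)).compatible he he'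
  rw [contDiffGroupoid, mem_groupoid_of_pregroupoid] at h
  simpa [contDiffPregroupoid] using h.1

omit [NormedSpace ℝ E] [ChartedSpace E M] [IsManifold 𝓘(ℝ, E) ∞ M] in
theorem isOpen_trans (e e' : OpenPartialHomeomorph M E) :
    IsOpen (e.target ∩ e.symm ⁻¹' e'.source) :=
  e.isOpen_inter_preimage_symm e'.open_source

namespace ChartA

omit [ChartedSpace E M] [IsManifold 𝓘(ℝ, E) ∞ M] in
theorem fd_self (e : OpenPartialHomeomorph M E) {y : E} (hy : y ∈ e.target) :
    fderiv ℝ (e ∘ e.symm) y = ContinuousLinearMap.id ℝ E := by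
  have h : (e ∘ e.symm) =ᶠ[𝓝 y] id := by
    filter_upwards [e.open_target.mem_nhds hy] with z hz
    exact e.right_inv hz
  rw [h.fderiv_eq, fderiv_id]

theorem diffAt (he : e ∈ atlas E M) (he' : e' ∈ atlas E M) {p : M} (hp : p ∈ e.source)
    (hp' : p ∈ e'.source) : DifferentiableAt ℝ (e' ∘ e.symm) (e p) := by
  refine ((contDiffOn_trans he he').contDiffAt ((isOpen_trans e e').mem_nhds
    ⟨e.map_source hp, ?_⟩)).differentiableAt (by simp)
  rw [mem_preimage, e.left_inv hp]
  exact hp'

theorem cocycle {e'' : OpenPartialHomeomorph M E} (he : e ∈ atlas E M) (he' : e' ∈ atlas E M)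
    (he'' : e'' ∈ atlas E M) {p : M} (hp : p ∈ e.source) (hp' : p ∈ e'.source)
    (hp'' : p ∈ e''.source) (v : E) :
    fderiv ℝ (e'' ∘ e.symm) (e p) v =
      fderiv ℝ (e'' ∘ e'.symm) (e' p) (fderiv ℝ (e' ∘ e.symm) (e p) v) := by
  have h : (e'' ∘ e.symm) =ᶠ[𝓝 (e p)] (e'' ∘ e'.symm) ∘ (e' ∘ e.symm) := by
    have h1 : e p ∈ e.target ∩ e.symm ⁻¹' e'.source :=
      ⟨e.map_source hp, by rw [mem_preimage, e.left_inv hp]; exact hp'⟩
    filter_upwards [(isOpen_trans e e').mem_nhds h1] with z hz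
    simp only [Function.comp_apply]
    rw [e'.left_inv hz.2]
  have e1 : (e' ∘ e.symm) (e p) = e' p := by rw [Function.comp_apply, e.left_inv hp]
  rw [h.fderiv_eq, fderiv_comp _ (by rw [e1]; exact diffAt he' he'' hp' hp'') (diffAt he he' hp hp'),
    e1]
  rfl

omit [IsManifold 𝓘(ℝ, E) ∞ M] in
theorem ofChart_eq {p : M} (hp : p ∈ e.source) :
    ofChart e (e p) = fderiv ℝ (chartAt E p ∘ e.symm) (e p) := by
  rw [ofChart, e.left_inv hp]

end ChartA

open ChartA

omit [IsManifold 𝓘(ℝ, E) ∞ M] in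
theorem toChart_self (p : M) : toChart (chartAt E p) p = ContinuousLinearMap.id ℝ E :=
  fd_self _ (mem_chart_target E p)

theorem ofChart_toChart (he : e ∈ atlas E M) {p : M} (hp : p ∈ e.source) (v : E) :
    ofChart e (e p) (toChart e p v) = v := by
  rw [ofChart_eq hp, toChart, ← cocycle (chart_mem_atlas E p) he (chart_mem_atlas E p)
    (mem_chart_source E p) hp (mem_chart_source E p), fd_self _ (mem_chart_target E p)]
  rfl

theorem toChart_ofChart (he : e ∈ atlas E M) {y : E} (hy : y ∈ e.target) (w : E) :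
    toChart e (e.symm y) (ofChart e y w) = w := by
  obtain ⟨p, hp, rfl⟩ : ∃ p ∈ e.source, y = e p := ⟨_, e.map_target hy, (e.right_inv hy).symm⟩
  rw [ofChart_eq hp, e.left_inv hp, toChart, ← cocycle he (chart_mem_atlas E p) he hp
    (mem_chart_source E p) hp, fd_self _ hy]
  rfl

theorem toChart_trans (he : e ∈ atlas E M) (he' : e' ∈ atlas E M) {p : M} (hp : p ∈ e.source)
    (hp' : p ∈ e'.source) (v : E) :
    toChart e' p v = fderiv ℝ (e' ∘ e.symm) (e p) (toChart e p v) :=
  cocycle (chart_mem_atlas E p) he he' (mem_chart_source E p) hp hp' v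

theorem loc_toChart (g : M → E →L[ℝ] E →L[ℝ] ℝ) (he : e ∈ atlas E M) {p : M} (hp : p ∈ e.source)
    (v w : E) : loc g e (e p) (toChart e p v) (toChart e p w) = g p v w := by
  rw [loc, ContinuousLinearMap.bilinearComp_apply, ofChart_toChart he hp, ofChart_toChart he hp,
    e.left_inv hp]

theorem lm_loc (g : RMetric E M) (he : e ∈ atlas E M) : LM (loc g.inner e) e.target := by
  refine ⟨e.open_target, g.smooth e he, fun y _ a b => ?_, fun y hy a ha => ?_⟩
  · simp only [loc, ContinuousLinearMap.bilinearComp_apply]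
    exact g.symm _ _ _
  · simp only [loc, ContinuousLinearMap.bilinearComp_apply]
    refine g.pos _ _ fun h => ha ?_
    rw [← toChart_ofChart he hy a, h, map_zero]

theorem pb_loc (g : RMetric E M) (he : e ∈ atlas E M) (he' : e' ∈ atlas E M) :
    PB (loc g.inner e) (e.target ∩ e.symm ⁻¹' e'.source) (loc g.inner e') e'.target
      (e' ∘ e.symm) := by
  have h := lm_loc g he
  refine ⟨⟨isOpen_trans e e', h.sm.mono inter_subset_left, fun y hy => h.symm y hy.1,
    fun y hy => h.pos y hy.1⟩, lm_loc g he', contDiffOn_trans he he',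
    fun y hy => e'.map_source hy.2, fun y hy a b => ?_⟩
  have hp := e.map_target hy.1
  have h1 := loc_toChart g.inner he' hy.2 (ofChart e y a) (ofChart e y b)
  rw [toChart_trans he he' hp hy.2, toChart_trans he he' hp hy.2, toChart_ofChart he hy.1,
    toChart_ofChart he hy.1, e.right_inv hy.1] at h1
  exact h1.symm

theorem Lami_Lam (he : e ∈ atlas E M) {s : M × E} (hs : s.1 ∈ e.source) :
    Lami e (Lam e s) = s :=
  Prod.ext (e.left_inv hs) (ofChart_toChart he hs s.2)

theorem Lam_Lami (he : e ∈ atlas E M) {z : E × E} (hz : z.1 ∈ e.target) :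
    Lam e (Lami e z) = z :=
  Prod.ext (e.right_inv hz) (toChart_ofChart he hz z.2)

theorem Lam_trans (he : e ∈ atlas E M) (he' : e' ∈ atlas E M) {s : M × E} (hs : s.1 ∈ e.source)
    (hs' : s.1 ∈ e'.source) : Lam e' s = tmap (e' ∘ e.symm) (Lam e s) :=
  Prod.ext (congrArg e' (e.left_inv hs).symm) (toChart_trans he he' hs hs' s.2)

theorem Lami_self (p : M) (v : E) : Lami (chartAt E p) (chartAt E p p, v) = (p, v) := by
  have h := Lami_Lam (s := (p, v)) (chart_mem_atlas E p) (mem_chart_source E p)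
  rwa [Lam, toChart_self] at h

end Vale.Agent.P255
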