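import Vale.Agent.P255.GeoA

open scoped ContDiff Manifold Topology
open Set Filter Real

noncomputable section

namespace Vale.Agent.P255

namespace CompX

theorem bil_pos {b c d : ℝ} (hd : 0 < d) (h : 0 < b * d - c ^ 2) {a : E3} (ha : a ≠ 0) :
    0 < bil b c d a a := by
  obtain ⟨x, y, z⟩ := a
  rw [bil_apply]
  dsimp only
  refine pos_of_mul_pos_left (b := d) ?_ hd.le
  have e : (x * x + b * (y * y) + c * (y * z + z * y) + d * (z * z)) * d =
      d * x ^ 2 + (b * d - c ^ 2) * y ^ 2 + (d * z + c * y) ^ 2 := by ring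
  rw [e]
  have h1 : 0 ≤ d * x ^ 2 := by positivity
  have h2 : 0 ≤ (b * d - c ^ 2) * y ^ 2 := by positivity
  have h3 : 0 ≤ (d * z + c * y) ^ 2 := by positivity
  by_cases hx : x = 0
  · by_cases hy : y = 0
    · have hz : z ≠ 0 := fun hz => ha (by rw [hx, hy, hz]; rfl)
      have : 0 < (d * z + c * y) ^ 2 := by rw [hy, mul_zero, add_zero]; positivity
      linarith
    · have : 0 < (b * d - c ^ 2) * y ^ 2 := by positivity
      linarith
  · have : 0 < d * x ^ 2 := by positivity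
    linarith

theorem B_pos (P : Prof) : 0 < P.B := by
  have h1 := P.posD 0
  obtain ⟨h2, h3, -⟩ := P.left 0 le_rfl
  rw [h2, h3] at h1
  exact pos_of_mul_pos_right (a := P.A 0) (by simpa using h1) (P.posA 0).le

theorem D_pos (P : Prof) : 0 < P.D := by
  have h1 := P.posA 1
  rwa [(P.right 1 le_rfl).1] at h1

theorem lc {X : Type} [TopologicalSpace X] {f : X → ℝ} {y : X} (hf : ContinuousAt f y) {p : ℝ}
    (hp : 0 < p) (h : ∀ᶠ z in 𝓝 y, ∃ m : ℤ, f z = p * m) : ∀ᶠ z in 𝓝 y, f z = f y := by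
  obtain ⟨m0, h0⟩ := h.self_of_nhds
  have h1 : ∀ᶠ z in 𝓝 y, dist (f z) (f y) < p := hf (Metric.ball_mem_nhds _ hp)
  filter_upwards [h, h1] with z ⟨m, hm⟩ hz
  rw [Real.dist_eq, hm, h0, ← mul_sub, abs_mul, abs_of_pos hp] at hz
  have h2 : |((m - m0 : ℤ) : ℝ)| < 1 := by
    push_cast
    exact lt_of_mul_lt_mul_left (by simpa using hz) hp.le
  have h3 : |m - m0| < 1 := by exact_mod_cast h2
  have h4 : m = m0 := by rw [abs_lt] at h3; omega
  rw [hm, h0, h4]

theorem lc3 {X : Type} [TopologicalSpace X] {F : X → E3} {y : X} (hF : ContinuousAt F y)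
    {p q r : ℝ} (hp : 0 < p) (hq : 0 < q) (hr : 0 < r)
    (h : ∀ᶠ z in 𝓝 y, ∃ l m n : ℤ, F z = (p * l, q * m, r * n)) : ∀ᶠ z in 𝓝 y, F z = F y := by
  have h1 := lc (f := fun z => (F z).1) hF.fst hp
    (h.mono fun z ⟨l, _, _, e⟩ => ⟨l, by rw [e]⟩)
  have h2 := lc (f := fun z => (F z).2.1) hF.snd.fst hq
    (h.mono fun z ⟨_, m, _, e⟩ => ⟨m, by rw [e]⟩)
  have h3 := lc (f := fun z => (F z).2.2) hF.snd.snd hr
    (h.mono fun z ⟨_, _, n, e⟩ => ⟨n, by rw [e]⟩)
  filter_upwards [h1, h2, h3] with z a1 a2 a3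
  exact Prod.ext a1 (Prod.ext a2 a3)

def hL (b : Bool) : E3 →L[ℝ] ℝ := if b then e1 else -e1
def aL (b : Bool) : E3 →L[ℝ] ℝ := if b then e3 - e2 else e2
def fL (b : Bool) : E3 →L[ℝ] ℝ := if b then e2 else e3

theorem d_hgt (b : Bool) (y : E3) : HasFDerivAt (hgt b) (hL b) y := by
  cases b
  · exact e1.hasFDerivAt.neg
  · exact e1.hasFDerivAt.sub_const 1

theorem d_ang (b : Bool) (y : E3) : HasFDerivAt (ang b) (aL b) y := by
  cases b
  · exact e2.hasFDerivAt
  · exact e3.hasFDerivAt.sub e2.hasFDerivAt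

theorem d_fib (b : Bool) (y : E3) : HasFDerivAt (fib b) (fL b) y := by
  cases b
  · exact e3.hasFDerivAt
  · exact e2.hasFDerivAt

theorem d_pol (c : Bool → ℝ) (b : Bool) (y : E3) : ∃ L : E3 →L[ℝ] E3, HasFDerivAt (pol c b) L y ∧
    ∀ a, L a = (hL b a * cos (ang b y) - (c b + hgt b y) * sin (ang b y) * aL b a,
      hL b a * sin (ang b y) + (c b + hgt b y) * cos (ang b y) * aL b a, fL b a) := by
  have h1 := ((d_hgt b y).const_add (c b)).mul (d_ang b y).cos
  have h2 := ((d_hgt b y).const_add (c b)).mul (d_ang b y).sin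
  refine ⟨_, h1.prodMk (h2.prodMk (d_fib b y)), fun a => ?_⟩
  refine Prod.ext ?_ (Prod.ext ?_ rfl)
  · simp; ring
  · simp; ring

theorem key (P : Prof) {b : Bool} {y : E3} (hy : 1 < hgt b y) (z v w : E3) :
    P.GN y v w = P.Gm (some b) z (fderiv ℝ (pol P.c b) y v) (fderiv ℝ (pol P.c b) y w) := by
  obtain ⟨L, hL1, hL2⟩ := d_pol P.c b y
  rw [hL1.fderiv, hL2, hL2, Prof.GN, Prof.Gm, bil_apply, bil_apply]
  have hB := B_pos P
  have hD := D_pos P
  have hc := P.hc b
  have cs := Real.sin_sq_add_cos_sq (ang b y)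
  generalize cos (ang b y) = C at cs ⊢
  generalize sin (ang b y) = S at cs ⊢
  cases b
  · have h1 : y.1 ≤ -1 := by simp [hgt] at hy; linarith
    obtain ⟨h2, h3, -⟩ := P.left y.1 (by linarith)
    have h4 : P.c false - y.1 ≠ 0 := by linarith
    have h6 : P.Dt y.1 = P.B / (P.c false - y.1) ^ 2 := by
      rw [Prof.Dt, P.endL _ h1, h2, h3]; ring
    have e1' : P.C y.1 / P.Dt y.1 = (P.c false - y.1) ^ 2 := by
      rw [h6, h3]; field_simp
    have e2' : P.A y.1 / P.Dt y.1 = 1 / P.B := by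
      rw [h6, P.endL _ h1]; field_simp
    rw [e1', e2', h2]
    simp only [hL, aL, fL, hgt, e1, e2, e3, Bool.false_eq_true, if_false]
    simp only [ContinuousLinearMap.neg_apply, ContinuousLinearMap.comp_apply,
      ContinuousLinearMap.coe_fst', ContinuousLinearMap.coe_snd']
    linear_combination (-(v.1 * w.1) - (P.c false - y.1) ^ 2 * (v.2.1 * w.2.1)) * cs
  · have h1 : 2 ≤ y.1 := by simp [hgt] at hy; linarith
    obtain ⟨h2, h3, -⟩ := P.right y.1 (by linarith)
    have h4 : P.c true + y.1 - 1 ≠ 0 := by linarith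
    have h5 : P.C y.1 = P.D + 1 / (P.c true + y.1 - 1) ^ 2 := by linarith [P.endR _ h1]
    have h6 : P.Dt y.1 = P.D / (P.c true + y.1 - 1) ^ 2 := by
      rw [Prof.Dt, h2, h3, h5]; field_simp; ring
    have e1' : P.C y.1 / P.Dt y.1 = (P.c true + y.1 - 1) ^ 2 + 1 / P.D := by
      rw [h6, h5]; field_simp
    have e2' : P.A y.1 / P.Dt y.1 = (P.c true + y.1 - 1) ^ 2 := by
      rw [h6, h2]; field_simp
    have e3' : - P.K y.1 / P.Dt y.1 = - (P.c true + y.1 - 1) ^ 2 := by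
      rw [h6, h3]; field_simp
    rw [e1', e2', e3']
    simp only [hL, aL, fL, hgt, e1, e2, e3, if_true]
    simp only [ContinuousLinearMap.sub_apply, ContinuousLinearMap.comp_apply,
      ContinuousLinearMap.coe_fst', ContinuousLinearMap.coe_snd']
    linear_combination (-(v.1 * w.1) -
      (P.c true + y.1 - 1) ^ 2 * ((v.2.2 - v.2.1) * (w.2.2 - w.2.1))) * cs

theorem fd_of {τ σ : E3 → E3} {y : E3} (h : ∀ᶠ z in 𝓝 y, τ z - σ z = τ y - σ y) :
    fderiv ℝ τ y = fderiv ℝ σ y := by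
  have h1 : τ =ᶠ[𝓝 y] fun z => σ z + (τ y - σ y) := by
    filter_upwards [h] with z hz
    rw [← hz]; abel
  rw [h1.fderiv_eq, fderiv_add_const]

end CompX

open CompX

theorem lm_Gm (P : Prof) (i : Option Bool) : LM (P.Gm i) univ := by
  have hB := B_pos P
  have hD := D_pos P
  rcases i with _ | b
  · have hA : ContDiff ℝ ∞ fun y : E3 => P.A y.1 := P.sA.comp contDiff_fst
    have hK : ContDiff ℝ ∞ fun y : E3 => P.K y.1 := P.sK.comp contDiff_fst
    have hC : ContDiff ℝ ∞ fun y : E3 => P.C y.1 := P.sC.comp contDiff_fst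
    have hT : ContDiff ℝ ∞ fun y : E3 => P.Dt y.1 := (hA.mul hC).sub (hK.pow 2)
    have h0 : ∀ y : E3, P.Dt y.1 ≠ 0 := fun y => (P.posD y.1).ne'
    refine ⟨isOpen_univ, ContDiff.contDiffOn ?_, fun y _ a b => ?_, fun y _ a ha => ?_⟩
    · refine contDiff_clm_apply_iff.2 fun a => contDiff_clm_apply_iff.2 fun b => ?_
      simp only [Prof.Gm, Prof.GN, bil_apply]
      exact ((contDiff_const.add ((hC.div hT h0).mul contDiff_const)).add
        ((hK.neg.div hT h0).mul contDiff_const)).add ((hA.div hT h0).mul contDiff_const)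
    · simp only [Prof.Gm, Prof.GN, bil_apply]; ring
    · have h1 : 0 < P.Dt y.1 := P.posD y.1
      refine bil_pos (div_pos (P.posA _) h1) ?_ ha
      have e : P.C y.1 / P.Dt y.1 * (P.A y.1 / P.Dt y.1) - (-P.K y.1 / P.Dt y.1) ^ 2 =
          (P.A y.1 * P.C y.1 - P.K y.1 ^ 2) / P.Dt y.1 ^ 2 := by field_simp
      rw [e]
      exact div_pos h1 (by positivity)
  · have hd : 0 < if b = true then 1 / P.D else 1 / P.B := by split_ifs <;> positivity
    refine ⟨isOpen_univ, contDiffOn_const, fun y _ a b => ?_, fun y _ a ha => ?_⟩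
    · simp only [Prof.Gm, bil_apply]; ring
    · exact bil_pos hd (by simpa using hd) ha

/-- a gluing map from the neck to the neck is locally a translation in the angles -/
theorem rel_none_transl {c : Bool → ℝ} {τ : E3 → E3} {y : E3} (hτ : ContinuousAt τ y)
    (h : ∀ᶠ z in 𝓝 y, Rel c none z none (τ z)) :
    ∃ s₁ s₂ : ℝ, τ =ᶠ[𝓝 y] fun z => z + (0, s₁, s₂) := by
  have h1 := lc3 (F := fun z => τ z - z) (hτ.sub continuousAt_id) one_pos two_pi_pos two_pi_pos
    (h.mono fun z ⟨m, n, e⟩ => ⟨0, m, n, by rw [e]; simp⟩)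
  obtain ⟨m, n, e⟩ := h.self_of_nhds
  refine ⟨2 * π * m, 2 * π * n, ?_⟩
  filter_upwards [h1] with z hz
  rw [e, add_sub_cancel_left] at hz
  rw [← hz]; abel

theorem compat_model (P : Prof) : Compat (Om P.c) (Rel P.c) P.Gm := by
  intro i j τ y hy hy' hτ h v w
  rcases i with _ | b <;> rcases j with _ | b'
  · obtain ⟨s₁, s₂, h1⟩ := rel_none_transl hτ.continuousAt h
    rw [h1.fderiv_eq, fderiv_add_const, h1.self_of_nhds]
    simp [Prof.Gm, Prof.GN]
  · obtain ⟨L, hL1, -⟩ := d_pol P.c b' y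
    have h1 := lc3 (F := fun z => τ z - pol P.c b' z) (hτ.continuousAt.sub hL1.continuousAt)
      one_pos one_pos two_pi_pos (h.mono fun z ⟨_, n, e⟩ => ⟨0, 0, n, by rw [e]; simp⟩)
    rw [fd_of h1]
    exact key P (one_lt_hgt P.hc hy' h.self_of_nhds) _ v w
  · obtain ⟨L, hL1, -⟩ := d_pol P.c b (τ y)
    have h0 := hL1.comp y hτ.hasFDerivAt
    have h1 := lc3 (F := fun z => id z - (pol P.c b ∘ τ) z) (continuousAt_id.sub h0.continuousAt)
      one_pos one_pos two_pi_pos (h.mono fun z ⟨_, n, e⟩ => ⟨0, 0, n, by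
        simp only [id, Function.comp]
        rw [sub_eq_iff_eq_add', Int.cast_zero, mul_zero]; exact e⟩)
    have h2 := fd_of h1
    rw [h0.fderiv, fderiv_id] at h2
    have h3 : ∀ a, L (fderiv ℝ τ y a) = a := fun a => by
      have := congrArg (fun T : E3 →L[ℝ] E3 => T a) h2
      simpa using this.symm
    have h4 := key P (one_lt_hgt (y := τ y) P.hc hy h.self_of_nhds) y (fderiv ℝ τ y v)
      (fderiv ℝ τ y w)
    rw [hL1.fderiv, h3, h3] at h4
    exact h4.symm
  · obtain rfl : b = b' := h.self_of_nhds.1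
    have hp : 0 < 2 * (P.c b + 10) := by linarith [P.hc b]
    have h1 := lc3 (F := fun z => τ z - id z) (hτ.continuousAt.sub continuousAt_id)
      hp hp two_pi_pos (h.mono fun z ⟨_, l, m, n, e⟩ => ⟨l, m, n, by rw [e]; simp⟩)
    rw [fd_of h1, fderiv_id]
    rfl

end Vale.Agent.P255
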