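import Vale.Agent.P255.Chart

open scoped ContDiff Manifold Topology
open Set Filter

noncomputable section

namespace Vale.Agent.P255

variable {E : Type} [NormedAddCommGroup E] [NormedSpace ℝ E]
variable {M : Type} [TopologicalSpace M] [ChartedSpace E M] [IsManifold 𝓘(ℝ, E) ∞ M]
variable {ι : Type} {Ω : ι → Set E} {R : ι → E → ι → E → Prop} {π : ι → E → M}

/-- chart transitions are gluing maps -/
theorem Pres.trans_rel (h : Pres Ω R π) {e e' : OpenPartialHomeomorph M E} {i j : ι}
    (hi : Ty Ω π e i) (hj : Ty Ω π e' j) {y : E} (hy : y ∈ e.target ∩ e.symm ⁻¹' e'.source) :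
    ∀ᶠ z in 𝓝 y, R i z j ((e' ∘ e.symm) z) := by
  filter_upwards [(isOpen_trans e e').mem_nhds hy] with z hz
  have h1 : e' (e.symm z) ∈ e'.target := e'.map_source hz.2
  refine (h.rel i j z (hi.1 hz.1) _ (hj.1 h1)).1 ?_
  rw [← hi.2 z hz.1, ← hj.2 _ h1]
  exact (e'.left_inv hz.2).symm

theorem Pres.surj (h : Pres Ω R π) (p : M) : ∃ i, ∃ y ∈ Ω i, π i y = p := by
  obtain ⟨i, hi⟩ := h.ty _ (chart_mem_atlas E p)
  have h1 := mem_chart_target E p
  refine ⟨i, chartAt E p p, hi.1 h1, ?_⟩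
  rw [← hi.2 _ h1]
  exact (chartAt E p).left_inv (mem_chart_source E p)

theorem Pres.continuous {Z : Type} [TopologicalSpace Z] (h : Pres Ω R π) {φ : M → Z}
    (hφ : ∀ i, ContinuousOn (fun y => φ (π i y)) (Ω i)) : Continuous φ := by
  rw [continuous_iff_continuousAt]
  intro p
  obtain ⟨i, hi⟩ := h.ty _ (chart_mem_atlas E p)
  have h1 := mem_chart_target E p
  have h2 : ContinuousAt (fun y => φ (π i y)) (chartAt E p p) :=
    ((hφ i).mono hi.1).continuousAt ((chartAt E p).open_target.mem_nhds h1)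
  have h3 := h2.comp ((chartAt E p).continuousAt (mem_chart_source E p))
  refine h3.congr ?_
  filter_upwards [(chartAt E p).open_source.mem_nhds (mem_chart_source E p)] with q hq
  show φ (π i (chartAt E p q)) = φ q
  rw [← hi.2 _ ((chartAt E p).map_source hq), (chartAt E p).left_inv hq]

theorem exists_metric (h : Pres Ω R π) {G : ι → E → E →L[ℝ] E →L[ℝ] ℝ}
    (hG : ∀ i, LM (G i) (Ω i)) (hc : Compat Ω R G) :
    ∃ g : RMetric E M, ∀ e ∈ atlas E M, ∀ i, Ty Ω π e i →
      ∀ y ∈ e.target, loc g.inner e y = G i y := by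
  choose ix hix using fun p : M => h.ty _ (chart_mem_atlas E p)
  have hm : ∀ p : M, chartAt E p p ∈ Ω (ix p) := fun p => (hix p).1 (mem_chart_target E p)
  have key : ∀ e ∈ atlas E M, ∀ i, Ty Ω π e i → ∀ y ∈ e.target,
      loc (fun p => G (ix p) (chartAt E p p)) e y = G i y := by
    intro e he i hi y hy
    have hy' : y ∈ e.target ∩ e.symm ⁻¹' (chartAt E (e.symm y)).source :=
      ⟨hy, mem_chart_source E _⟩
    have hd : DifferentiableAt ℝ (chartAt E (e.symm y) ∘ e.symm) y :=
      ((contDiffOn_trans he (chart_mem_atlas E _)).contDiffAt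
        ((isOpen_trans _ _).mem_nhds hy')).differentiableAt (by simp)
    ext a b
    exact (hc i (ix (e.symm y)) _ y (hi.1 hy) (hm _) hd (h.trans_rel hi (hix _) hy') a b).symm
  refine ⟨⟨fun p => G (ix p) (chartAt E p p), fun p => (hG _).symm _ (hm p),
    fun p => (hG _).pos _ (hm p), fun e he => ?_⟩, key⟩
  obtain ⟨i, hi⟩ := h.ty e he
  exact ((hG i).sm.mono hi.1).congr (key e he i hi)

end Vale.Agent.P255
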