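import Vale.Agent.P255.GeoA
import Vale.Agent.P255.Met

open scoped ContDiff Manifold Topology
open Set Filter Real

noncomputable section

namespace Vale.Agent.P255

variable {M : Type} [TopologicalSpace M] [ChartedSpace E3 M] [IsManifold 𝓘(ℝ, E3) ∞ M]
  {c : Bool → ℝ} {π' : Option Bool → E3 → M}

theorem connected_model (hc : ∀ b, 2 ≤ c b) (h : Pres (Om c) (Rel c) π') : ConnectedSpace M := by
  have h00 : (0 : E3) ∈ Om c none := by simp [Om]
  have hconv : Convex ℝ (Om c none) := by
    have : Om c none = (Ioo (-3 : ℝ) 4) ×ˢ (univ : Set (ℝ × ℝ)) := by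
      ext y; simp [Om]
    rw [this]
    exact (convex_Ioo _ _).prod convex_univ
  have hN : IsPreconnected (π' none '' Om c none) := hconv.isPreconnected.image _ (h.cont none)
  have hpre : IsPreconnected (univ : Set M) := by
    refine isPreconnected_of_forall (π' none 0) fun p _ => ?_
    obtain ⟨i, y, hy, rfl⟩ := h.surj p
    rcases i with _ | b
    · exact ⟨_, subset_univ _, mem_image_of_mem _ h00, mem_image_of_mem _ hy, hN⟩
    · have hb := hc b
      obtain ⟨θ, h1, h2⟩ := GeoX.polar y.1 y.2.1
      set r := √(y.1 ^ 2 + y.2.1 ^ 2) with hr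
      have hr1 : c b + 1 < r := Real.lt_sqrt_of_sq_lt hy.2.2
      let f : ℝ → E3 := fun t => (t * cos θ, t * sin θ, y.2.2)
      have hf : Continuous f := by fun_prop
      have hmem : ∀ t ∈ uIcc r (c b + 2), f t ∈ Om c (some b) := by
        intro t ht
        have t1 : c b + 1 < t := lt_of_lt_of_le (lt_min hr1 (by linarith)) ht.1
        have key : ∀ s : ℝ, |s| ≤ 1 → |r * s| < c b + 11 → |t * s| < c b + 11 := by
          intro s hs hrs
          rw [abs_mul, abs_of_pos (by linarith)] at hrs ⊢
          rcases le_max_iff.1 ht.2 with g | g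
          · nlinarith [abs_nonneg s]
          · nlinarith [abs_nonneg s]
        refine ⟨key _ (abs_cos_le_one θ) (h1 ▸ hy.1), key _ (abs_sin_le_one θ) (h2 ▸ hy.2.1), ?_⟩
        have := sin_sq_add_cos_sq θ
        simp only [f]
        have e : (t * cos θ) ^ 2 + (t * sin θ) ^ 2 = t ^ 2 := by linear_combination t ^ 2 * this
        rw [e]
        nlinarith
      have hS : IsPreconnected ((π' (some b) ∘ f) '' uIcc r (c b + 2)) :=
        isPreconnected_uIcc.image _ ((h.cont (some b)).comp hf.continuousOn hmem)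
      have hu : GeoX.unpol c b (c b + 2) θ y.2.2 ∈ Om c none := by
        have := GeoX.hgt_unpol (c := c) b (c b + 2) θ y.2.2
        cases b <;> simp only [hgt] at this <;> norm_num at this <;> constructor <;> linarith
      have hrel : π' none (GeoX.unpol c b (c b + 2) θ y.2.2) = π' (some b) (f (c b + 2)) := by
        refine (h.rel _ _ _ hu _ (hmem _ right_mem_uIcc)).2 ⟨?_, 0, ?_⟩
        · rw [GeoX.hgt_unpol]; linarith
        · rw [GeoX.pol_unpol]; simp [f]
      refine ⟨π' none '' Om c none ∪ (π' (some b) ∘ f) '' uIcc r (c b + 2), subset_univ _,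
        Or.inl (mem_image_of_mem _ h00), Or.inr ⟨r, left_mem_uIcc, ?_⟩,
        hN.union _ (mem_image_of_mem _ hu) ⟨c b + 2, right_mem_uIcc, hrel.symm⟩ hS⟩
      simp only [Function.comp, f]
      rw [← h1, ← h2]
  exact { toPreconnectedSpace := ⟨hpre⟩, toNonempty := ⟨π' none 0⟩ }

end Vale.Agent.P255
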