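import Vale.Agent.P255.Base

open scoped ContDiff Manifold Topology
open Set Filter

noncomputable section

namespace Vale.Agent.P255

variable {X Y : Type} [TopologicalSpace X] [TopologicalSpace Y] {P : X → Y}

namespace CovA

lemma sheet_open (h : IsLocalHomeomorph P) {U : Set Y} (hU : IsOpen U) {σ : Y → X}
    (hσ : ContinuousOn σ U) (hP : ∀ y ∈ U, P (σ y) = y) :
    IsOpen {x | P x ∈ U ∧ σ (P x) = x} := by
  rw [isOpen_iff_mem_nhds]
  rintro x ⟨hx, hx'⟩
  obtain ⟨V, hV, hxV, hi⟩ := h.isLocallyInjective x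
  have c1 : ContinuousAt (fun z => σ (P z)) x :=
    (hσ.continuousAt (hU.mem_nhds hx)).comp h.continuous.continuousAt
  have e1 : ∀ᶠ z in 𝓝 x, σ (P z) ∈ V := c1.eventually_mem (by rw [hx']; exact hV.mem_nhds hxV)
  have e2 : ∀ᶠ z in 𝓝 x, P z ∈ U := h.continuous.continuousAt.eventually_mem (hU.mem_nhds hx)
  filter_upwards [e1, e2, hV.mem_nhds hxV] with z h1 h2 h3
  exact ⟨h2, hi h1 h3 (hP _ h2)⟩

lemma fiber_discrete (h : IsLocalHomeomorph P) (y : Y) : DiscreteTopology (P ⁻¹' {y}) := by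
  rw [discreteTopology_iff_isOpen_singleton]
  intro x
  obtain ⟨V, hV, hxV, hi⟩ := h.isLocallyInjective x.1
  have e : ({x} : Set (P ⁻¹' {y})) = Subtype.val ⁻¹' V := by
    ext z
    refine ⟨fun hz => by rw [mem_singleton_iff.1 hz]; exact hxV, fun hz => Subtype.ext ?_⟩
    exact hi hz hxV ((mem_singleton_iff.1 z.2).trans (mem_singleton_iff.1 x.2).symm)
  rw [e]
  exact hV.preimage continuous_subtype_val

end CovA

/-- a local homeomorphism with enough local sections is a covering map -/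
theorem isCoveringMap_of_sections [T2Space X] (h : IsLocalHomeomorph P)
    (hs : ∀ y, ∃ U : Set Y, IsOpen U ∧ y ∈ U ∧ IsPreconnected U ∧ ∀ x, P x ∈ U →
      ∃ σ : Y → X, ContinuousOn σ U ∧ σ (P x) = x ∧ ∀ y' ∈ U, P (σ y') = y') :
    IsCoveringMap P := by
  intro y
  obtain ⟨U, hU, hy, hc, hσ⟩ := hs y
  choose σ s1 s2 s3 using hσ
  have uq : ∀ x hx x' hx', ∀ z ∈ U, σ x hx z = σ x' hx' z → EqOn (σ x hx) (σ x' hx') U :=
    fun x hx x' hx' z hz e =>
      (T2Space.isSeparatedMap P).eqOn_of_comp_eqOn h.isLocallyInjective hc (s1 x hx) (s1 x' hx')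
        (fun w hw => (s3 x hx w hw).trans (s3 x' hx' w hw).symm) hz e
  have := CovA.fiber_discrete h y
  rcases isEmpty_or_nonempty (P ⁻¹' {y}) with he | he
  · refine IsEvenlyCovered.of_preimage_eq_empty _ (hU.mem_nhds hy) ?_
    exact eq_empty_of_forall_notMem fun x hx => he.false ⟨σ x hx y, s3 x hx y hy⟩
  have hm : ∀ i : P ⁻¹' {y}, P i.1 ∈ U := fun i => by rw [mem_singleton_iff.1 i.2]; exact hy
  have hv : ∀ i : P ⁻¹' {y}, σ i.1 (hm i) y = i.1 := fun i => by
    have h1 := s2 i.1 (hm i)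
    rwa [show P i.1 = y from i.2] at h1
  have : Nonempty (Y → X) := ⟨fun _ => (Classical.arbitrary (P ⁻¹' {y})).1⟩
  refine IsEvenlyCovered.of_trivialization (t := hU.trivializationDiscrete
    (fun i : P ⁻¹' {y} => {x | P x ∈ U ∧ σ i.1 (hm i) (P x) = x}) U ?_ ?_ ?_ ?_ ?_) hy
  · intro i W hW
    refine ⟨fun o => (o.preimage h.continuous).inter
      (CovA.sheet_open h hU (s1 _ _) (s3 _ _)), fun o => ?_⟩
    have e : W = P '' (P ⁻¹' W ∩ {x | P x ∈ U ∧ σ i.1 (hm i) (P x) = x}) := by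
      ext w
      constructor
      · intro hw
        have h1 := s3 i.1 (hm i) w (hW hw)
        refine ⟨σ i.1 (hm i) w, ⟨?_, ?_, ?_⟩, h1⟩
        · rw [mem_preimage, h1]; exact hw
        · rw [h1]; exact hW hw
        · rw [h1]
      · rintro ⟨x, hx, rfl⟩
        exact hx.1
    rw [e]
    exact h.isOpenMap _ o
  · intro i x hx x' hx' e
    rw [← hx.2, ← hx'.2, e]
  · intro i w hw
    have h1 := s3 i.1 (hm i) w hw
    refine ⟨σ i.1 (hm i) w, ⟨?_, ?_⟩, h1⟩
    · rw [h1]; exact hw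
    · rw [h1]
  · intro i j hij
    refine disjoint_left.2 fun x hx hx' => hij (Subtype.ext ?_)
    rw [← hv i, ← hv j]
    exact uq _ _ _ _ _ hx.1 (hx.2.trans hx'.2.symm) hy
  · intro x hx
    refine mem_iUnion.2 ⟨⟨σ x hx y, s3 x hx y hy⟩, hx, ?_⟩
    exact (uq _ _ _ _ y hy (hv ⟨σ x hx y, s3 x hx y hy⟩) hx).trans (s2 x hx)

/-- lifting on a convex set -/
theorem exists_lift_convex {V : Type} [NormedAddCommGroup V] [NormedSpace ℝ V]
    (h : IsCoveringMap P) {S : Set V} (hS : Convex ℝ S) {f : V → Y} (hf : ContinuousOn f S)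
    {v₀ : V} (hv : v₀ ∈ S) {x₀ : X} (hx : P x₀ = f v₀) :
    ∃ F : V → X, ContinuousOn F S ∧ F v₀ = x₀ ∧ ∀ v ∈ S, P (F v) = f v := by
  classical
  have := hS.contractibleSpace ⟨v₀, hv⟩
  have := hS.locallyPathConnectedSpace
  obtain ⟨F, ⟨h1, h2⟩, -⟩ := h.existsUnique_continuousMap_lifts
    (⟨fun v : S => f v.1, hf.comp_continuous continuous_subtype_val fun v => v.2⟩ : C(S, Y))
    ⟨v₀, hv⟩ x₀ hx
  refine ⟨fun v => if hv : v ∈ S then F ⟨v, hv⟩ else x₀, ?_, ?_, fun v hv => ?_⟩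
  · rw [continuousOn_iff_continuous_domRestrict]
    refine F.continuous.congr fun v => ?_
    change F v = if hv : v.1 ∈ S then F ⟨v.1, hv⟩ else x₀
    rw [dif_pos v.2]
  · simp only [dif_pos hv, h1]
  · simp only [dif_pos hv]
    exact congrFun h2 ⟨v, hv⟩

theorem deck_ext [PreconnectedSpace X] (h : IsCoveringMap P) {S T : Equiv.Perm X}
    (hS : S ∈ Deck P) (hT : T ∈ Deck P) {x : X} (hx : S x = T x) : S = T :=
  Equiv.ext (congrFun (h.eq_of_comp_eq hS.1 hT.1
    (funext fun z => (hS.2.2 z).trans (hT.2.2 z).symm) x hx))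

theorem deck_exists {V : Type} [NormedAddCommGroup V] [NormedSpace ℝ V] {P : V → Y}
    (h : IsCoveringMap P) {x x' : V} (hx : P x = P x') : ∃ T ∈ Deck P, T x = x' := by
  obtain ⟨F, f1, f2, f3⟩ := exists_lift_convex h convex_univ h.continuous.continuousOn
    (mem_univ x) hx.symm
  obtain ⟨F', g1, g2, g3⟩ := exists_lift_convex h convex_univ h.continuous.continuousOn
    (mem_univ x') hx
  rw [continuousOn_univ] at f1 g1
  have e1 : F' ∘ F = id := h.eq_of_comp_eq (g1.comp f1) continuous_id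
    (funext fun z => (g3 _ (mem_univ _)).trans (f3 _ (mem_univ _))) x (by
      rw [Function.comp_apply, f2, g2, id])
  have e2 : F ∘ F' = id := h.eq_of_comp_eq (f1.comp g1) continuous_id
    (funext fun z => (f3 _ (mem_univ _)).trans (g3 _ (mem_univ _))) x' (by
      rw [Function.comp_apply, g2, f2, id])
  exact ⟨⟨F, F', congrFun e1, congrFun e2⟩, ⟨f1, g1, fun z => f3 z (mem_univ _)⟩, f2⟩

theorem isClosed_range_of_cov (h : IsCoveringMap P) : IsClosed (range P) := by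
  rw [← isOpen_compl_iff, isOpen_iff_mem_nhds]
  intro y hy
  obtain ⟨-, U, hyU, hU, -, H, -⟩ := h y
  filter_upwards [hU.mem_nhds hyU] with z hz
  rintro ⟨x, rfl⟩
  exact hy ⟨_, (H ⟨x, hz⟩).2.2⟩

end Vale.Agent.P255
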