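import Mathlib

open scoped ContDiff Manifold Topology
open Set

noncomputable section

namespace Vale.Agent.P255

variable {E : Type} [NormedAddCommGroup E] [NormedSpace ℝ E]

/-- Christoffel map of a metric `G` written in coordinates: the vector `Γ(a,b)` with
`G(Γ(a,b), ξ) = (D_a G(b,ξ) + D_b G(a,ξ) - D_ξ G(a,b)) / 2`. -/
def chris (G : E → E →L[ℝ] E →L[ℝ] ℝ) (y a b : E) : E :=
  (G y).inverse ((1 / 2 : ℝ) •
    (fderiv ℝ G y a b + fderiv ℝ G y b a - fderiv ℝ (fun z => G z a b) y))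

/-- Curvature tensor `R(a,b)c` in coordinates. -/
def curv (G : E → E →L[ℝ] E →L[ℝ] ℝ) (y a b c : E) : E :=
  fderiv ℝ (fun z => chris G z b c) y a - fderiv ℝ (fun z => chris G z a c) y b
    + chris G y a (chris G y b c) - chris G y b (chris G y a c)

/-- Covariant derivative of the field `V` along the curve `y`, in coordinates. -/
def cov (G : E → E →L[ℝ] E →L[ℝ] ℝ) (y V : ℝ → E) (t : ℝ) : E :=
  deriv V t + chris G (y t) (deriv y t) (V t)

variable {M : Type} [TopologicalSpace M] [ChartedSpace E M]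

/-- The tangent space at `p` is `E`, read in the preferred chart at `p`;
`toChart e p` gives the coordinates of a tangent vector in the chart `e`. -/
def toChart (e : OpenPartialHomeomorph M E) (p : M) : E →L[ℝ] E :=
  fderiv ℝ (e ∘ (chartAt E p).symm) (chartAt E p p)

/-- The tangent vector at `e.symm y` with given coordinates in the chart `e`. -/
def ofChart (e : OpenPartialHomeomorph M E) (y : E) : E →L[ℝ] E :=
  fderiv ℝ (chartAt E (e.symm y) ∘ e.symm) y

/-- Coefficients in the chart `e` of a field of bilinear forms on the tangent spaces. -/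
def loc (g : M → E →L[ℝ] E →L[ℝ] ℝ) (e : OpenPartialHomeomorph M E) (y : E) :
    E →L[ℝ] E →L[ℝ] ℝ :=
  (g (e.symm y)).bilinearComp (ofChart e y) (ofChart e y)

/-- A smooth Riemannian metric. -/
structure RMetric (E : Type) [NormedAddCommGroup E] [NormedSpace ℝ E]
    (M : Type) [TopologicalSpace M] [ChartedSpace E M] where
  inner : M → E →L[ℝ] E →L[ℝ] ℝ
  symm : ∀ p v w, inner p v w = inner p w v
  pos : ∀ p v, v ≠ 0 → 0 < inner p v v
  smooth : ∀ e ∈ atlas E M, ContDiffOn ℝ ∞ (loc inner e) e.target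

/-- Nonpositive sectional curvature. -/
def Nonpos (g : RMetric E M) : Prop :=
  ∀ e ∈ atlas E M, ∀ y ∈ e.target, ∀ a b : E,
    loc g.inner e y (curv (loc g.inner e) y a b b) a ≤ 0

/-- `γ` is a geodesic on the time set `I`. -/
def IsGeod (g : RMetric E M) (γ : ℝ → M) (I : Set ℝ) : Prop :=
  ContinuousOn γ I ∧ ∀ e ∈ atlas E M, ∀ t ∈ I, γ t ∈ e.source →
    ContDiffAt ℝ 2 (e ∘ γ) t ∧ cov (loc g.inner e) (e ∘ γ) (deriv (e ∘ γ)) t = 0

/-- `J` is a Jacobi field along `γ` on the time set `I`. -/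
def IsJacobi (g : RMetric E M) (γ : ℝ → M) (J : ℝ → E) (I : Set ℝ) : Prop :=
  ∀ e ∈ atlas E M, ∀ t ∈ I, γ t ∈ e.source →
    ContDiffAt ℝ 2 (fun s => toChart e (γ s) (J s)) t ∧
    cov (loc g.inner e) (e ∘ γ)
        (cov (loc g.inner e) (e ∘ γ) (fun s => toChart e (γ s) (J s))) t
      + curv (loc g.inner e) (e (γ t)) (toChart e (γ t) (J t))
          (deriv (e ∘ γ) t) (deriv (e ∘ γ) t) = 0

/-- No conjugate points: a Jacobi field along a geodesic vanishing at two distinct times is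
zero. -/
def NoConj (g : RMetric E M) : Prop :=
  ∀ (a b : ℝ) (γ : ℝ → M) (J : ℝ → E), IsGeod g γ (Ioo a b) → IsJacobi g γ J (Ioo a b) →
    ∀ t₀ ∈ Ioo a b, ∀ t₁ ∈ Ioo a b, t₀ ≠ t₁ → J t₀ = 0 → J t₁ = 0 → ∀ t ∈ Ioo a b, J t = 0

end Vale.Agent.P255
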