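import Vale.Agent.P255.Loc
import Vale.Agent.P255.CovTop

open scoped ContDiff Manifold Topology
open Set Filter

noncomputable section

namespace Vale.Agent.P255

variable {E : Type} [NormedAddCommGroup E] [NormedSpace ℝ E] [FiniteDimensional ℝ E]
variable {M : Type} [TopologicalSpace M] {B : M → E →L[ℝ] E →L[ℝ] ℝ} {ex : M → E → M}

namespace DistX

omit [FiniteDimensional ℝ E] in
theorem nonneg (β : E →L[ℝ] E →L[ℝ] ℝ) (hp : ∀ a, a ≠ 0 → 0 < β a a) (a : E) : 0 ≤ β a a := by
  by_cases h0 : a = 0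
  · simp [h0]
  · exact (hp a h0).le

theorem tri (β : E →L[ℝ] E →L[ℝ] ℝ) (hs : ∀ a b, β a b = β b a) (hp : ∀ a, a ≠ 0 → 0 < β a a)
    (a b : E) : √(β (a + b) (a + b)) ≤ √(β a a) + √(β b b) := by
  have h1 := cauchy_schwarz β hs hp a b
  have h2 : β a b ≤ √(β a a) * √(β b b) := by
    rw [← Real.sqrt_mul (nonneg β hp a)]
    exact (le_abs_self _).trans (Real.abs_le_sqrt h1)
  refine Real.sqrt_le_iff.2 ⟨by positivity, ?_⟩
  rw [add_sq, Real.sq_sqrt (nonneg β hp a), Real.sq_sqrt (nonneg β hp b)]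
  simp only [map_add, add_apply, hs b a]
  linarith

omit [FiniteDimensional ℝ E] in
theorem exists_L (h : ES B ex) (p : M) : ∃ L Li : E → E → E, (∀ x, Continuous (L x)) ∧
    (∀ x, Continuous (Li x)) ∧ (∀ x, L x 0 = x) ∧ (∀ x v, ex p (L x v) = ex (ex p x) v) ∧
    (∀ x v, Li x (L x v) = v) ∧ ∀ x y, L x (Li x y) = y := by
  have h1 : ∀ x, ∃ F : E → E, ContinuousOn F univ ∧ F 0 = x ∧
      ∀ v ∈ univ, ex p (F v) = ex (ex p x) v := fun x =>
    exists_lift_convex (h.cov p) convex_univ (h.cov _).continuous.continuousOn (mem_univ 0)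
      (h.zero _).symm
  have h2 : ∀ x, ∃ F : E → E, ContinuousOn F univ ∧ F x = 0 ∧
      ∀ v ∈ univ, ex (ex p x) (F v) = ex p v := fun x =>
    exists_lift_convex (h.cov _) convex_univ (h.cov p).continuous.continuousOn (mem_univ x)
      (h.zero _)
  choose L a1 a2 a3 using h1
  choose Li b1 b2 b3 using h2
  simp only [continuousOn_univ, mem_univ, forall_true_left] at a1 a3 b1 b3
  refine ⟨L, Li, a1, b1, a2, a3, fun x => ?_, fun x => ?_⟩
  · exact congrFun ((h.cov (ex p x)).eq_of_comp_eq (g₁ := fun v => Li x (L x v)) (g₂ := id)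
      ((b1 x).comp (a1 x)) continuous_id (funext fun v => by simp [a3, b3]) 0 (by simp [a2, b2]))
  · exact congrFun ((h.cov p).eq_of_comp_eq (g₁ := fun v => L x (Li x v)) (g₂ := id)
      ((a1 x).comp (b1 x)) continuous_id (funext fun v => by simp [a3, b3]) x (by simp [a2, b2]))

end DistX

open DistX

theorem exists_dist (h : ES B ex) (p : M) : ∃ d : E → E → ℝ, CatD d ∧
    (∀ T ∈ Deck (ex p), ∀ x y, d (T x) (T y) = d x y) ∧ (∀ x, Continuous (d x)) ∧
    ∀ y, d 0 y = Real.sqrt (B p y y) := by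
  obtain ⟨L, Li, a1, b1, a2, a3, c1, c2⟩ := exists_L h p
  have b2 : ∀ x, Li x x = 0 := fun x => by simpa [a2] using c1 x 0
  have b3 : ∀ x y, ex (ex p x) (Li x y) = ex p y := fun x y => by rw [← a3, c2]
  have nn : ∀ q a, 0 ≤ B q a a := fun q => nonneg _ (h.pos q)
  have geo : ∀ x u (s : ℝ), ∃ u', B (ex p (L x (s • u))) u' u' = B (ex p x) u u ∧
      ∀ t : ℝ, Li (L x (s • u)) (L x ((s + t) • u)) = t • u' := by
    intro x u s
    obtain ⟨u', h1, h2⟩ := h.flow (ex p x) u s
    refine ⟨u', by rw [a3, h1], fun t => ?_⟩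
    have := (h.cov p).eq_of_comp_eq (g₁ := fun t : ℝ => L x ((s + t) • u))
      (g₂ := fun t : ℝ => L (L x (s • u)) (t • u')) ((a1 x).comp (by fun_prop))
      ((a1 _).comp (by fun_prop)) (funext fun t => by simp only [Function.comp, a3, h2]) 0
      (by simp [a2])
    rw [show L x ((s + t) • u) = L (L x (s • u)) (t • u') from congrFun this t, c1]
  have K : ∀ m x y, B (ex p m) (Li m y - Li m x) (Li m y - Li m x) ≤
      B (ex p x) (Li x y) (Li x y) := by
    intro m x y
    have := h.expand (ex p m) (ex p x) (Li x y) (fun t => Li m (L x (t • Li x y)))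
      ((b1 m).comp ((a1 x).comp (by fun_prop))).continuousOn (fun t _ => by rw [b3, a3])
    simpa only [one_smul, zero_smul, a2, c2] using this
  have sy : ∀ x y, B (ex p x) (Li x y) (Li x y) = B (ex p y) (Li y x) (Li y x) := by
    intro x y
    obtain ⟨u', h1, h2⟩ := geo x (Li x y) 1
    have h3 := h2 (-1)
    simp only [one_smul, c2, add_neg_cancel, zero_smul, a2, neg_smul] at h1 h3
    rw [h3, ← h1]
    simp
  refine ⟨fun x y => √(B (ex p x) (Li x y) (Li x y)), ⟨fun x => by simp [b2], fun x y hxy => ?_,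
    fun x y => by rw [sy], fun x y z => ?_, fun y z => ?_⟩, fun T hT x y => ?_, fun x => ?_,
    fun y => ?_⟩
  · have h1 : Li x y = 0 := by
      by_contra h0
      exact absurd hxy (Real.sqrt_pos.2 (h.pos _ _ h0)).ne'
    rw [← c2 x y, h1, a2]
  · have h1 := tri (B (ex p x)) (h.symm _) (h.pos _) (Li x y) (Li x z - Li x y)
    rw [add_sub_cancel] at h1
    exact h1.trans (add_le_add_right (Real.sqrt_le_sqrt (K x y z)) _)
  · obtain ⟨u', h1, h2⟩ := geo y (Li y z) (1 / 2)
    set m := L y ((1 / 2 : ℝ) • Li y z) with hm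
    have h3 : Li m y = (-(1 / 2) : ℝ) • u' := by simpa [a2] using h2 (-(1 / 2))
    have h4 : Li m z = (1 / 2 : ℝ) • u' := by
      have := h2 (1 / 2)
      rwa [add_halves, one_smul, c2] at this
    have h5 : ∀ r : ℝ, r ^ 2 = 1 / 4 → √(B (ex p m) (r • u') (r • u')) =
        √(B (ex p y) (Li y z) (Li y z)) / 2 := by
      intro r hr
      rw [← h1, Real.sqrt_eq_iff_eq_sq (nn _ _) (by positivity), div_pow, Real.sq_sqrt (nn _ _)]
      simp only [map_smul, smul_apply, smul_eq_mul]
      linear_combination B (ex p m) u' u' * hr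
    refine ⟨m, by rw [h3, h5 _ (by norm_num)], by rw [h4, h5 _ (by norm_num)], fun x => ?_⟩
    have k1 := K m y x
    have k2 := K m z x
    rw [Real.sq_sqrt (nn _ _), Real.sq_sqrt (nn _ _), Real.sq_sqrt (nn _ _), Real.sq_sqrt (nn _ _),
      sy x m, sy x y, sy x z, ← h1]
    rw [h3] at k1
    rw [h4] at k2
    simp only [map_smul, map_sub, smul_apply, sub_apply,
      smul_eq_mul] at k1 k2
    linarith
  · have h1 := (h.cov p).eq_of_comp_eq (g₁ := fun v => T (L x v)) (g₂ := L (T x))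
      (hT.1.comp (a1 x)) (a1 _) (funext fun v => by simp only [Function.comp, a3, hT.2.2]) 0
      (by simp [a2])
    have h2 : Li (T x) (T y) = Li x y := by
      rw [← c1 (T x) (Li x y), ← h1]
      simp only [c2]
    simp only [h2, hT.2.2]
  · exact ((B (ex p x)).continuous₂.comp ((b1 x).prodMk (b1 x))).sqrt
  · have h1 := (h.cov p).eq_of_comp_eq (g₁ := L 0) (g₂ := id) (a1 0) continuous_id
      (funext fun v => by simp [a3, h.zero]) 0 (by simp [a2])
    have h2 : Li 0 y = y := by simpa [h1] using c1 0 y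
    simp only [h2, h.zero]

end Vale.Agent.P255
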