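import Vale.Agent.P255.Lift
import Vale.Agent.P255.CovTop

open scoped ContDiff Manifold Topology
open Set Filter

noncomputable section

namespace Vale.Agent.P255

variable {E : Type} [NormedAddCommGroup E] [NormedSpace ℝ E] [FiniteDimensional ℝ E]
variable {M : Type} [TopologicalSpace M] [ChartedSpace E M] [IsManifold 𝓘(ℝ, E) ∞ M]
variable {g : RMetric E M} {B : E →L[ℝ] E →L[ℝ] ℝ} {f : E → M}

/-- path lifting for a local homeomorphism whose lifts are uniformly Lipschitz -/
theorem lift_of_lipschitz {Y : Type} [TopologicalSpace Y] [T2Space Y] {f : E → Y}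
    (hf : IsLocalHomeomorph f) {γ : ℝ → Y} (hγ : ContinuousOn γ (Icc 0 1)) (L : NNReal)
    (hL : ∀ (c : ℝ → E) (a b : ℝ), 0 ≤ a → a ≤ b → b ≤ 1 → ContinuousOn c (Icc a b) →
      (∀ t ∈ Icc a b, f (c t) = γ t) → ‖c b - c a‖ ≤ L * (b - a)) {x : E} (hx : f x = γ 0) :
    ∃ c : ℝ → E, ContinuousOn c (Icc 0 1) ∧ c 0 = x ∧ ∀ t ∈ Icc (0 : ℝ) 1, f (c t) = γ t := by
  classical
  obtain ⟨S, hS⟩ : ∃ S : Set ℝ, ∀ T, T ∈ S ↔ ∃ c : ℝ → E, ContinuousOn c (Icc 0 T) ∧ c 0 = x ∧
      ∀ t ∈ Icc (0 : ℝ) T, f (c t) = γ t := ⟨{T | _}, fun _ => Iff.rfl⟩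
  have h0 : (0 : ℝ) ∈ S := (hS 0).2 ⟨fun _ => x, continuousOn_const, rfl, fun t ht => by
    rw [le_antisymm ht.2 ht.1]
    exact hx⟩
  have hdown : ∀ T ∈ S, ∀ T' ≤ T, T' ∈ S := fun T hT T' hT' => by
    obtain ⟨c, h1, h2, h3⟩ := (hS T).1 hT
    exact (hS T').2 ⟨c, h1.mono (Icc_subset_Icc_right hT'), h2,
      fun t ht => h3 t (Icc_subset_Icc_right hT' ht)⟩
  have hcl : IsClosed (S ∩ Icc 0 1) := by
    refine isClosed_of_closure_subset fun T hT => ?_
    have hT1 : T ∈ Icc (0 : ℝ) 1 := closure_minimal inter_subset_right isClosed_Icc hT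
    refine ⟨?_, hT1⟩
    rcases hT1.1.eq_or_lt with h | hpos
    · exact h ▸ h0
    have hlt : ∀ t < T, t ∈ S := fun t ht => by
      obtain ⟨T', h1, h2⟩ := mem_closure_iff_nhds.1 hT _ (Ioi_mem_nhds ht)
      exact hdown T' h2.1 t (le_of_lt h1)
    choose! C hC1 hC2 hC3 using fun t ht => (hS t).1 (hlt t ht)
    have huniq : ∀ a b, 0 ≤ a → a ≤ b → b < T → C a a = C b a := fun a b ha hab hb =>
      (T2Space.isSeparatedMap f).eqOn_of_comp_eqOn hf.isLocallyInjective
        (isPreconnected_Icc (a := 0) (b := a)) (hC1 a (hab.trans_lt hb))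
        ((hC1 b hb).mono (Icc_subset_Icc_right hab))
        (fun t ht => (hC3 a (hab.trans_lt hb) t ht).trans
          (hC3 b hb t (Icc_subset_Icc_right hab ht)).symm)
        (left_mem_Icc.2 ha) ((hC2 a (hab.trans_lt hb)).trans (hC2 b hb).symm)
        (right_mem_Icc.2 ha)
    have hlip : LipschitzOnWith L (fun t => C t t) (Ico 0 T) := by
      have key : ∀ a ∈ Ico 0 T, ∀ b ∈ Ico 0 T, a ≤ b → ‖C b b - C a a‖ ≤ L * (b - a) := by
        intro a ha b hb hab
        rw [huniq a b ha.1 hab hb.2]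
        exact hL (C b) a b ha.1 hab (hb.2.le.trans hT1.2)
          ((hC1 b hb.2).mono (Icc_subset_Icc_left ha.1))
          fun t ht => hC3 b hb.2 t (Icc_subset_Icc_left ha.1 ht)
      refine LipschitzOnWith.of_dist_le_mul fun a ha b hb => ?_
      rcases le_total a b with hab | hab
      · rw [dist_comm, dist_eq_norm, dist_comm, Real.dist_eq, abs_of_nonneg (sub_nonneg.2 hab)]
        exact key a ha b hb hab
      · rw [dist_eq_norm, Real.dist_eq, abs_of_nonneg (sub_nonneg.2 hab)]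
        exact key b hb a ha hab
    obtain ⟨G, hG, hGe⟩ := hlip.extend_finite_dimension
    refine (hS T).2 ⟨G, hG.continuous.continuousOn, ?_, ?_⟩
    · rw [← hGe (left_mem_Ico.2 hpos)]
      exact hC2 0 hpos
    · refine Set.EqOn.of_subset_closure (s := Ico 0 T) (f := fun t => f (G t)) (fun t ht => ?_)
        (hf.continuous.comp hG.continuous).continuousOn (hγ.mono (Icc_subset_Icc_right hT1.2))
        Ico_subset_Icc_self (by rw [closure_Ico hpos.ne])
      simp only [← hGe ht]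
      exact hC3 t ht.2 t (right_mem_Icc.2 ht.1)
  have hgt : ∀ T ∈ S ∩ Ico 0 1, ∀ y ∈ Ioi T, (S ∩ Ioc T y).Nonempty := by
    rintro T ⟨hT, hT0, hT1⟩ y hy
    obtain ⟨c, h1, h2, h3⟩ := (hS T).1 hT
    obtain ⟨φ, hφ, hfφ⟩ := hf (c T)
    have hm : γ T ∈ φ.target := by
      rw [← h3 T (right_mem_Icc.2 hT0), hfφ]
      exact φ.map_source hφ
    obtain ⟨δ, hδ, hsub⟩ := Metric.mem_nhdsWithin_iff.1
      ((hγ T ⟨hT0, hT1.le⟩).preimage_mem_nhdsWithin (φ.open_target.mem_nhds hm))
    obtain ⟨T', a1, a2, a3, a4⟩ : ∃ T', T < T' ∧ T' ≤ y ∧ T' ≤ 1 ∧ T' < T + δ :=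
      ⟨min (min y 1) (T + δ / 2), lt_min (lt_min hy hT1) (by linarith),
        (min_le_left _ _).trans (min_le_left _ _), (min_le_left _ _).trans (min_le_right _ _),
        (min_le_right _ _).trans_lt (by linarith)⟩
    have hI : Icc T T' ⊆ Icc 0 1 := Icc_subset_Icc hT0 a3
    have hmt : ∀ t ∈ Icc T T', γ t ∈ φ.target := fun t ht => hsub ⟨by
      rw [Metric.mem_ball, Real.dist_eq, abs_lt]
      constructor <;> linarith [ht.1, ht.2], hI ht⟩
    have e1 : EqOn (fun t => if t ≤ T then c t else φ.symm (γ t)) c (Icc 0 T) :=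
      fun t ht => if_pos ht.2
    have e2 : EqOn (fun t => if t ≤ T then c t else φ.symm (γ t)) (fun t => φ.symm (γ t))
        (Icc T T') := fun t ht => by
      by_cases h : t ≤ T
      · obtain rfl : t = T := le_antisymm h ht.1
        simp only [le_refl, if_true]
        rw [← h3 t (right_mem_Icc.2 hT0), hfφ, φ.left_inv hφ]
      · exact if_neg h
    refine ⟨T', (hS T').2 ⟨fun t => if t ≤ T then c t else φ.symm (γ t), ?_, ?_, ?_⟩, a1, a2⟩
    · rw [← Icc_union_Icc_eq_Icc hT0 a1.le]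
      exact ContinuousOn.union_of_isClosed (h1.congr e1)
        ((φ.continuousOn_symm.comp (hγ.mono hI) hmt).congr e2) isClosed_Icc isClosed_Icc
    · exact (e1 (left_mem_Icc.2 hT0)).trans h2
    · intro t ht
      rcases le_total t T with h | h
      · rw [e1 ⟨ht.1, h⟩]
        exact h3 t ⟨ht.1, h⟩
      · rw [e2 ⟨h, ht.2⟩, hfφ]
        exact φ.right_inv (hmt t ⟨h, ht.2⟩)
  exact (hS 1).1 (hcl.Icc_subset_of_forall_exists_gt h0 hgt (right_mem_Icc.2 zero_le_one))

/-- lifting of straight segments of a chart -/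
theorem Expand.lift_segment [T2Space M] (h : Expand g B f) (hs : ∀ a b, B a b = B b a)
    (hp : ∀ a, a ≠ 0 → 0 < B a a) {e : OpenPartialHomeomorph M E} (he : e ∈ atlas E M)
    {y y' : E} (hseg : ∀ t ∈ Icc (0 : ℝ) 1, y + t • (y' - y) ∈ e.target) {x : E}
    (hx : f x = e.symm y) :
    ∃ c : ℝ → E, ContinuousOn c (Icc 0 1) ∧ c 0 = x ∧
      ∀ t ∈ Icc (0 : ℝ) 1, f (c t) = e.symm (y + t • (y' - y)) := by
  generalize y' - y = w at hseg ⊢
  have hl : Continuous fun t : ℝ => y + t • w := by fun_prop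
  obtain ⟨κ, hκ, hco⟩ := exists_coercive B hp
  have hc : ContinuousOn (fun t : ℝ => loc g.inner e (y + t • w) w w) (Icc 0 1) :=
    (((lm_loc g he).sm.continuousOn.comp hl.continuousOn hseg).clm_apply
      continuousOn_const).clm_apply continuousOn_const
  obtain ⟨σ, hσ⟩ := isCompact_Icc.exists_bound_of_continuousOn hc
  refine lift_of_lipschitz (h.isLocalHomeomorph hp) (γ := fun t => e.symm (y + t • w))
    (e.continuousOn_symm.comp hl.continuousOn hseg) ⟨√(σ / κ), Real.sqrt_nonneg _⟩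
    (fun c a b ha hab hb hcc hcl => ?_) (by simpa using hx)
  have hI : Icc a b ⊆ Icc 0 1 := Icc_subset_Icc ha hb
  have key := h.lift_le hs hp (σ := σ) hab hcc fun t ht => by
    have ht' := Ioo_subset_Icc_self ht
    refine ⟨e, he, ?_, w, ?_, ?_⟩
    · rw [hcl t ht']
      exact e.map_target (hseg t (hI ht'))
    · have hd : HasDerivAt (fun s : ℝ => y + s • w) w t := by
        simpa using ((hasDerivAt_id t).smul_const w).const_add y
      refine hd.congr_of_eventuallyEq ?_
      filter_upwards [isOpen_Ioo.mem_nhds ht] with s hs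
      rw [hcl s (Ioo_subset_Icc_self hs), e.right_inv (hseg s (hI (Ioo_subset_Icc_self hs)))]
    · rw [hcl t ht', e.right_inv (hseg t (hI ht'))]
      exact (le_abs_self _).trans (hσ t (hI ht'))
  have hσ0 : 0 ≤ σ := (norm_nonneg _).trans (hσ 0 (left_mem_Icc.2 zero_le_one))
  change ‖c b - c a‖ ≤ √(σ / κ) * (b - a)
  refine le_of_sq_le_sq ?_ (mul_nonneg (Real.sqrt_nonneg _) (sub_nonneg.2 hab))
  rw [mul_pow, Real.sq_sqrt (by positivity), div_mul_eq_mul_div, le_div_iff₀ hκ]
  linarith [hco (c b - c a)]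

theorem Expand.isCoveringMap [T2Space M] (h : Expand g B f) (hs : ∀ a b, B a b = B b a)
    (hp : ∀ a, a ≠ 0 → 0 < B a a) : IsCoveringMap f := by
  have hf := h.isLocalHomeomorph hp
  refine isCoveringMap_of_sections hf fun p => ?_
  have he : chartAt E p ∈ atlas E M := chart_mem_atlas E _
  have hpe : p ∈ (chartAt E p).source := mem_chart_source E _
  generalize chartAt E p = e at he hpe
  obtain ⟨r, hr, hball⟩ := Metric.isOpen_iff.1 e.open_target _ (e.map_source hpe)
  generalize hW : Metric.ball (e p) r = W at hball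
  have hWo : IsOpen W := hW ▸ Metric.isOpen_ball
  have hWc : Convex ℝ W := hW ▸ convex_ball _ _
  have hWp : e p ∈ W := hW ▸ Metric.mem_ball_self hr
  refine ⟨e.source ∩ e ⁻¹' W, e.isOpen_inter_preimage hWo, ⟨hpe, hWp⟩, ?_, fun x hx => ?_⟩
  · rw [← e.symm_image_eq_source_inter_preimage hball]
    exact hWc.isPreconnected.image _ (e.continuousOn_symm.mono hball)
  have hseg : ∀ y' ∈ W, ∀ t ∈ Icc (0 : ℝ) 1, e (f x) + t • (y' - e (f x)) ∈ W :=
    fun y' hy' t ht => hWc.add_smul_sub_mem hx.2 hy' ht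
  choose! C hC1 hC2 hC3 using fun y' (hy' : y' ∈ W) => h.lift_segment hs hp he
    (fun t ht => hball (hseg y' hy' t ht)) (x := x) (e.left_inv hx.1).symm
  have hF : Continuous fun q : unitInterval × W =>
      e.symm (e (f x) + (q.1 : ℝ) • ((q.2 : E) - e (f x))) :=
    e.continuousOn_symm.comp_continuous (by fun_prop) fun q => hball (hseg _ q.2.2 _ q.1.2)
  have hcont : Continuous fun q : unitInterval × W => C q.2 q.1 :=
    hf.continuous_lift (T2Space.isSeparatedMap f) ⟨_, hF⟩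
      (funext fun q => hC3 _ q.2.2 _ q.1.2)
      (continuous_const.congr fun a : W => (hC2 _ a.2).symm)
      (fun a => (hC1 _ a.2).comp_continuous continuous_subtype_val fun t => t.2)
  have hc1 : ContinuousOn (fun y' => C y' 1) W := by
    rw [continuousOn_iff_continuous_domRestrict]
    exact hcont.comp (Continuous.prodMk_right (1 : unitInterval))
  refine ⟨fun q => C (e q) 1, hc1.comp (e.continuousOn.mono inter_subset_left) fun q hq => hq.2,
    ?_, fun q hq => ?_⟩
  · refine (T2Space.isSeparatedMap f).eqOn_of_comp_eqOn hf.isLocallyInjective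
      (isPreconnected_Icc (a := (0 : ℝ)) (b := 1)) (hC1 _ hx.2) (g₂ := fun _ => x)
      continuousOn_const (fun t ht => ?_) (left_mem_Icc.2 zero_le_one) (hC2 _ hx.2)
      (right_mem_Icc.2 zero_le_one)
    simp only [Function.comp, hC3 _ hx.2 t ht, sub_self, smul_zero, add_zero, e.left_inv hx.1]
  · simp only [hC3 _ hq.2 1 (right_mem_Icc.2 zero_le_one), one_smul, add_sub_cancel,
      e.left_inv hq.1]

end Vale.Agent.P255
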