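import Vale.Agent.P255.Rauch
import Vale.Agent.P255.Sec

open scoped ContDiff Manifold Topology
open Set Filter

noncomputable section

namespace Vale.Agent.P255

variable {E : Type} [NormedAddCommGroup E] [NormedSpace ℝ E] [FiniteDimensional ℝ E]
variable {M : Type} [TopologicalSpace M] [ChartedSpace E M] [IsManifold 𝓘(ℝ, E) ∞ M] [T2Space M] [CompactSpace M]

theorem es_of_nonpos (g : RMetric E M) (hg : Nonpos g) : ES g.inner (ex g) := by
  refine ⟨g.symm, g.pos, fun p => (expand_ex g hg p).isCoveringMap (g.symm p) (g.pos p),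
    fun p => ?_, fun p u s => ?_, fun m p u c hc hcu => ?_⟩
  · have := ex_smul g p 0 0
    rwa [zero_smul, Phi_zero] at this
  · refine ⟨(Phi g s (p, u)).2, ?_, fun t => ?_⟩
    · rw [ex_smul]
      exact Phi_energy g (p, u) s
    · rw [ex_smul, ex_smul, ex_smul, add_comm, Phi_add]
  · have h := (expand_ex g hg m).lift_le (g.symm m) (g.pos m) (σ := g.inner p u u) zero_le_one hc
      (fun t ht => ?_)
    · simpa using h
    · have ht' : t ∈ Icc (0 : ℝ) 1 := Ioo_subset_Icc_self ht
      have h1 : ex g m (c t) = (Phi g t (p, u)).1 := by rw [hcu t ht', ex_smul]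
      have hs : (Phi g t (p, u)).1 ∈ (chartAt E (Phi g t (p, u)).1).source := mem_chart_source _ _
      have he := chart_mem_atlas E (Phi g t (p, u)).1
      refine ⟨_, he, by rw [h1]; exact hs,
        toChart (chartAt E (Phi g t (p, u)).1) (Phi g t (p, u)).1 (Phi g t (p, u)).2, ?_, ?_⟩
      · have h2 := (geoL_Phi g (p, u) t).2 _ he hs
        have h3 := (ContinuousLinearMap.fst ℝ E E).hasFDerivAt.comp_hasDerivAt t h2
        refine HasDerivAt.congr_of_eventuallyEq h3 ?_
        filter_upwards [Ioo_mem_nhds ht.1 ht.2] with s hs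
        rw [hcu s (Ioo_subset_Icc_self hs), ex_smul]
        rfl
      · rw [h1, loc_toChart _ he hs, Phi_energy]

end Vale.Agent.P255
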