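import Vale.Agent.P255.Base

open scoped ContDiff Manifold Topology
open Set Filter

noncomputable section

namespace Vale.Agent.P255

namespace EtX

variable {ι E : Type} [NormedAddCommGroup E] [NormedSpace ℝ E]
  {Ω : ι → Set E} {R : ι → E → ι → E → Prop}

/-- the glued set -/
lemma exists_set (h : Etale E Ω R) (hne : ∃ i, (Ω i).Nonempty) :
    ∃ (M : Type) (π : ι → E → M), (∀ p, ∃ i, ∃ y ∈ Ω i, π i y = p) ∧
      ∀ i j, ∀ y ∈ Ω i, ∀ y' ∈ Ω j, π i y = π j y' ↔ R i y j y' := by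
  classical
  obtain ⟨i₀, y₀, h₀⟩ := hne
  let s : Setoid (Σ i, Ω i) := ⟨fun a b => R a.1 a.2 b.1 b.2, fun a => h.refl _ _ a.2.2,
    fun {a b} => h.symm _ _ _ a.2.2 _ b.2.2, fun {a b c} => h.trans _ _ _ _ a.2.2 _ b.2.2 _ c.2.2⟩
  refine ⟨Quotient s, fun i y => if hy : y ∈ Ω i then Quotient.mk s ⟨i, y, hy⟩ else
    Quotient.mk s ⟨i₀, y₀, h₀⟩, fun p => ?_, fun i j y hy y' hy' => ?_⟩
  · obtain ⟨⟨i, y, hy⟩, rfl⟩ := Quotient.exists_rep p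
    exact ⟨i, y, hy, dif_pos hy⟩
  · simp only [dif_pos hy, dif_pos hy', Quotient.eq]
    rfl

/-- the final topology -/
@[reducible] def top {M : Type} (h : Etale E Ω R) (π : ι → E → M) : TopologicalSpace M where
  IsOpen U := ∀ i, IsOpen (Ω i ∩ π i ⁻¹' U)
  isOpen_univ i := by simpa using h.op i
  isOpen_inter s t hs ht i := by
    have := (hs i).inter (ht i)
    rwa [inter_inter_inter_comm, inter_self, ← preimage_inter] at this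
  isOpen_sUnion s hs i := by
    rw [preimage_sUnion, inter_iUnion₂]
    exact isOpen_biUnion fun t ht => hs t ht i

variable {M : Type} {π : ι → E → M}

lemma open_top (h : Etale E Ω R)
    (hr : ∀ i j, ∀ y ∈ Ω i, ∀ y' ∈ Ω j, π i y = π j y' ↔ R i y j y') (i : ι) (V : Set E)
    (hV : IsOpen V) (hs : V ⊆ Ω i) : IsOpen[top h π] (π i '' V) := by
  intro j
  rw [isOpen_iff_mem_nhds]
  rintro y' ⟨hy', y, hy, e⟩
  obtain ⟨τ, h1, h2, h3⟩ := h.loc j i y' hy' y (hs hy) ((hr _ _ _ hy' _ (hs hy)).1 e.symm)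
  have h4 : ∀ᶠ z in 𝓝 y', τ z ∈ V := h1.continuousAt.eventually (hV.mem_nhds (h2 ▸ hy))
  filter_upwards [h3, h4, (h.op j).mem_nhds hy'] with z a b c
  exact ⟨c, τ z, b, ((hr _ _ _ c _ (hs b)).2 a).symm⟩

variable [TopologicalSpace M]

lemma t2 (h : Etale E Ω R) (hs : ∀ p, ∃ i, ∃ y ∈ Ω i, π i y = p)
    (hr : ∀ i j, ∀ y ∈ Ω i, ∀ y' ∈ Ω j, π i y = π j y' ↔ R i y j y')
    (ho : ∀ i V, IsOpen V → V ⊆ Ω i → IsOpen (π i '' V)) : T2Space M := by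
  refine ⟨fun p q hpq => ?_⟩
  obtain ⟨i, y, hy, rfl⟩ := hs p
  obtain ⟨j, y', hy', rfl⟩ := hs q
  have h1 := h.closed i j y hy y' hy' fun hR => hpq ((hr _ _ _ hy _ hy').2 hR)
  obtain ⟨V, V', hV, hyV, hV', hyV', h2⟩ := mem_nhds_prod_iff'.1 h1
  refine ⟨π i '' (V ∩ Ω i), π j '' (V' ∩ Ω j), ho _ _ (hV.inter (h.op i)) inter_subset_right,
    ho _ _ (hV'.inter (h.op j)) inter_subset_right, ⟨y, ⟨hyV, hy⟩, rfl⟩, ⟨y', ⟨hyV', hy'⟩, rfl⟩,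
    Set.disjoint_left.2 ?_⟩
  rintro _ ⟨z, hz, rfl⟩ ⟨z', hz', e⟩
  exact h2 (mk_mem_prod hz.1 hz'.1) ((hr _ _ _ hz.2 _ hz'.2).1 e.symm)

lemma cpt [Finite ι] (h : Etale E Ω R) (hs : ∀ p, ∃ i, ∃ y ∈ Ω i, π i y = p)
    (hr : ∀ i j, ∀ y ∈ Ω i, ∀ y' ∈ Ω j, π i y = π j y' ↔ R i y j y')
    (hc : ∀ i, ContinuousOn (π i) (Ω i)) : CompactSpace M := by
  obtain ⟨K, h1, h2⟩ := h.cpt
  refine ⟨?_⟩
  have e : (univ : Set M) = ⋃ j, π j '' K j := by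
    refine (eq_univ_of_forall fun p => ?_).symm
    obtain ⟨i, y, hy, rfl⟩ := hs p
    obtain ⟨j, y', hy', hR⟩ := h2 i y hy
    exact mem_iUnion.2 ⟨j, y', hy', ((hr _ _ _ hy _ ((h1 j).2 hy')).2 hR).symm⟩
  rw [e]
  exact isCompact_iUnion fun j => (h1 j).1.image_of_continuousOn ((hc j).mono (h1 j).2)

lemma chart (h : Etale E Ω R) (hs : ∀ p, ∃ i, ∃ y ∈ Ω i, π i y = p)
    (hr : ∀ i j, ∀ y ∈ Ω i, ∀ y' ∈ Ω j, π i y = π j y' ↔ R i y j y')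
    (hc : ∀ i, ContinuousOn (π i) (Ω i))
    (ho : ∀ i V, IsOpen V → V ⊆ Ω i → IsOpen (π i '' V)) (p : M) :
    ∃ e : OpenPartialHomeomorph M E, p ∈ e.source ∧ ∃ i, Ty Ω π e i := by
  obtain ⟨i, y, hy, rfl⟩ := hs p
  obtain ⟨V, V', hV, hyV, hV', hyV', h2⟩ := mem_nhds_prod_iff'.1 (h.inj i y hy)
  have hW : IsOpen (V ∩ V' ∩ Ω i) := (hV.inter hV').inter (h.op i)
  have hi : InjOn (π i) (V ∩ V' ∩ Ω i) := fun z hz z' hz' e =>
    h2 (mk_mem_prod hz.1.1 hz'.1.2) ((hr _ _ _ hz.2 _ hz'.2).1 e)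
  refine ⟨(OpenPartialHomeomorph.ofContinuousOpenRestrict (hi.toPartialEquiv (π i) _)
    ((hc i).mono inter_subset_right) (fun U hU => ?_) hW).symm, ⟨y, ⟨⟨hyV, hyV'⟩, hy⟩, rfl⟩, i,
    inter_subset_right, fun _ _ => rfl⟩
  have h3 := ho i (Subtype.val '' U) (hW.isOpenMap_subtype_val U hU) (by
    rintro _ ⟨z, -, rfl⟩
    exact z.2.2)
  rwa [image_image] at h3

lemma smooth (h : Etale E Ω R)
    (hr : ∀ i j, ∀ y ∈ Ω i, ∀ y' ∈ Ω j, π i y = π j y' ↔ R i y j y')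
    {e e' : OpenPartialHomeomorph M E} {i j : ι} (he : Ty Ω π e i) (he' : Ty Ω π e' j) :
    ContDiffOn ℝ ∞ (e.symm ≫ₕ e') (e.symm ≫ₕ e').source := by
  rintro y ⟨hy : y ∈ e.target, hy' : e.symm y ∈ e'.source⟩
  have h0 := e'.map_source hy'
  have h1 : π i y = π j (e' (e.symm y)) := by
    rw [← he.2 y hy, ← he'.2 _ h0]
    exact (e'.left_inv hy').symm
  obtain ⟨τ, h2, h3, h4⟩ := h.loc i j y (he.1 hy) _ (he'.1 h0) ((hr _ _ _ (he.1 hy) _ (he'.1 h0)).1 h1)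
  have h5 : ∀ᶠ z in 𝓝 y, τ z ∈ e'.target :=
    h2.continuousAt.eventually (e'.open_target.mem_nhds (h3 ▸ h0))
  refine (h2.congr_of_eventuallyEq ?_).contDiffWithinAt
  filter_upwards [h4, h5, e.open_target.mem_nhds hy] with z a b c
  have h6 := (hr _ _ _ (he.1 c) _ (he'.1 b)).2 a
  rw [← he.2 z c, ← he'.2 _ b] at h6
  show e' (e.symm z) = τ z
  rw [h6, e'.right_inv b]

end EtX

open EtX in
theorem exists_manifold {ι E : Type} [Finite ι] [NormedAddCommGroup E] [NormedSpace ℝ E]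
    {Ω : ι → Set E} {R : ι → E → ι → E → Prop} (h : Etale E Ω R) (hne : ∃ i, (Ω i).Nonempty) :
    ∃ (M : Type) (_ : TopologicalSpace M) (_ : T2Space M) (_ : CompactSpace M)
      (_ : ChartedSpace E M) (_ : IsManifold 𝓘(ℝ, E) ∞ M) (π : ι → E → M), Pres Ω R π := by
  obtain ⟨M, π, hs, hr⟩ := exists_set h hne
  let _ := top h π
  have hc : ∀ i, ContinuousOn (π i) (Ω i) := fun i =>
    (continuousOn_open_iff (h.op i)).2 fun t ht => ht i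
  have ho := open_top h hr
  choose ch h1 h2 using chart h hs hr hc ho
  let _ : ChartedSpace E M := ⟨{e | ∃ i, Ty Ω π e i}, ch, h1, h2⟩
  refine ⟨M, _, t2 h hs hr ho, cpt h hs hr hc, inferInstance, ?_, π, hc, hr, fun e he => he⟩
  refine isManifold_of_contDiffOn _ _ _ ?_
  rintro e e' ⟨i, he⟩ ⟨j, he'⟩
  simpa using smooth h hr he he'

end Vale.Agent.P255
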