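import Vale.Agent.P255.Nem

open scoped ContDiff Manifold Topology
open Set Filter

noncomputable section

namespace Vale.Agent.P255

variable {X : Type} [NormedAddCommGroup X] [NormedSpace ℝ X] [FiniteDimensional ℝ X]

namespace FlowX

abbrev KK : Type := Icc (-1 : ℝ) 1

def pr (u : ℝ) : KK := projIcc (-1) 1 (by norm_num) u

lemma pr_cont : Continuous pr := continuous_projIcc (h := by norm_num)

lemma pr_of {s : ℝ} (h : s ∈ Icc (-1 : ℝ) 1) : pr s = ⟨s, h⟩ := projIcc_of_mem _ h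

omit [NormedSpace ℝ X] [FiniteDimensional ℝ X] in
lemma cont_pr (h : C(KK, X)) : Continuous fun u => h (pr u) := h.continuous.comp pr_cont

omit [FiniteDimensional ℝ X] in
def prim (h : C(KK, X)) : C(KK, X) :=
  ⟨fun s => ∫ u in (0 : ℝ)..(s : ℝ), h (pr u),
    (intervalIntegral.continuous_primitive (fun a b => (cont_pr h).intervalIntegrable a b) 0).comp
      continuous_subtype_val⟩

omit [FiniteDimensional ℝ X] in
def primL : C(KK, X) →ₗ[ℝ] C(KK, X) where
  toFun := prim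
  map_add' h h' := by
    ext s
    exact intervalIntegral.integral_add ((cont_pr h).intervalIntegrable _ _)
      ((cont_pr h').intervalIntegrable _ _)
  map_smul' a h := by
    ext s
    exact intervalIntegral.integral_smul a fun u => h (pr u)

omit [FiniteDimensional ℝ X] in
lemma primL_le (h : C(KK, X)) : ‖primL h‖ ≤ 1 * ‖h‖ := by
  refine (ContinuousMap.norm_le _ (by positivity)).2 fun s => ?_
  refine (intervalIntegral.norm_integral_le_of_norm_le_const (C := ‖h‖)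
    fun u _ => h.norm_coe_le_norm _).trans ?_
  rw [one_mul, sub_zero]
  exact mul_le_of_le_one_right (norm_nonneg _) (abs_le.2 s.2)

omit [FiniteDimensional ℝ X] in
def II : C(KK, X) →L[ℝ] C(KK, X) :=
  LinearMap.mkContinuous (𝕜 := ℝ) (𝕜₂ := ℝ) (E := C(KK, X)) (F := C(KK, X)) primL 1 primL_le

omit [FiniteDimensional ℝ X] in
lemma II_apply (h : C(KK, X)) (s : KK) : II h s = ∫ u in (0 : ℝ)..(s : ℝ), h (pr u) := rfl

/-- the equation -/
def NN (F : C(X, X)) (p : (ℝ × X) × C(KK, X)) : C(KK, X) :=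
  p.2 - ContinuousLinearMap.const ℝ KK p.1.2 - p.1.1 • II (F.comp p.2)

lemma NN_contDiff (F : C(X, X)) (hF : ContDiff ℝ 2 F) : ContDiff ℝ 2 (NN F) := by
  have h1 : ContDiff ℝ 2 fun c : C(KK, X) => F.comp c := contDiff_postcomp 2 F hF
  have h2 : ContDiff ℝ 2 fun c : C(KK, X) => II c :=
    ContinuousLinearMap.contDiff (𝕜 := ℝ) (E := C(KK, X)) (F := C(KK, X)) II
  have h3 : ContDiff ℝ 2 fun z : X => (ContinuousLinearMap.const ℝ KK z : C(KK, X)) :=
    ContinuousLinearMap.contDiff (𝕜 := ℝ) (E := X) (F := C(KK, X)) _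
  exact (contDiff_snd.sub (h3.comp (contDiff_snd.comp contDiff_fst))).sub
    ((contDiff_fst.comp contDiff_fst).smul (h2.comp (h1.comp contDiff_snd)))

lemma exists_imp (F : C(X, X)) (hF : ContDiff ℝ 2 F) (z₀ : X) :
    ∃ ψ : ℝ × X → C(KK, X), ContDiffAt ℝ 2 ψ (0, z₀) ∧ ψ (0, z₀) = ContinuousMap.const KK z₀ ∧
      ∀ᶠ p in 𝓝 ((0 : ℝ), z₀), NN F (p, ψ p) = 0 := by
  have : CompleteSpace X := FiniteDimensional.complete ℝ X
  set u : (ℝ × X) × C(KK, X) := ((0, z₀), ContinuousMap.const KK z₀) with hu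
  have cd : ContDiffAt ℝ 2 (NN F) u := (NN_contDiff F hF).contDiffAt
  have h1 : HasFDerivAt (fun c : C(KK, X) => NN F ((0, z₀), c))
      (fderiv ℝ (NN F) u ∘L .inr ℝ (ℝ × X) C(KK, X)) (ContinuousMap.const KK z₀) :=
    (cd.differentiableAt (by norm_num)).hasFDerivAt.comp _ (hasFDerivAt_prodMk_right _ _)
  have h2 : HasFDerivAt (fun c : C(KK, X) => NN F ((0, z₀), c))
      (ContinuousLinearMap.id ℝ C(KK, X)) (ContinuousMap.const KK z₀) := by
    simp only [NN, zero_smul, sub_zero]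
    exact (hasFDerivAt_id _).sub_const _
  have inv : (fderiv ℝ (NN F) u ∘L .inr ℝ (ℝ × X) C(KK, X)).IsInvertible := by
    rw [h1.unique h2]
    exact ⟨ContinuousLinearEquiv.refl ℝ _, rfl⟩
  have h0 : NN F u = 0 := by
    simp only [NN, hu, zero_smul, sub_zero]
    exact sub_self _
  refine ⟨cd.implicitFunction (by norm_num) inv, cd.contDiffAt_implicitFunction _ inv,
    cd.implicitFunction_apply_self _ inv, ?_⟩
  rw [← h0]
  exact cd.eventually_apply_implicitFunction _ inv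

/-- the solution on the line attached to a zero of `NN` -/
def sol (F : C(X, X)) (p : (ℝ × X) × C(KK, X)) (s : ℝ) : X :=
  p.1.2 + p.1.1 • ∫ u in (0 : ℝ)..s, F (p.2 (pr u))

omit [FiniteDimensional ℝ X] in
lemma sol_eq {F : C(X, X)} {p : (ℝ × X) × C(KK, X)} (h : NN F p = 0) {s : ℝ}
    (hs : s ∈ Icc (-1 : ℝ) 1) : sol F p s = p.2 ⟨s, hs⟩ := by
  have h1 : p.2 ⟨s, hs⟩ - p.1.2 - p.1.1 • ∫ u in (0 : ℝ)..s, F (p.2 (pr u)) = 0 :=
    DFunLike.congr_fun h ⟨s, hs⟩
  rw [sub_sub, sub_eq_zero] at h1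
  exact h1.symm

lemma sol_deriv' (F : C(X, X)) (p : (ℝ × X) × C(KK, X)) (s : ℝ) :
    HasDerivAt (sol F p) (p.1.1 • F (p.2 (pr s))) s := by
  have : CompleteSpace X := FiniteDimensional.complete ℝ X
  exact (((F.continuous.comp (cont_pr p.2)).integral_hasStrictDerivAt 0 s).hasDerivAt.const_smul
    p.1.1).const_add _

lemma sol_deriv {F : C(X, X)} {p : (ℝ × X) × C(KK, X)} (h : NN F p = 0) {s : ℝ}
    (hs : s ∈ Icc (-1 : ℝ) 1) : HasDerivAt (sol F p) (p.1.1 • F (sol F p s)) s := by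
  rw [sol_eq h hs, ← pr_of hs]
  exact sol_deriv' F p s

lemma sol_scale {F : C(X, X)} {C : NNReal} (hC : LipschitzWith C F) {τ σ : ℝ} {z : X}
    {c c' : C(KK, X)} (h : NN F ((τ, z), c) = 0) (h' : NN F ((τ * σ, z), c') = 0)
    (hσ : |σ| ≤ 1) : c' ⟨1, by norm_num⟩ = sol F ((τ, z), c) σ := by
  have lip : ∀ _t : ℝ, LipschitzWith (‖τ * σ‖₊ * C) fun x => (τ * σ) • F x := fun _ =>
    (lipschitzWith_smul (τ * σ)).comp hC
  have m : ∀ t ∈ Icc (0 : ℝ) 1, σ * t ∈ Icc (-1 : ℝ) 1 := fun t ht => by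
    rw [mem_Icc, ← abs_le, abs_mul, abs_of_nonneg ht.1]
    exact mul_le_one₀ hσ ht.1 ht.2
  have d1 : ∀ t ∈ Icc (0 : ℝ) 1, HasDerivAt (sol F ((τ * σ, z), c'))
      ((τ * σ) • F (sol F ((τ * σ, z), c') t)) t := fun t ht =>
    sol_deriv h' ⟨by linarith [ht.1], ht.2⟩
  have d2 : ∀ t ∈ Icc (0 : ℝ) 1, HasDerivAt (fun t => sol F ((τ, z), c) (σ * t))
      ((τ * σ) • F (sol F ((τ, z), c) (σ * t))) t := fun t ht => by
    have := (sol_deriv h (m t ht)).scomp t ((hasDerivAt_id t).const_mul σ)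
    rwa [mul_one, smul_smul, mul_comm σ] at this
  have e := ODE_solution_unique (v := fun _ x => (τ * σ) • F x) lip
    (fun t ht => (d1 t ht).continuousAt.continuousWithinAt)
    (fun t ht => (d1 t (Ico_subset_Icc_self ht)).hasDerivWithinAt)
    (fun t ht => (d2 t ht).continuousAt.continuousWithinAt)
    (fun t ht => (d2 t (Ico_subset_Icc_self ht)).hasDerivWithinAt) (by simp [sol])
    (show (1 : ℝ) ∈ Icc (0 : ℝ) 1 by norm_num)
  rw [sol_eq h' (by norm_num)] at e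
  simpa using e

end FlowX

open FlowX in
/-- local flow of a smooth vector field, jointly C^2 -/
theorem exists_flow {F : X → X} {W : Set X} (hW : IsOpen W) (hF : ContDiffOn ℝ ∞ F W)
    {z₀ : X} (hz : z₀ ∈ W) :
    ∃ ε > 0, ∃ V : Set X, IsOpen V ∧ z₀ ∈ V ∧ ∃ φ : ℝ × X → X,
      ContDiffOn ℝ 2 φ (Ioo (-ε) ε ×ˢ V) ∧ ∀ z ∈ V, φ (0, z) = z ∧
        ∀ t ∈ Ioo (-ε) ε, φ (t, z) ∈ W ∧ HasDerivAt (fun s => φ (s, z)) (F (φ (t, z))) t := by
  obtain ⟨r, hr, hrW⟩ := Metric.isOpen_iff.1 hW z₀ hz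
  let χ : ContDiffBump z₀ := ⟨r / 4, r / 2, by positivity, by linarith⟩
  have hs : ContDiff ℝ 2 fun x => χ x • F x := by
    refine contDiff_iff_contDiffAt.2 fun x => ?_
    by_cases hx : x ∈ W
    · exact χ.contDiff.contDiffAt.smul ((hF.contDiffAt (hW.mem_nhds hx)).of_le (by norm_cast))
    · have h1 : x ∉ tsupport χ := fun h => hx (hrW (by
        rw [χ.tsupport_eq] at h
        exact Metric.closedBall_subset_ball (by show r / 2 < r; linarith) h))
      refine (contDiffAt_const (c := 0)).congr_of_eventuallyEq ?_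
      filter_upwards [notMem_tsupport_iff_eventuallyEq.1 h1] with y hy
      rw [hy]; simp
  obtain ⟨C, hC⟩ := hs.lipschitzWith_of_hasCompactSupport
    (χ.hasCompactSupport.smul_right (f' := F)) (by norm_num)
  set G : C(X, X) := ⟨fun x => χ x • F x, hs.continuous⟩ with hG
  obtain ⟨ψ, p1, p2, p3⟩ := exists_imp G hs z₀
  have p4 : ∀ᶠ p in 𝓝 ((0 : ℝ), z₀), ψ p ∈ Metric.ball (ContinuousMap.const KK z₀) (r / 4) :=
    p1.continuousAt.eventually (by rw [p2]; exact Metric.ball_mem_nhds _ (by positivity))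
  obtain ⟨δ, hδ, h⟩ := Metric.eventually_nhds_iff_ball.1
    ((p1.eventually (by norm_cast)).and (p3.and p4))
  have mem : ∀ t ∈ Ioo (-δ) δ, ∀ z ∈ Metric.ball z₀ δ, (t, z) ∈ Metric.ball ((0 : ℝ), z₀) δ :=
    fun t ht z hz => by
      rw [← ball_prod_same]
      exact ⟨by rw [mem_ball_zero_iff, Real.norm_eq_abs, abs_lt]; exact ht, hz⟩
  refine ⟨δ, hδ, Metric.ball z₀ δ, Metric.isOpen_ball, Metric.mem_ball_self hδ,
    fun p => ψ p ⟨1, by norm_num⟩, fun p hp => ?_, fun z hz => ⟨?_, fun t ht => ?_⟩⟩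
  · exact ((ContinuousLinearMap.contDiff (𝕜 := ℝ) (E := C(KK, X)) (F := X)
      (ContinuousMap.evalCLM ℝ ⟨1, by norm_num⟩)).contDiffAt.comp p
      (h p (mem _ hp.1 _ hp.2)).1).contDiffWithinAt
  · have := sol_eq (h _ (mem 0 ⟨by linarith, hδ⟩ z hz)).2.1 (s := 1) (by norm_num)
    exact this.symm.trans (by simp [sol])
  · have b : ψ (t, z) ⟨1, by norm_num⟩ ∈ Metric.ball z₀ (r / 4) :=
      lt_of_le_of_lt (ContinuousMap.dist_apply_le_dist (f := ψ (t, z))
        (g := ContinuousMap.const KK z₀) _) (h _ (mem t ht z hz)).2.2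
    refine ⟨hrW (Metric.ball_subset_ball (by linarith) b), ?_⟩
    have t1 : |t| < δ := abs_lt.2 ht
    set τ := (|t| + δ) / 2 with hτ
    have τ0 : 0 < τ := by have := abs_nonneg t; positivity
    have τ1 : τ < δ := by linarith
    have τ2 : |t| < τ := by linarith
    have hN := (h _ (mem τ ⟨by linarith, τ1⟩ z hz)).2.1
    have key : ∀ s, |s| < τ → ψ (s, z) ⟨1, by norm_num⟩ = sol G ((τ, z), ψ (τ, z)) (s / τ) :=
      fun s hs => sol_scale hC hN (by
        rw [mul_div_cancel₀ _ τ0.ne']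
        exact (h _ (mem s (abs_lt.1 (hs.trans τ1)) z hz)).2.1) (by
        rw [abs_div, abs_of_pos τ0, div_le_one τ0]; exact hs.le)
    have m : t / τ ∈ Icc (-1 : ℝ) 1 := by
      rw [mem_Icc, ← abs_le, abs_div, abs_of_pos τ0, div_le_one τ0]; exact τ2.le
    have d := (sol_deriv hN m).scomp t ((hasDerivAt_id t).div_const τ)
    rw [smul_smul, one_div, inv_mul_cancel₀ τ0.ne', one_smul, ← key t τ2] at d
    have e : G (ψ (t, z) ⟨1, by norm_num⟩) = F (ψ (t, z) ⟨1, by norm_num⟩) := by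
      show χ _ • F _ = _
      rw [χ.one_of_mem_closedBall (Metric.ball_subset_closedBall b), one_smul]
    rw [e] at d
    refine d.congr_of_eventuallyEq ?_
    filter_upwards [(continuous_abs.isOpen_preimage _ isOpen_Iio).mem_nhds τ2] with s hs
    exact key s hs

end Vale.Agent.P255
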