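import Vale.Agent.P255.Model

open scoped ContDiff Manifold Topology
open Set Filter Real

noncomputable section

namespace Vale.Agent.P255

variable {c : Bool → ℝ}

namespace GeoX

/-- the neck point with given polar coordinates -/
def unpol (c : Bool → ℝ) (b : Bool) (r θ w : ℝ) : E3 :=
  if b then (r - c b + 1, w, θ + w) else (c b - r, θ, w)

lemma hgt_unpol (b : Bool) (r θ w : ℝ) : hgt b (unpol c b r θ w) = r - c b := by
  cases b <;> simp [hgt, unpol]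

lemma pol_unpol (b : Bool) (r θ w : ℝ) :
    pol c b (unpol c b r θ w) = (r * cos θ, r * sin θ, w) := by
  cases b <;> simp [pol, hgt, ang, fib, unpol]

lemma unpol_self (b : Bool) (y : E3) : unpol c b (c b + hgt b y) (ang b y) (fib b y) = y := by
  obtain ⟨x, p, q⟩ := y
  cases b <;> simp [hgt, ang, fib, unpol]

lemma hgt_lt {y : E3} (hy : y ∈ Om c none) (b : Bool) : hgt b y < 3 := by
  obtain ⟨h1, h2⟩ := hy
  cases b <;> simp [hgt] <;> linarith

lemma hgt_shift (b : Bool) (y : E3) (p q : ℝ) : hgt b (y + (0, p, q)) = hgt b y := by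
  cases b <;> simp [hgt]

lemma pol_shift (b : Bool) (y : E3) (m n : ℤ) : ∃ k : ℤ,
    pol c b (y + (0, 2 * π * m, 2 * π * n)) = pol c b y + (0, 0, 2 * π * k) := by
  have h : ∃ l : ℤ, ang b (y + (0, 2 * π * m, 2 * π * n)) = ang b y + l * (2 * π) := by
    cases b
    · exact ⟨m, by simp [ang]; ring⟩
    · exact ⟨n - m, by simp [ang]; ring⟩
  obtain ⟨l, hl⟩ := h
  refine ⟨if b then m else n, ?_⟩
  unfold pol
  rw [hl, hgt_shift, cos_add_int_mul_two_pi, sin_add_int_mul_two_pi]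
  cases b <;> simp [fib]

lemma pol_sq (b : Bool) (y : E3) (t : ℝ) :
    (pol c b y + ((0 : ℝ), (0 : ℝ), t)).1 ^ 2 + (pol c b y + ((0 : ℝ), (0 : ℝ), t)).2.1 ^ 2 =
      (c b + hgt b y) ^ 2 := by
  simp only [pol, Prod.fst_add, Prod.snd_add, add_zero]
  linear_combination (c b + hgt b y) ^ 2 * cos_sq_add_sin_sq (ang b y)

lemma pol_abs (b : Bool) (y : E3) (t : ℝ) (h : 0 ≤ c b + hgt b y) :
    |(pol c b y + ((0 : ℝ), (0 : ℝ), t)).1| ≤ c b + hgt b y ∧
      |(pol c b y + ((0 : ℝ), (0 : ℝ), t)).2.1| ≤ c b + hgt b y := by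
  have h1 := pol_sq (c := c) b y t
  exact ⟨abs_le_of_sq_le_sq (by nlinarith [sq_nonneg (pol c b y + ((0 : ℝ), (0 : ℝ), t)).2.1]) h,
    abs_le_of_sq_le_sq (by nlinarith [sq_nonneg (pol c b y + ((0 : ℝ), (0 : ℝ), t)).1]) h⟩

lemma int_zero {L : ℝ} {l : ℤ} (hL : 0 < L) (h : |L * l| < L) : l = 0 := by
  rw [abs_mul, abs_of_pos hL, mul_lt_iff_lt_one_right hL] at h
  have : |l| < 1 := by exact_mod_cast h
  exact Int.abs_lt_one_iff.1 this

lemma exists_red (t : ℝ) : ∃ n : ℤ, t + 2 * π * n ∈ Icc 0 (2 * π) := by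
  have h := toIcoMod_mem_Ico two_pi_pos 0 t
  refine ⟨-toIcoDiv two_pi_pos 0 t, ?_⟩
  have e : t + 2 * π * ((-toIcoDiv two_pi_pos 0 t : ℤ) : ℝ) = toIcoMod two_pi_pos 0 t := by
    rw [toIcoMod, zsmul_eq_mul]
    push_cast
    ring
  rw [e]
  exact ⟨h.1, by simpa using h.2.le⟩

lemma exists_red' {H t : ℝ} (hH : 1 ≤ H) (h : |t| < H + 1) :
    ∃ l : ℤ, |t + 2 * H * l| ≤ H ∧ (l = 0 ∨ (H - 1) ^ 2 ≤ (t + 2 * H * l) ^ 2) := by
  rw [abs_lt] at h
  rcases lt_or_ge H t with h1 | h1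
  · refine ⟨-1, abs_le.2 ⟨?_, ?_⟩, Or.inr ?_⟩ <;> push_cast <;> nlinarith
  rcases lt_or_ge t (-H) with h2 | h2
  · refine ⟨1, abs_le.2 ⟨?_, ?_⟩, Or.inr ?_⟩ <;> push_cast <;> nlinarith
  · exact ⟨0, by simpa using abs_le.2 ⟨h2, h1⟩, Or.inl rfl⟩

lemma nns {b : Bool} {y y' y'' : E3} (h : Rel c none y none y') (h' : Rel c none y' (some b) y'') :
    Rel c none y (some b) y'' := by
  obtain ⟨m, n, rfl⟩ := h
  obtain ⟨h1, k, rfl⟩ := h'
  obtain ⟨l, hl⟩ := pol_shift (c := c) b y m n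
  refine ⟨hgt_shift b y _ _ ▸ h1, l + k, ?_⟩
  rw [hl, add_assoc]
  congr 1
  simp [mul_add]

lemma nsn (hc : ∀ b, 2 ≤ c b) {b : Bool} {y y' y'' : E3} (h : Rel c none y (some b) y')
    (h' : Rel c (some b) y' none y'') : Rel c none y none y'' := by
  obtain ⟨h1, n, e⟩ := h
  obtain ⟨h2, n', e'⟩ := h'
  have s1 := pol_sq (c := c) b y (2 * π * n)
  have s2 := pol_sq (c := c) b y'' (2 * π * n')
  have hb := hc b
  rw [← e] at s1
  rw [← e', s1] at s2
  have hr : c b + hgt b y = c b + hgt b y'' :=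
    (pow_left_inj₀ (by linarith) (by linarith) two_ne_zero).1 s2
  rw [e] at e'
  simp only [pol, Prod.mk_add_mk, add_zero, Prod.mk.injEq, ← hr] at e'
  have h0 : c b + hgt b y ≠ 0 := by linarith
  obtain ⟨k, hk⟩ := Real.Angle.angle_eq_iff_two_pi_dvd_sub.1
    (Real.Angle.cos_sin_inj (mul_left_cancel₀ h0 e'.1) (mul_left_cancel₀ h0 e'.2.1))
  have hf := e'.2.2
  obtain ⟨x, p, q⟩ := y
  obtain ⟨x', p', q'⟩ := y''
  cases b
  · refine ⟨-k, n - n', ?_⟩
    simp only [hgt, ang, fib, Bool.false_eq_true, if_false] at hr hk hf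
    simp only [Prod.mk_add_mk, Prod.mk.injEq]
    push_cast
    exact ⟨by linarith, by linarith, by linarith⟩
  · refine ⟨n - n', n - n' - k, ?_⟩
    simp only [hgt, ang, fib, if_true] at hr hk hf
    simp only [Prod.mk_add_mk, Prod.mk.injEq]
    push_cast
    exact ⟨by linarith, by linarith, by linarith⟩

lemma nss (hc : ∀ b, 2 ≤ c b) {b b' : Bool} {y y' y'' : E3} (hy : y ∈ Om c none)
    (hy'' : y'' ∈ Om c (some b')) (h : Rel c none y (some b) y')
    (h' : Rel c (some b) y' (some b') y'') : Rel c none y (some b') y'' := by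
  obtain ⟨h1, n, e⟩ := h
  obtain ⟨rfl, l, m, k, e'⟩ := h'
  have hb := hc b
  have h2 := pol_abs b y (2 * π * n) (by linarith : 0 ≤ c b + hgt b y)
  have h3 := hgt_lt hy b
  rw [← e] at h2
  obtain ⟨h4, h5, -⟩ := hy''
  rw [e'] at h4 h5
  simp only [Prod.fst_add, Prod.snd_add] at h4 h5
  rw [abs_le, abs_le] at h2
  rw [abs_lt] at h4 h5
  obtain rfl : l = 0 := int_zero (L := 2 * (c b + 10)) (by linarith)
    (abs_lt.2 ⟨by linarith, by linarith⟩)
  obtain rfl : m = 0 := int_zero (L := 2 * (c b + 10)) (by linarith)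
    (abs_lt.2 ⟨by linarith, by linarith⟩)
  refine ⟨h1, n + k, ?_⟩
  rw [e', e, add_assoc]
  congr 1
  simp [mul_add]

end GeoX

open GeoX

theorem isOpen_Om (c : Bool → ℝ) (i : Option Bool) : IsOpen (Om c i) := by
  rcases i with _ | b
  · refine IsOpen.and (isOpen_lt ?_ ?_) (isOpen_lt ?_ ?_) <;> fun_prop
  · refine IsOpen.and (isOpen_lt ?_ ?_) (IsOpen.and (isOpen_lt ?_ ?_) (isOpen_lt ?_ ?_)) <;>
      fun_prop

/-- on the overlap the height exceeds one -/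
theorem one_lt_hgt (hc : ∀ b, 2 ≤ c b) {b : Bool} {y y' : E3} (hy' : y' ∈ Om c (some b))
    (h : Rel c none y (some b) y') : 1 < hgt b y := by
  obtain ⟨h1, n, rfl⟩ := h
  have h2 := hy'.2.2
  rw [pol_sq] at h2
  have hb := hc b
  have := lt_of_pow_lt_pow_left₀ 2 (by linarith) h2
  linarith

theorem pol_mem (hc : ∀ b, 2 ≤ c b) {b : Bool} {y : E3} (hy : y ∈ Om c none) (h : 1 < hgt b y)
    (n : ℤ) : pol c b y + (0, 0, 2 * π * n) ∈ Om c (some b) := by
  have hb := hc b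
  have h2 := pol_abs b y (2 * π * n) (by linarith : 0 ≤ c b + hgt b y)
  have h3 := hgt_lt hy b
  refine ⟨by linarith [h2.1], by linarith [h2.2], ?_⟩
  rw [pol_sq]
  exact pow_lt_pow_left₀ (by linarith) (by linarith) two_ne_zero

theorem rel_refl (c : Bool → ℝ) (i : Option Bool) (y : E3) : Rel c i y i y := by
  rcases i with _ | b
  · exact ⟨0, 0, by simp⟩
  · exact ⟨rfl, 0, 0, 0, by simp⟩

theorem rel_symm (c : Bool → ℝ) (i j : Option Bool) (y y' : E3) (h : Rel c i y j y') :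
    Rel c j y' i y := by
  rcases i with _ | b <;> rcases j with _ | b'
  · obtain ⟨m, n, rfl⟩ := h
    exact ⟨-m, -n, by simp [add_assoc]⟩
  · exact h
  · exact h
  · obtain ⟨rfl, l, m, n, rfl⟩ := h
    exact ⟨rfl, -l, -m, -n, by simp [add_assoc]⟩

theorem rel_trans (hc : ∀ b, 2 ≤ c b) (i j k : Option Bool) : ∀ y ∈ Om c i, ∀ y' ∈ Om c j,
    ∀ y'' ∈ Om c k, Rel c i y j y' → Rel c j y' k y'' → Rel c i y k y'' := by
  intro y hy y' hy' y'' hy'' h h'
  rcases i with _ | a <;> rcases j with _ | b <;> rcases k with _ | d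
  · obtain ⟨m, n, rfl⟩ := h
    obtain ⟨m', n', rfl⟩ := h'
    exact ⟨m + m', n + n', by simp [add_assoc, mul_add]⟩
  · exact nns h h'
  · exact nsn hc h h'
  · exact nss hc hy hy'' h h'
  · exact nns (rel_symm c _ _ _ _ h') h
  · have h1 := one_lt_hgt hc hy h
    have h2 := one_lt_hgt hc hy'' h'
    obtain rfl : a = d := by
      cases a <;> cases d <;> simp [hgt] at h1 h2 ⊢ <;> linarith
    obtain ⟨-, n, rfl⟩ := h
    obtain ⟨-, n', rfl⟩ := h'
    exact ⟨rfl, 0, 0, n' - n, by simp [add_assoc, mul_sub]⟩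
  · exact nss hc hy'' hy h' (rel_symm c _ _ _ _ h)
  · obtain ⟨rfl, l, m, n, rfl⟩ := h
    obtain ⟨rfl, l', m', n', rfl⟩ := h'
    exact ⟨rfl, l + l', m + m', n + n', by simp [add_assoc, mul_add]⟩

namespace GeoX

/-- compact cores -/
def KK (c : Bool → ℝ) : Option Bool → Set E3
  | none => Icc (-2) 3 ×ˢ Icc 0 (2 * π) ×ˢ Icc 0 (2 * π)
  | some b => Icc (-(c b + 10)) (c b + 10) ×ˢ Icc (-(c b + 10)) (c b + 10) ×ˢ Icc 0 (2 * π) ∩
      {y | (c b + 2) ^ 2 ≤ y.1 ^ 2 + y.2.1 ^ 2}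

lemma mid {y : E3} (h1 : -2 ≤ y.1) (h2 : y.1 ≤ 3) : ∃ y' ∈ KK c none, Rel c none y none y' := by
  obtain ⟨m, hm⟩ := exists_red y.2.1
  obtain ⟨n, hn⟩ := exists_red y.2.2
  exact ⟨_, ⟨by simpa using ⟨h1, h2⟩, hm, hn⟩, m, n, rfl⟩

lemma far (hc : ∀ b, 2 ≤ c b) {y : E3} (hy : y ∈ Om c none) {b : Bool} (h : 2 ≤ hgt b y) :
    ∃ y' ∈ KK c (some b), Rel c none y (some b) y' := by
  obtain ⟨n, hn⟩ := exists_red (fib b y)
  have hb := hc b
  have h2 := pol_abs b y (2 * π * n) (by linarith : 0 ≤ c b + hgt b y)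
  have h3 := hgt_lt hy b
  refine ⟨_, ⟨⟨abs_le.1 (by linarith [h2.1]), abs_le.1 (by linarith [h2.2]), hn⟩, ?_⟩,
    by linarith, n, rfl⟩
  rw [mem_ofPred_eq, pol_sq]
  exact pow_le_pow_left₀ (by linarith) (by linarith) 2

lemma polar (x y : ℝ) : ∃ θ, x = √(x ^ 2 + y ^ 2) * cos θ ∧ y = √(x ^ 2 + y ^ 2) * sin θ := by
  have h : ‖(⟨x, y⟩ : ℂ)‖ = √(x ^ 2 + y ^ 2) := Complex.norm_eq_sqrt_sq_add_sq _
  exact ⟨Complex.arg ⟨x, y⟩, by rw [← h, Complex.norm_mul_cos_arg],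
    by rw [← h, Complex.norm_mul_sin_arg]⟩

end GeoX

theorem rel_cpt (hc : ∀ b, 2 ≤ c b) : ∃ K : Option Bool → Set E3,
    (∀ i, IsCompact (K i) ∧ K i ⊆ Om c i) ∧
    ∀ i, ∀ y ∈ Om c i, ∃ j, ∃ y' ∈ K j, Rel c i y j y' := by
  refine ⟨KK c, fun i => ?_, fun i y hy => ?_⟩
  · rcases i with _ | b
    · exact ⟨isCompact_Icc.prod (isCompact_Icc.prod isCompact_Icc), fun y hy =>
        ⟨by linarith [hy.1.1], by linarith [hy.1.2]⟩⟩
    · refine ⟨(isCompact_Icc.prod (isCompact_Icc.prod isCompact_Icc)).inter_right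
        (isClosed_le (by fun_prop) (by fun_prop)), fun y hy => ?_⟩
      have hb := hc b
      have h1 := abs_le.2 hy.1.1
      have h2 := abs_le.2 hy.1.2.1
      have h3 : (c b + 2) ^ 2 ≤ y.1 ^ 2 + y.2.1 ^ 2 := hy.2
      exact ⟨by linarith, by linarith, by nlinarith⟩
  · rcases i with _ | b
    · rcases lt_or_ge y.1 (-2) with h1 | h1
      · exact ⟨_, far hc hy (b := false) (by simp [hgt]; linarith)⟩
      rcases lt_or_ge 3 y.1 with h2 | h2
      · exact ⟨_, far hc hy (b := true) (by simp [hgt]; linarith)⟩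
      · exact ⟨_, mid h1 h2⟩
    · obtain ⟨h1, h2, h3⟩ := hy
      have hb := hc b
      rcases le_or_gt ((c b + 2) ^ 2) (y.1 ^ 2 + y.2.1 ^ 2) with h4 | h4
      · obtain ⟨l, hl, hl'⟩ := exists_red' (H := c b + 10) (t := y.1) (by linarith) (by linarith)
        obtain ⟨m, hm, hm'⟩ := exists_red' (H := c b + 10) (t := y.2.1) (by linarith) (by linarith)
        obtain ⟨n, hn⟩ := exists_red y.2.2
        refine ⟨some b, _, ⟨⟨abs_le.1 hl, abs_le.1 hm, hn⟩, ?_⟩, rfl, l, m, n, rfl⟩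
        simp only [mem_ofPred_eq, Prod.fst_add, Prod.snd_add]
        rcases hl' with rfl | hl'
        · rcases hm' with rfl | hm'
          · simpa using h4
          · nlinarith [sq_nonneg (y.1 + 2 * (c b + 10) * ((0 : ℤ) : ℝ))]
        · nlinarith [sq_nonneg (y.2.1 + 2 * (c b + 10) * (m : ℝ))]
      · obtain ⟨θ, e1, e2⟩ := polar y.1 y.2.1
        have r1 : c b + 1 < √(y.1 ^ 2 + y.2.1 ^ 2) := lt_sqrt_of_sq_lt h3
        have r2 : √(y.1 ^ 2 + y.2.1 ^ 2) < c b + 2 := (sqrt_lt' (by linarith)).2 h4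
        set r := √(y.1 ^ 2 + y.2.1 ^ 2)
        have hR : Rel c none (unpol c b r θ y.2.2) (some b) y :=
          ⟨by rw [hgt_unpol]; linarith, 0, by rw [pol_unpol, ← e1, ← e2]; simp⟩
        obtain ⟨y', hy', h5⟩ := mid (c := c) (y := unpol c b r θ y.2.2)
          (by cases b <;> simp [unpol] <;> linarith) (by cases b <;> simp [unpol] <;> linarith)
        exact ⟨none, y', hy', nns (rel_symm c _ _ _ _ h5) hR⟩

end Vale.Agent.P255
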