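import Vale.Agent.P255.GeoA

open scoped ContDiff Manifold Topology
open Set Filter Real

noncomputable section

namespace Vale.Agent.P255

variable {c : Bool → ℝ}

namespace GeoX

lemma small {L : ℝ} {l : ℤ} (hL : 1 ≤ L) (h : ‖L * l‖ < 1) : l = 0 :=
  int_zero (by linarith : 0 < L) (lt_of_lt_of_le h hL)

lemma closed_lat {X : Type} [TopologicalSpace X] {L : ℝ} (hL : L ≠ 0) {f g : X → ℝ}
    (hf : Continuous f) (hg : Continuous g) : IsClosed {x | ∃ m : ℤ, f x = g x + L * m} := by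
  have e : {x | ∃ m : ℤ, f x = g x + L * m} =
      (fun x => (f x - g x) / L) ⁻¹' range ((↑) : ℤ → ℝ) := by
    ext x
    refine exists_congr fun m => ?_
    rw [eq_div_iff hL]
    constructor <;> intro h <;> linarith
  rw [e]
  exact Int.isClosedEmbedding_coe_real.isClosed_range.preimage (by fun_prop)

@[fun_prop] lemma cd_hgt (b : Bool) : ContDiff ℝ ∞ (hgt b) := by
  unfold hgt
  cases b <;> simp <;> fun_prop

@[fun_prop] lemma cd_ang (b : Bool) : ContDiff ℝ ∞ (ang b) := by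
  unfold ang
  cases b <;> simp <;> fun_prop

@[fun_prop] lemma cd_fib (b : Bool) : ContDiff ℝ ∞ (fib b) := by
  unfold fib
  cases b <;> simp <;> fun_prop

lemma cd_pol (c : Bool → ℝ) (b : Bool) : ContDiff ℝ ∞ (pol c b) := by
  unfold pol
  fun_prop

lemma closed_ns (b : Bool) : IsClosed {z : E3 × E3 | Rel c none z.1 (some b) z.2} := by
  have e : {z : E3 × E3 | Rel c none z.1 (some b) z.2} = {z | 0 ≤ hgt b z.1 ∧
      z.2.1 = (pol c b z.1).1 ∧ z.2.2.1 = (pol c b z.1).2.1 ∧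
        ∃ n : ℤ, z.2.2.2 = (pol c b z.1).2.2 + 2 * π * n} := by
    ext z
    simp [Rel, Prod.ext_iff]
  have h1 := (cd_pol c b).continuous
  have h2 := (cd_hgt b).continuous
  rw [e]
  refine IsClosed.and (isClosed_le ?_ ?_) (IsClosed.and (isClosed_eq ?_ ?_)
    (IsClosed.and (isClosed_eq ?_ ?_) (closed_lat two_pi_pos.ne' ?_ ?_))) <;> fun_prop

lemma closed_rel (hc : ∀ b, 2 ≤ c b) (i j : Option Bool) :
    IsClosed {z : E3 × E3 | Rel c i z.1 j z.2} := by
  rcases i with _ | b <;> rcases j with _ | b'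
  · have e : {z : E3 × E3 | Rel c none z.1 none z.2} = {z | z.2.1 = z.1.1 ∧
        (∃ n : ℤ, z.2.2.1 = z.1.2.1 + 2 * π * n) ∧ ∃ n : ℤ, z.2.2.2 = z.1.2.2 + 2 * π * n} := by
      ext z
      simp [Rel, Prod.ext_iff]
    rw [e]
    refine IsClosed.and (isClosed_eq ?_ ?_) (IsClosed.and (closed_lat two_pi_pos.ne' ?_ ?_)
      (closed_lat two_pi_pos.ne' ?_ ?_)) <;> fun_prop
  · exact closed_ns b'
  · exact (closed_ns (c := c) b).preimage continuous_swap
  · by_cases hb : b = b'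
    · have e : {z : E3 × E3 | Rel c (some b) z.1 (some b') z.2} =
          {z | (∃ n : ℤ, z.2.1 = z.1.1 + 2 * (c b + 10) * n) ∧
            (∃ n : ℤ, z.2.2.1 = z.1.2.1 + 2 * (c b + 10) * n) ∧
              ∃ n : ℤ, z.2.2.2 = z.1.2.2 + 2 * π * n} := by
        ext z
        simp [Rel, Prod.ext_iff, hb]
      have h0 : 2 * (c b + 10) ≠ 0 := by linarith [hc b]
      rw [e]
      refine IsClosed.and (closed_lat h0 ?_ ?_) (IsClosed.and (closed_lat h0 ?_ ?_)
        (closed_lat two_pi_pos.ne' ?_ ?_)) <;> fun_prop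
    · simp [Rel, hb]

lemma cd_unpol {b : Bool} {r θ w : E3 → ℝ} {y : E3} (hr : ContDiffAt ℝ ∞ r y)
    (hθ : ContDiffAt ℝ ∞ θ y) (hw : ContDiffAt ℝ ∞ w y) :
    ContDiffAt ℝ ∞ (fun z => unpol c b (r z) (θ z) (w z)) y := by
  unfold unpol
  cases b <;> simp only [Bool.false_eq_true, if_false, if_true] <;> fun_prop

/-- local polar coordinates -/
lemma loc_polar (y : E3) {ρ θ₀ : ℝ} (hρ : 0 < ρ) (h1 : y.1 = ρ * cos θ₀)
    (h2 : y.2.1 = ρ * sin θ₀) : ∃ r θ : E3 → ℝ, ContDiffAt ℝ ∞ r y ∧ ContDiffAt ℝ ∞ θ y ∧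
      r y = ρ ∧ θ y = θ₀ ∧ ∀ᶠ z in 𝓝 y, z.1 = r z * cos (θ z) ∧ z.2.1 = r z * sin (θ z) := by
  set u : E3 → ℝ := fun z => z.1 * cos θ₀ + z.2.1 * sin θ₀ with hu
  set v : E3 → ℝ := fun z => z.2.1 * cos θ₀ - z.1 * sin θ₀ with hv
  have cu : ContDiff ℝ ∞ u := by fun_prop
  have cv : ContDiff ℝ ∞ v := by fun_prop
  have uy : u y = ρ := by
    simp only [hu, h1, h2]
    linear_combination ρ * cos_sq_add_sin_sq θ₀
  have vy : v y = 0 := by
    simp only [hv, h1, h2]
    ring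
  have ca : ContDiffAt ℝ ∞ (fun z => arctan (v z / u z)) y :=
    contDiff_arctan.contDiffAt.comp y (cv.contDiffAt.div cu.contDiffAt (uy ▸ hρ.ne'))
  refine ⟨fun z => u z / cos (arctan (v z / u z)), fun z => θ₀ + arctan (v z / u z),
    cu.contDiffAt.div ca.cos (cos_arctan_pos _).ne', contDiffAt_const.add ca, by simp [uy, vy],
    by simp [vy], ?_⟩
  filter_upwards [cu.continuous.continuousAt.eventually_ne (uy ▸ hρ.ne' : u y ≠ 0)] with z hz
  have hc := (cos_arctan_pos (v z / u z)).ne'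
  have hs : sin (arctan (v z / u z)) = v z / u z * cos (arctan (v z / u z)) := by
    rw [← div_eq_iff hc, ← tan_eq_sin_div_cos, tan_arctan]
  rw [cos_add, sin_add, hs]
  generalize cos (arctan (v z / u z)) = k at hc
  have e1 : z.1 = u z * cos θ₀ - v z * sin θ₀ := by
    simp only [hu, hv]
    linear_combination (-z.1) * cos_sq_add_sin_sq θ₀
  have e2 : z.2.1 = u z * sin θ₀ + v z * cos θ₀ := by
    simp only [hu, hv]
    linear_combination (-z.2.1) * cos_sq_add_sin_sq θ₀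
  rw [e1, e2]
  constructor <;> field_simp

end GeoX

open GeoX

theorem rel_inj (hc : ∀ b, 2 ≤ c b) (i : Option Bool) (y : E3) :
    ∀ᶠ z in 𝓝 (y, y), Rel c i z.1 i z.2 → z.1 = z.2 := by
  have h : ∀ᶠ z : E3 × E3 in 𝓝 (y, y), ‖z.2 - z.1‖ < 1 :=
    (by fun_prop : Continuous fun z : E3 × E3 => ‖z.2 - z.1‖).continuousAt.eventually_lt
      continuousAt_const (by simp)
  have hp : 1 ≤ 2 * π := by linarith [pi_gt_three]
  filter_upwards [h] with z hz hR
  rcases i with _ | b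
  · obtain ⟨m, n, e⟩ := hR
    rw [e, add_sub_cancel_left, Prod.norm_mk, Prod.norm_mk, max_lt_iff, max_lt_iff] at hz
    rw [e, small hp hz.2.1, small hp hz.2.2]
    simp
  · obtain ⟨-, l, m, n, e⟩ := hR
    have hb : 1 ≤ 2 * (c b + 10) := by linarith [hc b]
    rw [e, add_sub_cancel_left, Prod.norm_mk, Prod.norm_mk, max_lt_iff, max_lt_iff] at hz
    rw [e, small hb hz.1, small hb hz.2.1, small hp hz.2.2]
    simp

theorem rel_closed (hc : ∀ b, 2 ≤ c b) (i j : Option Bool) (y y' : E3) (h : ¬ Rel c i y j y') :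
    ∀ᶠ z in 𝓝 (y, y'), ¬ Rel c i z.1 j z.2 :=
  (closed_rel hc i j).isOpen_compl.mem_nhds h

theorem rel_loc (hc : ∀ b, 2 ≤ c b) (i j : Option Bool) : ∀ y ∈ Om c i, ∀ y' ∈ Om c j,
    Rel c i y j y' → ∃ τ : E3 → E3, ContDiffAt ℝ ∞ τ y ∧ τ y = y' ∧
      ∀ᶠ z in 𝓝 y, Rel c i z j (τ z) := by
  intro y hy y' hy' h
  rcases i with _ | b <;> rcases j with _ | b'
  · obtain ⟨m, n, rfl⟩ := h
    exact ⟨fun z => z + (0, 2 * π * m, 2 * π * n), by fun_prop, rfl,
      Eventually.of_forall fun z => ⟨m, n, rfl⟩⟩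
  · have h1 := one_lt_hgt hc hy' h
    obtain ⟨-, n, rfl⟩ := h
    refine ⟨fun z => pol c b' z + (0, 0, 2 * π * n), (cd_pol c b').contDiffAt.add contDiffAt_const,
      rfl, ?_⟩
    filter_upwards [continuousAt_const.eventually_lt (cd_hgt b').continuous.continuousAt h1]
      with z hz
    exact ⟨by linarith, n, rfl⟩
  · have h1 := one_lt_hgt hc hy h
    obtain ⟨-, n, e⟩ := h
    have hb := hc b
    obtain ⟨r, θ, h2, h3, h4, h5, h6⟩ := loc_polar y (ρ := c b + hgt b y') (θ₀ := ang b y')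
      (by linarith) (by simp [e, pol]) (by simp [e, pol])
    refine ⟨fun z => unpol c b (r z) (θ z) (z.2.2 - 2 * π * n), cd_unpol h2 h3 (by fun_prop), ?_, ?_⟩
    · have : y.2.2 - 2 * π * n = fib b y' := by simp [e, pol]
      simp only [h4, h5, this, unpol_self]
    · filter_upwards [h6, continuousAt_const.eventually_lt h2.continuousAt
        (by linarith : c b < r y)] with z hz hr
      refine ⟨by rw [hgt_unpol]; linarith, n, ?_⟩
      rw [pol_unpol, ← hz.1, ← hz.2]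
      simp
  · obtain ⟨rfl, l, m, n, rfl⟩ := h
    exact ⟨fun z => z + (2 * (c b + 10) * l, 2 * (c b + 10) * m, 2 * π * n), by fun_prop, rfl,
      Eventually.of_forall fun z => ⟨rfl, l, m, n, rfl⟩⟩

theorem etale_model (hc : ∀ b, 2 ≤ c b) : Etale E3 (Om c) (Rel c) where
  op := isOpen_Om c
  refl := fun i y _ => rel_refl c i y
  symm := fun i j y _ y' _ h => rel_symm c i j y y' h
  trans := rel_trans hc
  loc := rel_loc hc
  inj := fun i y _ => rel_inj hc i y
  closed := fun i j y _ y' _ h => rel_closed hc i j y y' h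
  cpt := rel_cpt hc

end Vale.Agent.P255
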