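import Vale.Agent.P255.Loc

open scoped ContDiff Manifold Topology
open Set Filter

noncomputable section

namespace Vale.Agent.P255

variable {E : Type} [NormedAddCommGroup E] [NormedSpace ℝ E] [FiniteDimensional ℝ E]
variable {G G' : E → E →L[ℝ] E →L[ℝ] ℝ} {U U' : Set E} {τ : E → E}

namespace TransA

omit [FiniteDimensional ℝ E] in
theorem at_two (hU : IsOpen U) (h : ContDiffOn ℝ ∞ τ U) {y : E} (hy : y ∈ U) :
    ContDiffAt ℝ 2 τ y :=
  (h.contDiffAt (hU.mem_nhds hy)).of_le (WithTop.coe_le_coe.2 le_top : ((2 : ℕ∞) : WithTop ℕ∞) ≤ _)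

omit [FiniteDimensional ℝ E] in
theorem d_one (hU : IsOpen U) (h : ContDiffOn ℝ ∞ τ U) {y : E} (hy : y ∈ U) :
    HasFDerivAt τ (fderiv ℝ τ y) y :=
  ((at_two hU h hy).differentiableAt (by simp)).hasFDerivAt

omit [FiniteDimensional ℝ E] in
theorem d_two (hU : IsOpen U) (h : ContDiffOn ℝ ∞ τ U) {y : E} (hy : y ∈ U) :
    HasFDerivAt (fderiv ℝ τ) (fderiv ℝ (fderiv ℝ τ) y) y :=
  (((at_two hU h hy).fderiv_right (m := 1) (by norm_num)).differentiableAt (by simp)).hasFDerivAt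

omit [FiniteDimensional ℝ E] in
theorem d_symm (hU : IsOpen U) (h : ContDiffOn ℝ ∞ τ U) {y : E} (hy : y ∈ U) (a b : E) :
    fderiv ℝ (fderiv ℝ τ) y a b = fderiv ℝ (fderiv ℝ τ) y b a :=
  (at_two hU h hy).isSymmSndFDerivAt (by simp) a b

omit [FiniteDimensional ℝ E] in
theorem d_lm (h : LM G U) {y : E} (hy : y ∈ U) : HasFDerivAt G (fderiv ℝ G y) y :=
  ((h.sm.contDiffAt (h.op.mem_nhds hy)).differentiableAt (by simp)).hasFDerivAt

omit [FiniteDimensional ℝ E] in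
theorem d_pull (h : PB G U G' U' τ) {y : E} (hy : y ∈ U) (c a b : E) :
    fderiv ℝ G y c a b =
      fderiv ℝ G' (τ y) (fderiv ℝ τ y c) (fderiv ℝ τ y a) (fderiv ℝ τ y b) +
      G' (τ y) (fderiv ℝ (fderiv ℝ τ) y c a) (fderiv ℝ τ y b) +
      G' (τ y) (fderiv ℝ τ y a) (fderiv ℝ (fderiv ℝ τ) y c b) := by
  have h1 := ((d_lm h.lm hy).clm_apply (hasFDerivAt_const a y)).clm_apply (hasFDerivAt_const b y)
  have t2 := d_two h.lm.op h.sm hy
  have t1 : HasFDerivAt (G' ∘ τ) ((fderiv ℝ G' (τ y)).comp (fderiv ℝ τ y)) y :=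
    HasFDerivAt.comp (G := E →L[ℝ] E →L[ℝ] ℝ) (g := G') y (d_lm h.lm' (h.maps hy))
      (d_one h.lm.op h.sm hy)
  have t3 := t1.clm_apply (t2.clm_apply (hasFDerivAt_const a y))
  have h2 := t3.clm_apply (t2.clm_apply (hasFDerivAt_const b y))
  have e : (fun z => G z a b) =ᶠ[𝓝 y]
      fun z => (G' ∘ τ) z (fderiv ℝ τ z a) (fderiv ℝ τ z b) := by
    filter_upwards [h.lm.op.mem_nhds hy] with z hz
    exact h.pull z hz a b
  have h3 := congrArg (fun L : E →L[ℝ] ℝ => L c) (h1.unique (h2.congr_of_eventuallyEq e))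
  simp only [add_apply, ContinuousLinearMap.comp_apply,
    ContinuousLinearMap.flip_apply, zero_apply, map_zero, zero_add,
    Function.comp_apply] at h3
  rw [h3]
  ring

theorem surj (h : PB G U G' U' τ) {y : E} (hy : y ∈ U) : Function.Surjective (fderiv ℝ τ y) := by
  refine (LinearMap.injective_iff_surjective (f := (fderiv ℝ τ y : E →ₗ[ℝ] E))).1 ?_
  rw [injective_iff_map_eq_zero]
  intro a ha
  by_contra h0
  have h1 := h.lm.pos y hy a h0
  have h2 : fderiv ℝ τ y a = 0 := ha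
  rw [h.pull y hy, h2, map_zero] at h1
  exact lt_irrefl _ h1

end TransA

open TransA

theorem PB.chris_eq (h : PB G U G' U' τ) {y : E} (hy : y ∈ U) (a b : E) :
    chris G' (τ y) (fderiv ℝ τ y a) (fderiv ℝ τ y b) =
      fderiv ℝ τ y (chris G y a b) - fderiv ℝ (fderiv ℝ τ) y a b := by
  refine h.lm'.ext (h.maps hy) fun ξ' => ?_
  obtain ⟨ξ, rfl⟩ := surj h hy ξ'
  have s := h.lm'.symm _ (h.maps hy)
  have d := d_symm h.lm.op h.sm hy
  rw [map_sub, sub_apply, ← h.pull y hy, chris_spec h.lm hy,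
    chris_spec h.lm' (h.maps hy), d_pull h hy a b ξ, d_pull h hy b a ξ, d_pull h hy ξ a b,
    d b a, d ξ a, d ξ b, s (fderiv ℝ τ y b) (fderiv ℝ (fderiv ℝ τ) y a ξ)]
  ring

omit [FiniteDimensional ℝ E] in
theorem contDiffOn_tmap (hU : IsOpen U) (h : ContDiffOn ℝ ∞ τ U) :
    ContDiffOn ℝ ∞ (tmap τ) (U ×ˢ univ) := by
  have h1 : ContDiffOn ℝ ∞ (fderiv ℝ τ) U := h.fderiv_of_isOpen hU (by simp)
  exact (h.comp contDiffOn_fst fun z hz => hz.1).prodMk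
    ((h1.comp contDiffOn_fst fun z hz => hz.1).clm_apply contDiffOn_snd)

omit [FiniteDimensional ℝ E] in
theorem fderiv_tmap (hU : IsOpen U) (h : ContDiffOn ℝ ∞ τ U) {z : E × E} (hz : z.1 ∈ U)
    (δ : E × E) : fderiv ℝ (tmap τ) z δ =
      (fderiv ℝ τ z.1 δ.1, fderiv ℝ (fderiv ℝ τ) z.1 δ.1 z.2 + fderiv ℝ τ z.1 δ.2) := by
  have h1 := ((d_one hU h hz).comp z hasFDerivAt_fst).prodMk
    (((d_two hU h hz).comp z hasFDerivAt_fst).clm_apply hasFDerivAt_snd)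
  have h2 : HasFDerivAt (tmap τ) _ z := h1
  rw [h2.fderiv]
  simp [add_comm]

theorem PB.spray_eq (h : PB G U G' U' τ) {z : E × E} (hz : z.1 ∈ U) :
    fderiv ℝ (tmap τ) z (spray G z) = spray G' (tmap τ z) := by
  rw [fderiv_tmap h.lm.op h.sm hz]
  simp only [spray, tmap]
  rw [h.chris_eq hz, map_neg]
  congr 1
  abel

theorem PB.dJ_eq (h : PB G U G' U' τ) {z : E × E} (hz : z.1 ∈ U) (δ : E × E) :
    dJ G' (tmap τ z) (fderiv ℝ (tmap τ) z δ) = fderiv ℝ τ z.1 (dJ G z δ) := by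
  rw [fderiv_tmap h.lm.op h.sm hz]
  simp only [dJ, tmap]
  rw [h.chris_eq hz, map_add, d_symm h.lm.op h.sm hz δ.1 z.2]
  abel

omit [FiniteDimensional ℝ E] in
theorem PB.nn_eq (h : PB G U G' U' τ) {z : E × E} (hz : z.1 ∈ U) (δ : E × E) :
    nn G' (tmap τ z) (fderiv ℝ (tmap τ) z δ) = nn G z δ := by
  rw [fderiv_tmap h.lm.op h.sm hz]
  exact (h.pull _ hz _ _).symm

theorem PB.mm_eq (h : PB G U G' U' τ) {z : E × E} (hz : z.1 ∈ U) (δ : E × E) :
    mm G' (tmap τ z) (fderiv ℝ (tmap τ) z δ) = mm G z δ := by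
  rw [mm, h.dJ_eq hz, fderiv_tmap h.lm.op h.sm hz]
  exact (h.pull _ hz _ _).symm

theorem PB.qq_eq (h : PB G U G' U' τ) {z : E × E} (hz : z.1 ∈ U) (δ : E × E) :
    qq G' (tmap τ z) (fderiv ℝ (tmap τ) z δ) = qq G z δ := by
  rw [qq, h.dJ_eq hz]
  exact (h.pull _ hz _ _).symm

end Vale.Agent.P255
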