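import Vale.Agent.P255.LocA
import Vale.Agent.P255.Trans
import Vale.Agent.P255.Chart

open scoped ContDiff Manifold Topology
open Set Filter

noncomputable section

namespace Vale.Agent.P255

variable {E : Type} [NormedAddCommGroup E] [NormedSpace ℝ E] [FiniteDimensional ℝ E]
variable {M : Type} [TopologicalSpace M] [ChartedSpace E M] [IsManifold 𝓘(ℝ, E) ∞ M]
variable {g : RMetric E M} {c c' : ℝ → M × E}

theorem contDiffAt_tmap_trans {e e' : OpenPartialHomeomorph M E} (he : e ∈ atlas E M)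
    (he' : e' ∈ atlas E M) {z : E × E} (hz : z.1 ∈ e.target ∩ e.symm ⁻¹' e'.source) :
    ContDiffAt ℝ ∞ (tmap (e' ∘ e.symm)) z :=
  (contDiffOn_tmap (isOpen_trans e e') (contDiffOn_trans he he')).contDiffAt
    (((isOpen_trans e e').prod isOpen_univ).mem_nhds ⟨hz, mem_univ _⟩)

theorem contDiffAt_spray_loc (g : RMetric E M) {e : OpenPartialHomeomorph M E}
    (he : e ∈ atlas E M) {z : E × E} (hz : z.1 ∈ e.target) :
    ContDiffAt ℝ ∞ (spray (loc g.inner e)) z :=
  (contDiffOn_spray (lm_loc g he)).contDiffAt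
    ((e.open_target.prod isOpen_univ).mem_nhds ⟨hz, mem_univ _⟩)

omit [FiniteDimensional ℝ E] [IsManifold 𝓘(ℝ, E) ∞ M] in
theorem Lam_mem_trans {e e' : OpenPartialHomeomorph M E} {s : M × E} (hs : s.1 ∈ e.source)
    (hs' : s.1 ∈ e'.source) : (Lam e s).1 ∈ e.target ∩ e.symm ⁻¹' e'.source := by
  refine ⟨e.map_source hs, ?_⟩
  change e.symm (e s.1) ∈ e'.source
  rwa [e.left_inv hs]

/-- one chart suffices -/
theorem GeoL.of_chart {t : ℝ} {e : OpenPartialHomeomorph M E} (he : e ∈ atlas E M)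
    (hc : ContinuousAt (fun s => (c s).1) t) (hs : (c t).1 ∈ e.source)
    (hd : HasDerivAt (fun s => Lam e (c s)) (spray (loc g.inner e) (Lam e (c t))) t) :
    GeoL g c t := by
  refine ⟨hc, fun e' he' hs' => ?_⟩
  have hz := Lam_mem_trans hs hs'
  have h1 := ((contDiffAt_tmap_trans he he' hz).differentiableAt (by simp)).hasFDerivAt
  have h2 := h1.comp_hasDerivAt t hd
  rw [(pb_loc g he he').spray_eq hz, ← Lam_trans he he' hs hs'] at h2
  refine h2.congr_of_eventuallyEq ?_
  filter_upwards [hc.preimage_mem_nhds (e.open_source.mem_nhds hs),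
    hc.preimage_mem_nhds (e'.open_source.mem_nhds hs')] with s h h'
  exact Lam_trans he he' h h'

/-- a solution in a chart gives a geodesic -/
theorem GeoL.of_Lami {t : ℝ} {e : OpenPartialHomeomorph M E} (he : e ∈ atlas E M)
    {z : ℝ → E × E} (hz : (z t).1 ∈ e.target) (hd : HasDerivAt z (spray (loc g.inner e) (z t)) t) :
    GeoL g (fun s => Lami e (z s)) t := by
  have h1 : ContinuousAt (fun s => (z s).1) t := hd.continuousAt.fst
  have h2 : ContinuousAt (fun s => e.symm (z s).1) t :=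
    ContinuousAt.comp (f := fun s => (z s).1) (e.continuousAt_symm hz) h1
  refine GeoL.of_chart he h2 (e.map_target hz) ?_
  rw [Lam_Lami he hz]
  refine hd.congr_of_eventuallyEq ?_
  filter_upwards [h1.preimage_mem_nhds (e.open_target.mem_nhds hz)] with s h
  exact Lam_Lami he h

omit [FiniteDimensional ℝ E] [IsManifold 𝓘(ℝ, E) ∞ M] in
theorem GeoL.congr {t : ℝ} (h : GeoL g c t) (he : c =ᶠ[𝓝 t] c') : GeoL g c' t := by
  have h0 : c t = c' t := he.eq_of_nhds
  refine ⟨h.1.congr (he.mono fun s hs => by simp only [hs]), fun e he' hs => ?_⟩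
  rw [← h0] at hs ⊢
  exact (h.2 e he' hs).congr_of_eventuallyEq (he.mono fun s hs => by simp only [hs])

/-- local uniqueness -/
theorem GeoL.unique_loc {t : ℝ} (h : ∀ᶠ s in 𝓝 t, GeoL g c s) (h' : ∀ᶠ s in 𝓝 t, GeoL g c' s)
    (h0 : c t = c' t) : c =ᶠ[𝓝 t] c' := by
  have he : chartAt E (c t).1 ∈ atlas E M := chart_mem_atlas E _
  have hs : (c t).1 ∈ (chartAt E (c t).1).source := mem_chart_source E _
  generalize chartAt E (c t).1 = e at he hs
  have hs' : (c' t).1 ∈ e.source := h0 ▸ hs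
  have ht := h.self_of_nhds
  have ht' := h'.self_of_nhds
  obtain ⟨K, S, hS, hK⟩ := ((contDiffAt_spray_loc g he (z := Lam e (c t))
    (e.map_source hs)).of_le (by simp : (1 : WithTop ℕ∞) ≤ ∞)).exists_lipschitzOnWith
  have m1 := ht.1.preimage_mem_nhds (e.open_source.mem_nhds hs)
  have m2 := ht'.1.preimage_mem_nhds (e.open_source.mem_nhds hs')
  have key := ODE_solution_unique_of_eventually (v := fun _ => spray (loc g.inner e))
    (s := fun _ => S) (K := K) (f := fun s => Lam e (c s)) (g := fun s => Lam e (c' s)) (t₀ := t)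
    (Eventually.of_forall fun _ => hK)
    (by
      filter_upwards [h, m1, (ht.2 e he hs).continuousAt.preimage_mem_nhds hS] with s a b d
      exact ⟨a.2 e he b, d⟩)
    (by
      filter_upwards [h', m2, (ht'.2 e he hs').continuousAt.preimage_mem_nhds (h0 ▸ hS)]
        with s a b d
      exact ⟨a.2 e he b, d⟩)
    (by simp only [h0])
  filter_upwards [key, m1, m2] with s a b d
  rw [← Lami_Lam he b, ← Lami_Lam he d]
  exact congrArg (Lami e) a

theorem GeoL.unique [T2Space M] {I : Set ℝ} (hI : IsOpen I) (hI' : IsPreconnected I)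
    (h : ∀ t ∈ I, GeoL g c t) (h' : ∀ t ∈ I, GeoL g c' t) {t₀ : ℝ} (ht : t₀ ∈ I)
    (h0 : c t₀ = c' t₀) : EqOn c c' I := by
  have key : ∀ t ∈ I, c t = c' t → c =ᶠ[𝓝 t] c' := fun t ht h0 =>
    GeoL.unique_loc (Filter.mem_of_superset (hI.mem_nhds ht) h)
      (Filter.mem_of_superset (hI.mem_nhds ht) h') h0
  have hsub : I ⊆ {t | c =ᶠ[𝓝 t] c'} := by
    refine hI'.subset_of_closure_inter_subset isOpen_setOf_eventually_nhds
      ⟨t₀, ht, key t₀ ht h0⟩ fun t ⟨hcl, htI⟩ => key t htI ?_
    have hfr : ∃ᶠ s in 𝓝 t, c s = c' s :=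
      (mem_closure_iff_frequently.1 hcl).mono fun s hs => hs.eq_of_nhds
    have e1 : (c t).1 = (c' t).1 :=
      tendsto_nhds_unique_of_frequently_eq (h t htI).1 (h' t htI).1
        (hfr.mono fun s hs => by simp only [hs])
    have he : chartAt E (c t).1 ∈ atlas E M := chart_mem_atlas E _
    have hs : (c t).1 ∈ (chartAt E (c t).1).source := mem_chart_source E _
    generalize chartAt E (c t).1 = e at he hs
    have hs' : (c' t).1 ∈ e.source := e1 ▸ hs
    have e2 : Lam e (c t) = Lam e (c' t) :=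
      tendsto_nhds_unique_of_frequently_eq ((h t htI).2 e he hs).continuousAt
        ((h' t htI).2 e he hs').continuousAt (hfr.mono fun s hs => by simp only [hs])
    rw [← Lami_Lam he hs, ← Lami_Lam he hs', e2]
  exact fun t ht => (hsub ht).eq_of_nhds

theorem GeoL.energy {I : Set ℝ} (hI : IsOpen I) (hI' : IsPreconnected I)
    (h : ∀ t ∈ I, GeoL g c t) {t₀ t₁ : ℝ} (h₀ : t₀ ∈ I) (h₁ : t₁ ∈ I) :
    g.inner (c t₀).1 (c t₀).2 (c t₀).2 = g.inner (c t₁).1 (c t₁).2 (c t₁).2 := by
  have key : ∀ t ∈ I, HasDerivAt (fun s => g.inner (c s).1 (c s).2 (c s).2) 0 t := by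
    intro t ht
    have he : chartAt E (c t).1 ∈ atlas E M := chart_mem_atlas E _
    have hs : (c t).1 ∈ (chartAt E (c t).1).source := mem_chart_source E _
    generalize chartAt E (c t).1 = e at he hs
    have h1 := energy_deriv (lm_loc g he) (z := fun s => Lam e (c s)) (t := t) (e.map_source hs)
      ((h t ht).2 e he hs)
    refine h1.congr_of_eventuallyEq ?_
    filter_upwards [(h t ht).1.preimage_mem_nhds (e.open_source.mem_nhds hs)] with s hs
    exact (loc_toChart g.inner he hs _ _).symm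
  exact hI.is_const_of_deriv_eq_zero hI'
    (fun t ht => (key t ht).differentiableAt.differentiableWithinAt)
    (fun t ht => (key t ht).deriv) h₀ h₁

theorem GeoL.affine (a b : ℝ) {t : ℝ} (h : GeoL g c (a * t + b)) :
    GeoL g (fun s => ((c (a * s + b)).1, a • (c (a * s + b)).2)) t := by
  have hl : HasDerivAt (fun s : ℝ => a * s + b) a t := by
    simpa using ((hasDerivAt_id t).const_mul a).add_const b
  refine ⟨ContinuousAt.comp (f := fun s : ℝ => a * s + b) (g := fun s => (c s).1) h.1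
    hl.continuousAt, fun e he hs => ?_⟩
  have h1 := (h.2 e he hs).scomp t hl
  have h1a := (ContinuousLinearMap.fst ℝ E E).hasFDerivAt.comp_hasDerivAt t h1
  have h1b := (ContinuousLinearMap.snd ℝ E E).hasFDerivAt.comp_hasDerivAt t h1
  have h2 := h1a.prodMk (h1b.const_smul a)
  obtain ⟨Γ, -, hΓ⟩ := exists_chrisL (lm_loc g he)
  have hy : e (c (a * t + b)).1 ∈ e.target := e.map_source hs
  have e1 : (fun s => Lam e ((c (a * s + b)).1, a • (c (a * s + b)).2)) =
      fun s => ((Lam e (c (a * s + b))).1, a • (Lam e (c (a * s + b))).2) := by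
    funext s
    simp [Lam]
  rw [e1]
  refine h2.congr_deriv ?_
  simp [spray, Lam, hΓ _ hy]

end Vale.Agent.P255
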