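import Vale.Agent.P255.Geod
import Vale.Agent.P255.Flow

open scoped ContDiff Manifold Topology
open Set Filter

noncomputable section

namespace Vale.Agent.P255

variable {E : Type} [NormedAddCommGroup E] [NormedSpace ℝ E] [FiniteDimensional ℝ E]
variable {M : Type} [TopologicalSpace M] [ChartedSpace E M] [IsManifold 𝓘(ℝ, E) ∞ M] [T2Space M] [CompactSpace M]

omit [T2Space M] [CompactSpace M] in
theorem GeoL.shift {g : RMetric E M} {c : ℝ → M × E} (b : ℝ) {t : ℝ} (h : GeoL g c (t + b)) :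
    GeoL g (fun s => c (s + b)) t := by
  have h1 := GeoL.affine (g := g) (c := c) 1 b (t := t) (by rwa [one_mul])
  simpa only [one_mul, one_smul] using h1

omit [T2Space M] [CompactSpace M] in
/-- uniform existence time on a compact set of a chart -/
theorem uniform_chart (g : RMetric E M) {e : OpenPartialHomeomorph M E} (he : e ∈ atlas E M)
    {T : Set (E × E)} (hT : IsCompact T) (hs : ∀ z ∈ T, z.1 ∈ e.target) :
    ∃ ε > 0, ∀ z ∈ T, ∃ c : ℝ → M × E, c 0 = Lami e z ∧ ∀ t ∈ Ioo (-ε) ε, GeoL g c t := by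
  refine hT.induction_on (p := fun S => ∃ ε > 0, ∀ z ∈ S, ∃ c : ℝ → M × E, c 0 = Lami e z ∧
    ∀ t ∈ Ioo (-ε) ε, GeoL g c t) ⟨1, one_pos, fun z hz => hz.elim⟩ ?_ ?_ ?_
  · rintro S S' hSS ⟨ε, hε, h⟩
    exact ⟨ε, hε, fun z hz => h z (hSS hz)⟩
  · rintro S S' ⟨ε, hε, h⟩ ⟨ε', hε', h'⟩
    refine ⟨min ε ε', lt_min hε hε', ?_⟩
    rintro z (hz | hz)
    · obtain ⟨c, h0, hc⟩ := h z hz
      exact ⟨c, h0, fun t ht => hc t
        (Ioo_subset_Ioo (neg_le_neg (min_le_left _ _)) (min_le_left _ _) ht)⟩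
    · obtain ⟨c, h0, hc⟩ := h' z hz
      exact ⟨c, h0, fun t ht => hc t
        (Ioo_subset_Ioo (neg_le_neg (min_le_right _ _)) (min_le_right _ _) ht)⟩
  · intro z hz
    obtain ⟨ε, hε, V, hV, hzV, φ, -, hφ⟩ := exists_flow (e.open_target.prod isOpen_univ)
      (contDiffOn_spray (lm_loc g he)) (z₀ := z) ⟨hs z hz, mem_univ _⟩
    refine ⟨V, mem_nhdsWithin_of_mem_nhds (hV.mem_nhds hzV), ε, hε, fun z' hz' =>
      ⟨fun t => Lami e (φ (t, z')), by simp only [(hφ z' hz').1], fun t ht => ?_⟩⟩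
    obtain ⟨h1, h2⟩ := (hφ z' hz').2 t ht
    exact GeoL.of_Lami (z := fun t => φ (t, z')) he h1.1 h2

theorem uniform_time (g : RMetric E M) (C : ℝ) : ∃ ε > 0, ∀ s : M × E,
    g.inner s.1 s.2 s.2 ≤ C → ∃ c : ℝ → M × E, c 0 = s ∧ ∀ t ∈ Ioo (-ε) ε, GeoL g c t := by
  haveI : ProperSpace E := FiniteDimensional.proper_real E
  suffices h : ∃ ε > 0, ∀ s : M × E, s.1 ∈ (univ : Set M) → g.inner s.1 s.2 s.2 ≤ C →
      ∃ c : ℝ → M × E, c 0 = s ∧ ∀ t ∈ Ioo (-ε) ε, GeoL g c t by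
    obtain ⟨ε, hε, h⟩ := h
    exact ⟨ε, hε, fun s => h s (mem_univ _)⟩
  refine isCompact_univ.induction_on (p := fun S : Set M => ∃ ε > 0, ∀ s : M × E, s.1 ∈ S →
    g.inner s.1 s.2 s.2 ≤ C → ∃ c : ℝ → M × E, c 0 = s ∧ ∀ t ∈ Ioo (-ε) ε, GeoL g c t)
    ⟨1, one_pos, fun z hz => hz.elim⟩ ?_ ?_ ?_
  · rintro S S' hSS ⟨ε, hε, h⟩
    exact ⟨ε, hε, fun z hz => h z (hSS hz)⟩
  · rintro S S' ⟨ε, hε, h⟩ ⟨ε', hε', h'⟩
    refine ⟨min ε ε', lt_min hε hε', ?_⟩
    rintro z (hz | hz) hC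
    · obtain ⟨c, h0, hc⟩ := h z hz hC
      exact ⟨c, h0, fun t ht => hc t
        (Ioo_subset_Ioo (neg_le_neg (min_le_left _ _)) (min_le_left _ _) ht)⟩
    · obtain ⟨c, h0, hc⟩ := h' z hz hC
      exact ⟨c, h0, fun t ht => hc t
        (Ioo_subset_Ioo (neg_le_neg (min_le_right _ _)) (min_le_right _ _) ht)⟩
  · intro p _
    have he : chartAt E p ∈ atlas E M := chart_mem_atlas E _
    have hp : p ∈ (chartAt E p).source := mem_chart_source E _
    generalize chartAt E p = e at he hp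
    have hL := lm_loc g he
    have hy := e.map_source hp
    obtain ⟨κ, hκ, hco⟩ := exists_coercive (loc g.inner e (e p)) (hL.pos _ hy)
    have hcont : ContinuousAt (loc g.inner e) (e p) :=
      hL.sm.continuousOn.continuousAt (hL.op.mem_nhds hy)
    have hN : {y | ‖loc g.inner e y - loc g.inner e (e p)‖ < κ / 2} ∩ e.target ∈ 𝓝 (e p) := by
      refine inter_mem ?_ (hL.op.mem_nhds hy)
      have := hcont.preimage_mem_nhds 
        (Metric.ball_mem_nhds (loc g.inner e (e p)) (half_pos hκ))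
      exact Filter.mem_of_superset this fun y hy =>
        (mem_ball_iff_norm (b := loc g.inner e y) (a := loc g.inner e (e p))).1 hy
    obtain ⟨K, hK, hKN, hKc⟩ := local_compact_nhds hN
    obtain ⟨ε, hε, h⟩ := uniform_chart g he (hKc.prod (isCompact_closedBall (0 : E) (2 * C / κ + 1)))
      (fun z hz => (hKN hz.1).2)
    refine ⟨e.source ∩ e ⁻¹' K, mem_nhdsWithin_of_mem_nhds (inter_mem (e.open_source.mem_nhds hp)
      ((e.continuousAt hp).preimage_mem_nhds hK)), ε, hε, fun s hs hC => ?_⟩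
    have hz : Lam e s ∈ K ×ˢ Metric.closedBall (0 : E) (2 * C / κ + 1) := by
      refine ⟨hs.2, ?_⟩
      rw [mem_closedBall_zero_iff]
      change ‖toChart e s.1 s.2‖ ≤ _
      rw [← loc_toChart g.inner he hs.1] at hC
      generalize toChart e s.1 s.2 = w at hC ⊢
      have h1 : ‖loc g.inner e (e s.1) - loc g.inner e (e p)‖ < κ / 2 := (hKN hs.2).1
      have h2 := (loc g.inner e (e s.1) - loc g.inner e (e p)).le_opNorm₂ w w
      have h3 := hco w
      have h4 : ‖loc g.inner e (e s.1) - loc g.inner e (e p)‖ * ‖w‖ * ‖w‖ ≤ κ / 2 * ‖w‖ * ‖w‖ := by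
        gcongr
      have h5 := (abs_le.1 (h2.trans h4)).1
      simp only [ContinuousLinearMap.sub_apply] at h5
      have h6 : ‖w‖ ^ 2 ≤ 2 * C / κ := by
        rw [le_div_iff₀ hκ]
        nlinarith
      nlinarith [sq_nonneg (‖w‖ - 1), norm_nonneg w]
    obtain ⟨c, h0, hc⟩ := h _ hz
    exact ⟨c, h0.trans (Lami_Lam he hs.1), hc⟩

omit [CompactSpace M] in
theorem GeoL.glue {g : RMetric E M} {c d : ℝ → M × E} {a b a' b' t₀ : ℝ}
    (hc : ∀ t ∈ Ioo a b, GeoL g c t) (hd : ∀ t ∈ Ioo a' b', GeoL g d t) (h : t₀ ∈ Ioo a b)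
    (h' : t₀ ∈ Ioo a' b') (h0 : c t₀ = d t₀) :
    ∃ c' : ℝ → M × E, EqOn c' c (Ioo a b) ∧ ∀ t ∈ Ioo a b ∪ Ioo a' b', GeoL g c' t := by
  classical
  have hu : EqOn c d (Ioo a b ∩ Ioo a' b') :=
    GeoL.unique (isOpen_Ioo.inter isOpen_Ioo)
      (ordConnected_Ioo.inter ordConnected_Ioo).isPreconnected (fun t ht => hc t ht.1)
      (fun t ht => hd t ht.2) ⟨h, h'⟩ h0
  refine ⟨fun t => if t ∈ Ioo a b then c t else d t, fun t ht => if_pos ht, ?_⟩
  rintro t (ht | ht)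
  · refine (hc t ht).congr ?_
    filter_upwards [isOpen_Ioo.mem_nhds ht] with s hs
    exact (if_pos hs).symm
  · refine (hd t ht).congr ?_
    filter_upwards [isOpen_Ioo.mem_nhds ht] with s hs
    split_ifs with h1
    · exact (hu ⟨h1, hs⟩).symm
    · rfl

theorem exists_geod_Ioo (g : RMetric E M) (s : M × E) (T : ℝ) :
    ∃ c : ℝ → M × E, c 0 = s ∧ ∀ t ∈ Ioo (-T) T, GeoL g c t := by
  obtain ⟨ε, hε, h⟩ := uniform_time g (g.inner s.1 s.2 s.2)
  have ext : ∀ (c : ℝ → M × E) (a b t₁ : ℝ), (0 : ℝ) ∈ Ioo a b → t₁ ∈ Ioo a b → c 0 = s →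
      (∀ t ∈ Ioo a b, GeoL g c t) → ∃ c' : ℝ → M × E, c' 0 = s ∧
        ∀ t ∈ Ioo a b ∪ Ioo (t₁ - ε) (t₁ + ε), GeoL g c' t := by
    intro c a b t₁ h0 h1 hc0 hc
    obtain ⟨d, hd0, hd⟩ := h (c t₁)
      (by rw [GeoL.energy isOpen_Ioo isPreconnected_Ioo hc h1 h0, hc0])
    obtain ⟨c', e1, e2⟩ := GeoL.glue (d := fun u => d (u + -t₁)) (a' := t₁ - ε) (b' := t₁ + ε) hc
      (fun t ht => GeoL.shift (-t₁) (hd _ ⟨by linarith [ht.1], by linarith [ht.2]⟩)) h1
      ⟨by linarith, by linarith⟩ (by simp only [add_neg_cancel, hd0])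
    exact ⟨c', (e1 h0).trans hc0, e2⟩
  have key : ∀ n : ℕ, ∃ c : ℝ → M × E, c 0 = s ∧
      ∀ t ∈ Ioo (-(ε + n * (ε / 2))) (ε + n * (ε / 2)), GeoL g c t := by
    intro n
    induction n with
    | zero => simpa using h s le_rfl
    | succ n ih =>
      obtain ⟨c, h0, hc⟩ := ih
      have hn : 0 ≤ n * (ε / 2) := by positivity
      push_cast
      generalize hR : n * (ε / 2) = R at hc hn
      rw [add_mul, hR, one_mul]
      obtain ⟨c1, h1, hc1⟩ := ext c _ _ (ε / 2 + R) ⟨by linarith, by linarith⟩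
        ⟨by linarith, by linarith⟩ h0 hc
      obtain ⟨c2, h2, hc2⟩ := ext c1 (-(ε + R)) (ε + (R + ε / 2)) (-(ε / 2 + R))
        ⟨by linarith, by linarith⟩ ⟨by linarith, by linarith⟩ h1 (fun t ht => hc1 t (by
          by_cases h3 : t < ε + R
          · exact Or.inl ⟨ht.1, h3⟩
          · exact Or.inr ⟨by linarith [not_lt.1 h3], by linarith [ht.2]⟩))
      refine ⟨c2, h2, fun t ht => hc2 t ?_⟩
      by_cases h3 : -(ε + R) < t
      · exact Or.inl ⟨h3, ht.2⟩
      · exact Or.inr ⟨by linarith [ht.1], by linarith [not_lt.1 h3]⟩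
  obtain ⟨n, hn⟩ := exists_nat_ge (T / (ε / 2))
  rw [div_le_iff₀ (half_pos hε)] at hn
  obtain ⟨c, h0, hc⟩ := key n
  exact ⟨c, h0, fun t ht => hc t ⟨by linarith [ht.1], by linarith [ht.2]⟩⟩

theorem exists_geod (g : RMetric E M) (s : M × E) :
    ∃ c : ℝ → M × E, c 0 = s ∧ ∀ t, GeoL g c t := by
  choose cT h0 hc using exists_geod_Ioo g s
  refine ⟨fun t => cT (|t| + 1) t, h0 _, fun t => ?_⟩
  refine (hc (|t| + 2) t ⟨by linarith [neg_abs_le t], by linarith [le_abs_self t]⟩).congr ?_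
  filter_upwards [Metric.ball_mem_nhds t one_pos] with u hu
  rw [mem_ball_iff_norm, Real.norm_eq_abs] at hu
  have h1 : |u| ≤ |t| + 1 := by linarith [abs_sub_abs_le_abs_sub u t]
  have h2 := abs_nonneg u
  exact GeoL.unique (I := Ioo (-(|u| + 1)) (|u| + 1)) isOpen_Ioo isPreconnected_Ioo
    (fun r hr => hc _ r ⟨by linarith [hr.1], by linarith [hr.2]⟩) (hc _) (t₀ := 0)
    ⟨by linarith, by linarith⟩ ((h0 _).trans (h0 _).symm)
    ⟨by linarith [neg_abs_le u], by linarith [le_abs_self u]⟩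

/-- the geodesic flow -/
def Phi (g : RMetric E M) (t : ℝ) (s : M × E) : M × E := (exists_geod g s).choose t

/-- the exponential map -/
def ex (g : RMetric E M) (p : M) (v : E) : M := (Phi g 1 (p, v)).1

theorem Phi_zero (g : RMetric E M) (s : M × E) : Phi g 0 s = s := (exists_geod g s).choose_spec.1

theorem geoL_Phi (g : RMetric E M) (s : M × E) (t : ℝ) : GeoL g (fun u => Phi g u s) t :=
  (exists_geod g s).choose_spec.2 t

theorem Phi_add (g : RMetric E M) (s : M × E) (t u : ℝ) :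
    Phi g (t + u) s = Phi g t (Phi g u s) :=
  GeoL.unique (c := fun t => Phi g (t + u) s) (c' := fun t => Phi g t (Phi g u s)) isOpen_univ
    isPreconnected_univ (fun t _ => GeoL.shift (c := fun u => Phi g u s) u (geoL_Phi g s _))
    (fun t _ => geoL_Phi g _ t) (mem_univ 0) (by simp only [zero_add, Phi_zero]) (mem_univ t)

theorem Phi_smul (g : RMetric E M) (p : M) (v : E) (a t : ℝ) :
    Phi g t (p, a • v) = ((Phi g (a * t) (p, v)).1, a • (Phi g (a * t) (p, v)).2) := by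
  have h := GeoL.unique (c := fun t => Phi g t (p, a • v))
    (c' := fun t => ((Phi g (a * t + 0) (p, v)).1, a • (Phi g (a * t + 0) (p, v)).2)) isOpen_univ
    isPreconnected_univ (fun t _ => geoL_Phi g _ t)
    (fun t _ => GeoL.affine (c := fun u => Phi g u (p, v)) a 0 (geoL_Phi g _ _))
    (mem_univ 0) (by simp only [mul_zero, add_zero, Phi_zero]) (mem_univ t)
  simpa only [add_zero] using h

theorem Phi_energy (g : RMetric E M) (s : M × E) (t : ℝ) :
    g.inner (Phi g t s).1 (Phi g t s).2 (Phi g t s).2 = g.inner s.1 s.2 s.2 := by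
  have h := GeoL.energy (c := fun u => Phi g u s) isOpen_univ isPreconnected_univ
    (fun t _ => geoL_Phi g s t) (mem_univ t) (mem_univ 0)
  simpa only [Phi_zero] using h

theorem ex_smul (g : RMetric E M) (p : M) (v : E) (t : ℝ) :
    ex g p (t • v) = (Phi g t (p, v)).1 := by
  rw [ex, Phi_smul, mul_one]

end Vale.Agent.P255
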