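import Vale.Agent.P255.Model

open scoped ContDiff Manifold Topology
open Set Filter Real

noncomputable section

namespace Vale.Agent.P255

theorem quad_nonneg {a b c : ℝ} (ha : 0 ≤ a) (hc : 0 ≤ c) (h : b ^ 2 ≤ a * c) (p q : ℝ) :
    0 ≤ a * p ^ 2 + 2 * b * p * q + c * q ^ 2 := by
  rcases ha.eq_or_lt with rfl | ha
  · have : b = 0 := by nlinarith [sq_nonneg b]
    rw [this]
    linarith [mul_nonneg hc (sq_nonneg q)]
  · refine nonneg_of_mul_nonneg_right ?_ ha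
    nlinarith [sq_nonneg (a * p + b * q), mul_nonneg (sub_nonneg.2 h) (sq_nonneg q)]

theorem ineqL_alg {σ l ν Λ A K V₂ p q : ℝ} (h0 : 0 ≤ σ) (h1 : σ ≤ 1) (hl : 0 < l) (hlA : l ≤ A)
    (hν : 0 ≤ ν) (hΛ : 3 * ν ^ 2 ≤ l * Λ) (hK0 : 0 ≤ K) (hK : K ≤ ν * σ) (hV₂ : V₂ ≤ 0)
    (hV : 0 < qf (l * (1 - σ)) (ν * σ * (1 - σ)) (-(Λ * σ)) p q) :
    A * qf (l * (1 - σ)) (ν * σ * (1 - σ)) (-(Λ * σ)) p q ^ 2
      - 2 * (A * p + K * q) * (l * (1 - σ) * p + ν * σ * (1 - σ) * q)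
          * qf (l * (1 - σ)) (ν * σ * (1 - σ)) (-(Λ * σ)) p q
      + (A * p + K * q) ^ 2 * V₂ ≤ 0 := by
  have hτ : 0 ≤ 1 - σ := by linarith
  have hA : 0 < A := hl.trans_le hlA
  have hΛ0 : 0 ≤ Λ := nonneg_of_mul_nonneg_right (le_trans (by positivity) hΛ) hl
  have b0 : 0 ≤ A * ν * σ + 2 * K * l := by positivity
  have b1 : A * ν * σ + 2 * K * l ≤ 3 * A * ν * σ := by
    nlinarith [mul_le_mul hK hlA hl.le (mul_nonneg hν h0)]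
  have b2 : ((1 - σ) * (A * ν * σ + 2 * K * l)) ^ 2 ≤ (3 * A * l * (1 - σ)) * (A * Λ * σ) := by
    have c1 : (1 - σ) * σ ≤ 1 := by nlinarith
    have c2 : 3 * ν ^ 2 * ((1 - σ) * σ) ≤ l * Λ :=
      (mul_le_of_le_one_right (by positivity) c1).trans hΛ
    calc ((1 - σ) * (A * ν * σ + 2 * K * l)) ^ 2 ≤ ((1 - σ) * (3 * A * ν * σ)) ^ 2 := by gcongr
      _ = 3 * A ^ 2 * ((1 - σ) * σ) * (3 * ν ^ 2 * ((1 - σ) * σ)) := by ring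
      _ ≤ 3 * A ^ 2 * ((1 - σ) * σ) * (l * Λ) := by gcongr
      _ = _ := by ring
  have b3 := quad_nonneg (by positivity) (by positivity) b2 p q
  have b4 : 0 ≤ (1 - σ) * (4 * K * ν * σ * q ^ 2) := by positivity
  have b5 : A * qf (l * (1 - σ)) (ν * σ * (1 - σ)) (-(Λ * σ)) p q -
      2 * (A * p + K * q) * (l * (1 - σ) * p + ν * σ * (1 - σ) * q) ≤ 0 := by
    unfold qf
    linarith
  have b6 := mul_nonpos_of_nonpos_of_nonneg b5 hV.le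
  have b7 := mul_nonpos_of_nonneg_of_nonpos (sq_nonneg (A * p + K * q)) hV₂
  linarith

namespace IneqX

theorem am1 {l ν P Q : ℝ} (hν' : ν ^ 2 ≤ l / 10000) :
    2 * ν * (P * Q) ≤ (l * P ^ 2 + Q ^ 2) / 100 := by
  linarith [sq_nonneg (100 * ν * P - Q), mul_le_mul_of_nonneg_right hν' (sq_nonneg P)]

theorem am2 {l P Q : ℝ} (hl : 0 < l) (hl' : l ≤ 1 / 10000) :
    l * (P * Q) ≤ (l * P ^ 2 + Q ^ 2) / 200 := by
  linarith [sq_nonneg (100 * l * P - Q),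
    mul_le_mul_of_nonneg_right hl' (mul_nonneg hl.le (sq_nonneg P))]

theorem vb {σ τ l ν p q : ℝ} (h0 : 0 ≤ σ) (h1 : σ ≤ 1) (hτ : 0 ≤ τ) (hτ1 : τ ≤ 1) (hl : 0 < l)
    (hν : 0 ≤ ν) (hν' : ν ^ 2 ≤ l / 10000)
    (hV : qf (l * τ) (ν * σ * τ) (-(1 / 27 * σ)) p q < 0) :
    -qf (l * τ) (ν * σ * τ) (-(1 / 27 * σ)) p q ≤ σ * q ^ 2 / 40 ∧
      l * τ ^ 2 * p ^ 2 ≤ q ^ 2 / 20 := by
  have a1 := am1 (P := |p|) (Q := |q|) hν'
  rw [sq_abs, sq_abs] at a1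
  have c1 : -(p * q) ≤ |p| * |q| := abs_mul p q ▸ neg_le_abs _
  have c2 := mul_le_mul_of_nonneg_left c1 (show 0 ≤ 2 * ν * (σ * τ) by positivity)
  have c3 := mul_le_mul_of_nonneg_left a1 (show 0 ≤ σ * τ by positivity)
  have hσq : 0 ≤ σ * q ^ 2 := by positivity
  have hlp : 0 ≤ l * τ * p ^ 2 := by positivity
  have c4 := mul_le_mul_of_nonneg_right h1 hlp
  have c5 := mul_le_mul_of_nonneg_right hτ1 hσq
  have c6 := mul_le_mul_of_nonneg_right hτ1 hlp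
  have c7 := mul_le_mul_of_nonneg_right h1 (sq_nonneg q)
  unfold qf at hV ⊢
  constructor <;> linarith

theorem d1 {τ l ν c₀ d₀ p q : ℝ} (hl : 0 < l) (hl' : l ≤ 1 / 10000) (hν' : ν ^ 2 ≤ l / 10000)
    (hc : 1 / 9 ≤ c₀) (hd : |d₀| ≤ (l + ν) * τ) (b3 : l * τ ^ 2 * p ^ 2 ≤ q ^ 2 / 20) :
    |d₀ * p| ≤ c₀ * |q| / 20 := by
  refine abs_le_of_sq_le_sq ?_ (by positivity)
  have c1 : d₀ ^ 2 ≤ ((l + ν) * τ) ^ 2 := by
    rw [← sq_abs d₀]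
    exact pow_le_pow_left₀ (abs_nonneg _) hd 2
  have c2 : (l + ν) ^ 2 ≤ 4 / 10000 * l := by
    linarith [sq_nonneg (l - ν), mul_le_mul_of_nonneg_right hl' hl.le]
  have c3 := mul_le_mul_of_nonneg_right c2 (show 0 ≤ τ ^ 2 * p ^ 2 by positivity)
  have c4 := mul_le_mul_of_nonneg_right c1 (sq_nonneg p)
  have c5 : 1 / 81 ≤ c₀ ^ 2 := by nlinarith
  have c6 := mul_le_mul_of_nonneg_right c5 (sq_nonneg q)
  rw [div_pow, mul_pow, mul_pow, sq_abs]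
  linarith [sq_nonneg q]

theorem d2 {τ l ν p q : ℝ} (hν' : ν ^ 2 ≤ l / 10000) (b3 : l * τ ^ 2 * p ^ 2 ≤ q ^ 2 / 20) :
    ν * τ * |p| ≤ |q| / 400 := by
  refine (le_abs_self _).trans (abs_le_of_sq_le_sq ?_ (by positivity))
  have c3 := mul_le_mul_of_nonneg_right hν' (show 0 ≤ τ ^ 2 * p ^ 2 by positivity)
  rw [div_pow, mul_pow, mul_pow, sq_abs, sq_abs]
  linarith [sq_nonneg q]

theorem en {c₀ d₀ p q : ℝ} (hc0 : 0 < c₀) (d1 : |d₀ * p| ≤ c₀ * |q| / 20) :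
    |-d₀ * p + c₀ * q| ≤ 21 / 20 * c₀ * |q| ∧ 19 / 20 * c₀ * q ^ 2 ≤ (-d₀ * p + c₀ * q) * q ∧
      9 / 10 * c₀ ^ 2 * q ^ 2 ≤ (-d₀ * p + c₀ * q) ^ 2 := by
  have e0 : d₀ * p * q ≤ c₀ * q ^ 2 / 20 := by
    have c1 := mul_le_mul_of_nonneg_right d1 (abs_nonneg q)
    rw [← abs_mul] at c1
    rw [← sq_abs q]
    linarith [le_abs_self (d₀ * p * q)]
  refine ⟨(abs_add_le _ _).trans ?_, by linarith, ?_⟩
  · rw [neg_mul, abs_neg, abs_mul c₀, abs_of_pos hc0]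
    linarith
  · linarith [mul_le_mul_of_nonneg_left e0 hc0.le, sq_nonneg (d₀ * p)]

theorem g1 {σ τ l ν c₀ n p q : ℝ} (h0 : 0 ≤ σ) (hτ : 0 ≤ τ) (hl : 0 < l) (hν : 0 ≤ ν)
    (hc0 : 0 < c₀) (d2 : ν * τ * |p| ≤ |q| / 400) (e1 : |n| ≤ 21 / 20 * c₀ * |q|)
    (e2 : 19 / 20 * c₀ * q ^ 2 ≤ n * q) :
    2 * n * ((ν * σ * τ - l * τ) * p + (-(1 / 27 * σ) - ν * σ * τ) * q) ≤
      21 / 10 * c₀ * τ * (l * (|p| * |q|)) - c₀ * (σ * q ^ 2) / 20 := by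
  have f0 : |n * p| ≤ 21 / 20 * c₀ * (|p| * |q|) := by
    rw [abs_mul]
    linarith [mul_le_mul_of_nonneg_right e1 (abs_nonneg p)]
  have f1 : ν * σ * τ * (n * p) ≤ 21 / 8000 * c₀ * (σ * q ^ 2) := by
    have c1 := mul_le_mul_of_nonneg_left ((le_abs_self _).trans f0)
      (show 0 ≤ ν * σ * τ by positivity)
    have c2 := mul_le_mul_of_nonneg_left d2 (show 0 ≤ 21 / 20 * c₀ * σ * |q| by positivity)
    rw [← sq_abs q]
    linarith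
  have c1 := mul_le_mul_of_nonneg_left ((neg_le_abs _).trans f0) (show 0 ≤ l * τ by positivity)
  have c2 := mul_le_mul_of_nonneg_left e2 (show 0 ≤ 1 / 27 * σ + ν * σ * τ by positivity)
  have c3 : 0 ≤ ν * σ * τ * (19 / 20 * c₀ * q ^ 2) := by positivity
  have c4 : 0 ≤ c₀ * (σ * q ^ 2) := by positivity
  linarith

theorem g2 {σ σ' τ s l ν p q : ℝ} (hσ : 8 * σ * τ ≤ σ') (hσ' : 0 ≤ σ') (hl : 0 < l)
    (hl' : l ≤ 1 / 10000) (hν : 0 ≤ ν) (hν' : ν ^ 2 ≤ l / 10000) (hs1 : |s| ≤ 1) :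
    21 * (σ * τ) * (l * (|p| * |q|)) ≤ -qf (-(l * σ')) (ν * σ' * s) (-(1 / 27 * σ')) p q := by
  have a1 := am1 (P := |p|) (Q := |q|) hν'
  have a2 := am2 (P := |p|) (Q := |q|) hl hl'
  rw [sq_abs, sq_abs] at a1 a2
  have c1 : s * (p * q) ≤ |p| * |q| := by
    refine (le_abs_self _).trans ?_
    rw [abs_mul, abs_mul]
    exact mul_le_of_le_one_left (by positivity) hs1
  have c2 := mul_le_mul_of_nonneg_left c1 (show 0 ≤ 2 * ν * σ' by positivity)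
  have c3 := mul_le_mul_of_nonneg_left a1 hσ'
  have c4 := mul_le_mul_of_nonneg_left a2 hσ'
  have c5 := mul_le_mul_of_nonneg_right hσ (show 0 ≤ l * (|p| * |q|) by positivity)
  have c6 : 0 ≤ σ' * (l * p ^ 2) := by positivity
  have c7 : 0 ≤ σ' * q ^ 2 := by positivity
  unfold qf
  linarith

end IneqX

theorem ineqR_alg {σ σ' l ν c₀ d₀ p q : ℝ} (h0 : 0 ≤ σ) (h1 : σ ≤ 1) (hσ : 8 * σ * (1 - σ) ≤ σ')
    (hl : 0 < l) (hl' : l ≤ 1 / 10000) (hν : 0 ≤ ν) (hν' : ν ^ 2 ≤ l / 10000)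
    (hc : 1 / 9 ≤ c₀) (hc' : c₀ ≤ 1) (hd : |d₀| ≤ (l + ν) * (1 - σ))
    (hV : qf (l * (1 - σ)) (ν * σ * (1 - σ)) (-(1 / 27 * σ)) p q < 0) :
    (c₀ + d₀) * qf (l * (1 - σ)) (ν * σ * (1 - σ)) (-(1 / 27 * σ)) p q ^ 2
      - 2 * (-d₀ * p + c₀ * q)
          * ((ν * σ * (1 - σ) - l * (1 - σ)) * p + (-(1 / 27 * σ) - ν * σ * (1 - σ)) * q)
          * qf (l * (1 - σ)) (ν * σ * (1 - σ)) (-(1 / 27 * σ)) p q
      + (-d₀ * p + c₀ * q) ^ 2 * qf (-(l * σ')) (ν * σ' * (1 - 2 * σ)) (-(1 / 27 * σ')) p q ≤ 0 := by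
  have hτ : 0 ≤ 1 - σ := by linarith
  have hτ1 : 1 - σ ≤ 1 := by linarith
  have hs1 : |1 - 2 * σ| ≤ 1 := by rw [abs_le]; constructor <;> linarith
  have hc0 : 0 < c₀ := by linarith
  have hν1 : ν ≤ 1 / 10000 := by nlinarith
  have d3 : d₀ ≤ c₀ / 500 := by
    have c1 := mul_le_of_le_one_right (show 0 ≤ l + ν by positivity) hτ1
    linarith [le_abs_self d₀]
  obtain ⟨b2, b3⟩ := IneqX.vb h0 h1 hτ hτ1 hl hν hν' hV
  obtain ⟨e1, e2, e3⟩ := IneqX.en hc0 (IneqX.d1 hl hl' hν' hc hd b3)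
  have g0 := IneqX.g1 h0 hτ hl hν hc0 (IneqX.d2 hν' b3) e1 e2
  have g2 := IneqX.g2 (p := p) (q := q) hσ (le_trans (by positivity) hσ) hl hl' hν hν' hs1
  have hw : 0 ≤ l * (|p| * |q|) := by positivity
  clear e1 e2 b3 hd hs1
  generalize qf (-(l * σ')) (ν * σ' * (1 - 2 * σ)) (-(1 / 27 * σ')) p q = V₂ at *
  generalize qf (l * (1 - σ)) (ν * σ * (1 - σ)) (-(1 / 27 * σ)) p q = V at *
  generalize (ν * σ * (1 - σ) - l * (1 - σ)) * p + (-(1 / 27 * σ) - ν * σ * (1 - σ)) * q = n₁ at *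
  generalize -d₀ * p + c₀ * q = n at *
  generalize l * (|p| * |q|) = w at *
  generalize 1 - σ = τ at *
  have g1 : (c₀ + d₀) * (-V) + 2 * n * n₁ ≤ 21 / 10 * c₀ * τ * w := by
    have c1 := mul_le_mul (show c₀ + d₀ ≤ 501 / 500 * c₀ by linarith) b2 (by linarith)
      (by positivity)
    have c2 : 0 ≤ c₀ * (σ * q ^ 2) := by positivity
    linarith
  have g3 := mul_le_mul_of_nonneg_left g1 (show 0 ≤ -V by linarith)
  have g4 := mul_le_mul_of_nonneg_right b2 (show 0 ≤ 21 / 10 * c₀ * τ * w by positivity)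
  have g5 := mul_le_mul e3 g2 (by positivity) (sq_nonneg n)
  have g6 := mul_le_mul_of_nonneg_right hc (show 0 ≤ c₀ * q ^ 2 * (σ * τ) * w by positivity)
  have g7 : 0 ≤ c₀ * q ^ 2 * (σ * τ) * w := by positivity
  linarith

theorem conc_alg {σ σ' l ν Λ p q : ℝ} (h0 : 0 ≤ σ) (h1 : σ ≤ 1) (hσ : 0 ≤ σ') (hl : 0 < l)
    (hΛ : ν ^ 2 ≤ l * Λ) : qf (-(l * σ')) (ν * σ' * (1 - 2 * σ)) (-(Λ * σ')) p q ≤ 0 := by
  have hΛ0 : 0 ≤ Λ := nonneg_of_mul_nonneg_right (le_trans (by positivity) hΛ) hl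
  have c1 : (-(ν * (1 - 2 * σ))) ^ 2 ≤ l * Λ := by
    nlinarith [mul_nonneg (sq_nonneg ν) (mul_nonneg h0 (sub_nonneg.2 h1))]
  have c2 := mul_nonneg hσ (quad_nonneg hl.le hΛ0 c1 p q)
  unfold qf
  linarith

end Vale.Agent.P255
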