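import Vale.Agent.P255.LocB
import Vale.Agent.P255.Trans
import Vale.Agent.P255.Chart

open scoped ContDiff Manifold Topology
open Set Filter

noncomputable section

namespace Vale.Agent.P255

variable {E : Type} [NormedAddCommGroup E] [NormedSpace ℝ E] [FiniteDimensional ℝ E]
variable {M : Type} [TopologicalSpace M] [ChartedSpace E M] [IsManifold 𝓘(ℝ, E) ∞ M]
variable {g : RMetric E M} {γ : ℝ → M} {J : ℝ → E} {a b : ℝ}

/-- position and velocity in the chart e -/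
def zc (e : OpenPartialHomeomorph M E) (γ : ℝ → M) (s : ℝ) : E × E :=
  (e (γ s), deriv (e ∘ γ) s)

/-- the field and its derivative in the chart e -/
def dc (e : OpenPartialHomeomorph M E) (γ : ℝ → M) (J : ℝ → E) (s : ℝ) : E × E :=
  (toChart e (γ s) (J s), deriv (fun r => toChart e (γ r) (J r)) s)

omit [FiniteDimensional ℝ E] [IsManifold 𝓘(ℝ, E) ∞ M] in
lemma JacA.near (hγ : IsGeod g γ (Ioo a b)) {t : ℝ} (ht : t ∈ Ioo a b)
    {e : OpenPartialHomeomorph M E} (hs : γ t ∈ e.source) :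
    ∀ᶠ s in 𝓝 t, γ s ∈ e.source :=
  (hγ.1.continuousAt (isOpen_Ioo.mem_nhds ht)).eventually_mem (e.open_source.mem_nhds hs)

theorem jac_sol (hγ : IsGeod g γ (Ioo a b)) (hJ : IsJacobi g γ J (Ioo a b)) {t : ℝ}
    (ht : t ∈ Ioo a b) {e : OpenPartialHomeomorph M E} (he : e ∈ atlas E M)
    (hs : γ t ∈ e.source) :
    ∀ᶠ s in 𝓝 t, γ s ∈ e.source ∧ Sol (loc g.inner e) (zc e γ) (dc e γ J) s := by
  filter_upwards [JacA.near hγ ht hs, isOpen_Ioo.mem_nhds ht] with s h1 h2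
  obtain ⟨a1, a2⟩ := hγ.2 e he s h2 h1
  obtain ⟨b1, b2⟩ := hJ e he s h2 h1
  exact ⟨h1, sol_of_jacobi (lm_loc g he) (y := e ∘ γ) (J := fun r => toChart e (γ r) (J r))
    (e.map_source h1) a1 b1 a2 b2⟩

theorem jac_trans (hγ : IsGeod g γ (Ioo a b)) (hJ : IsJacobi g γ J (Ioo a b)) {t : ℝ}
    (ht : t ∈ Ioo a b) {e e' : OpenPartialHomeomorph M E} (he : e ∈ atlas E M)
    (he' : e' ∈ atlas E M) (hs : γ t ∈ e.source) (hs' : γ t ∈ e'.source) :
    zc e' γ t = tmap (e' ∘ e.symm) (zc e γ t) ∧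
      dc e' γ J t = fderiv ℝ (tmap (e' ∘ e.symm)) (zc e γ t) (dc e γ J t) := by
  have hU := isOpen_trans e e'
  have hτ := contDiffOn_trans he he'
  have hm : e (γ t) ∈ e.target ∩ e.symm ⁻¹' e'.source :=
    ⟨e.map_source hs, by rw [mem_preimage, e.left_inv hs]; exact hs'⟩
  have c1 : ContDiffAt ℝ ∞ (e' ∘ e.symm) (e (γ t)) := hτ.contDiffAt (hU.mem_nhds hm)
  have c2 : ContDiffAt ℝ 2 (e' ∘ e.symm) (e (γ t)) := c1.of_le (by norm_cast)
  have d1 : DifferentiableAt ℝ (e' ∘ e.symm) (e (γ t)) := c2.differentiableAt (by norm_num)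
  have d2 : DifferentiableAt ℝ (fderiv ℝ (e' ∘ e.symm)) (e (γ t)) :=
    (c2.fderiv_right (m := 1) (by norm_num)).differentiableAt (by norm_num)
  have y1 : HasDerivAt (e ∘ γ) (deriv (e ∘ γ) t) t :=
    ((hγ.2 e he t ht hs).1.differentiableAt (by norm_num)).hasDerivAt
  have v1 : HasDerivAt (fun r => toChart e (γ r) (J r))
      (deriv (fun r => toChart e (γ r) (J r)) t) t :=
    ((hJ e he t ht hs).1.differentiableAt (by norm_num)).hasDerivAt
  have n1 := JacA.near hγ ht hs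
  have n2 := JacA.near hγ ht hs'
  have e1 : e' ∘ γ =ᶠ[𝓝 t] (e' ∘ e.symm) ∘ (e ∘ γ) := by
    filter_upwards [n1] with s h1
    simp only [Function.comp_apply, e.left_inv h1]
  have e2 : (fun r => toChart e' (γ r) (J r)) =ᶠ[𝓝 t]
      fun r => fderiv ℝ (e' ∘ e.symm) ((e ∘ γ) r) (toChart e (γ r) (J r)) := by
    filter_upwards [n1, n2] with s h1 h2
    exact toChart_trans he he' h1 h2 _
  constructor
  · refine Prod.ext ?_ ?_
    · simp only [zc, tmap, Function.comp_apply, e.left_inv hs]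
    · change deriv (e' ∘ γ) t = fderiv ℝ (e' ∘ e.symm) (e (γ t)) (deriv (e ∘ γ) t)
      rw [e1.deriv_eq]
      exact (d1.hasFDerivAt.comp_hasDerivAt t y1).deriv
  · rw [fderiv_tmap hU hτ hm]
    refine Prod.ext (toChart_trans he he' hs hs' _) ?_
    change deriv (fun r => toChart e' (γ r) (J r)) t =
      fderiv ℝ (fderiv ℝ (e' ∘ e.symm)) (e (γ t)) (toChart e (γ t) (J t)) (deriv (e ∘ γ) t) +
        fderiv ℝ (e' ∘ e.symm) (e (γ t)) (deriv (fun r => toChart e (γ r) (J r)) t)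
    have w1 : HasDerivAt (fun r => fderiv ℝ (e' ∘ e.symm) ((e ∘ γ) r))
        (fderiv ℝ (fderiv ℝ (e' ∘ e.symm)) (e (γ t)) (deriv (e ∘ γ) t)) t :=
      d2.hasFDerivAt.comp_hasDerivAt t y1
    rw [e2.deriv_eq, c2.isSymmSndFDerivAt (by simp), (w1.clm_apply v1).deriv]
    rfl

lemma JacA.uniq (hγ : IsGeod g γ (Ioo a b)) (hJ : IsJacobi g γ J (Ioo a b)) {t : ℝ}
    (ht : t ∈ Ioo a b) {e : OpenPartialHomeomorph M E} (he : e ∈ atlas E M)
    (hs : γ t ∈ e.source) (h0 : dc e γ J t = 0) : ∀ᶠ s in 𝓝 t, dc e γ J s = 0 := by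
  have h1 := jac_sol hγ hJ ht he hs
  have hl := lm_loc g he
  have hz : zc e γ t ∈ e.target ×ˢ (univ : Set E) := ⟨e.map_source hs, mem_univ _⟩
  have c1 : ContDiffAt ℝ ∞ (spray (loc g.inner e)) (zc e γ t) :=
    (contDiffOn_spray hl).contDiffAt ((hl.op.prod isOpen_univ).mem_nhds hz)
  have c2 : ContinuousAt (fderiv ℝ (spray (loc g.inner e))) (zc e γ t) :=
    (c1.fderiv_right (m := 0) (by exact_mod_cast le_top)).continuousAt
  have c3 : ContinuousAt (fun s => ‖fderiv ℝ (spray (loc g.inner e)) (zc e γ s)‖₊) t :=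
    (c2.comp h1.self_of_nhds.2.1.continuousAt).nnnorm
  have h2 : ∀ᶠ s in 𝓝 t, ‖fderiv ℝ (spray (loc g.inner e)) (zc e γ s)‖₊ <
      ‖fderiv ℝ (spray (loc g.inner e)) (zc e γ t)‖₊ + 1 :=
    c3.eventually_lt continuousAt_const (lt_add_one _)
  refine ODE_solution_unique_of_eventually (g := fun _ => 0) (s := fun _ => univ)
    (v := fun s δ => fderiv ℝ (spray (loc g.inner e)) (zc e γ s) δ)
    (K := ‖fderiv ℝ (spray (loc g.inner e)) (zc e γ t)‖₊ + 1) ?_ ?_ ?_ h0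
  · filter_upwards [h2] with s h3
    exact ((ContinuousLinearMap.lipschitz _).weaken h3.le).lipschitzOnWith
  · filter_upwards [h1] with s h3
    exact ⟨h3.2.2, mem_univ _⟩
  · refine Eventually.of_forall fun s => ⟨?_, mem_univ _⟩
    rw [map_zero]
    exact hasDerivAt_const s 0

theorem jac_zero (hγ : IsGeod g γ (Ioo a b)) (hJ : IsJacobi g γ J (Ioo a b)) {t : ℝ}
    (ht : t ∈ Ioo a b) {e : OpenPartialHomeomorph M E} (he : e ∈ atlas E M)
    (hs : γ t ∈ e.source) (h0 : dc e γ J t = 0) : ∀ s ∈ Ioo a b, J s = 0 := by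
  have tr : ∀ s ∈ Ioo a b, ∀ e ∈ atlas E M, γ s ∈ e.source → dc e γ J s = 0 →
      ∀ e' ∈ atlas E M, γ s ∈ e'.source → dc e' γ J s = 0 := fun s h e he hs h0 e' he' hs' => by
    rw [(jac_trans hγ hJ h he he' hs hs').2, h0, map_zero]
  have op : ∀ s ∈ Ioo a b, ∀ e ∈ atlas E M, γ s ∈ e.source → dc e γ J s = 0 →
      ∀ᶠ r in 𝓝 s, ∀ e' ∈ atlas E M, γ r ∈ e'.source → dc e' γ J r = 0 := fun s h e he hs h0 => by
    filter_upwards [JacA.uniq hγ hJ h he hs h0, JacA.near hγ h hs, isOpen_Ioo.mem_nhds h]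
      with r h1 h2 h3
    exact tr r h3 e he h2 h1
  have key : Ioo a b ⊆
      {s | ∀ᶠ r in 𝓝 s, ∀ e' ∈ atlas E M, γ r ∈ e'.source → dc e' γ J r = 0} := by
    refine isPreconnected_Ioo.subset_left_of_subset_union
      (v := {s | ∀ᶠ r in 𝓝 s, ¬ ∀ e' ∈ atlas E M, γ r ∈ e'.source → dc e' γ J r = 0})
      isOpen_setOfPred_eventually_nhds isOpen_setOfPred_eventually_nhds
      (disjoint_left.2 fun s h1 h2 => Eventually.self_of_nhds h2 (Eventually.self_of_nhds h1))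
      (fun s h => ?_) ⟨t, ht, op t ht e he hs h0⟩
    have ha := chart_mem_atlas E (γ s)
    have hm := mem_chart_source E (γ s)
    by_cases h1 : dc (chartAt E (γ s)) γ J s = 0
    · exact Or.inl (op s h _ ha hm h1)
    · have h2 := (jac_sol hγ hJ h ha hm).self_of_nhds.2.2.continuousAt.eventually_ne h1
      refine Or.inr ?_
      filter_upwards [h2, JacA.near hγ h hm] with r h3 h4
      exact fun h5 => h3 (h5 _ ha h4)
  intro s h
  have h1 := congrArg Prod.fst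
    (Eventually.self_of_nhds (key h) _ (chart_mem_atlas E (γ s)) (mem_chart_source E (γ s)))
  simpa [dc, toChart_self] using h1

end Vale.Agent.P255
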