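import Vale.Agent.P255.Loc
import Vale.Agent.P255.Chart

open scoped ContDiff Manifold Topology
open Set Filter

noncomputable section

namespace Vale.Agent.P255

variable {E : Type} [NormedAddCommGroup E] [NormedSpace ℝ E] [FiniteDimensional ℝ E]
variable {M : Type} [TopologicalSpace M] [ChartedSpace E M] [IsManifold 𝓘(ℝ, E) ∞ M]
variable {g : RMetric E M} {B : E →L[ℝ] E →L[ℝ] ℝ} {f : E → M}

omit [IsManifold 𝓘(ℝ, E) ∞ M] in
/-- the derivative in a chart is invertible -/
theorem Expand.exists_equiv (h : Expand g B f) (hp : ∀ a, a ≠ 0 → 0 < B a a) {v : E}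
    {e : OpenPartialHomeomorph M E} (he : e ∈ atlas E M) (hv : f v ∈ e.source) :
    ∃ D : E ≃L[ℝ] E, HasStrictFDerivAt (e ∘ f) (D : E →L[ℝ] E) v ∧
      ∀ η, B η η ≤ loc g.inner e (e (f v)) (D η) (D η) := by
  obtain ⟨h1, h2⟩ := h.2 v e he hv
  have hi : Function.Injective (fderiv ℝ (e ∘ f) v) := by
    rw [injective_iff_map_eq_zero]
    intro η hη
    by_contra h0
    have h3 := h2 η
    rw [hη] at h3
    simp only [map_zero] at h3
    exact absurd (hp η h0) (not_lt.2 h3)
  refine ⟨(LinearEquiv.ofInjectiveEndo (fderiv ℝ (e ∘ f) v : E →ₗ[ℝ] E)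
    hi).toContinuousLinearEquiv, ?_, h2⟩
  exact h1.hasStrictFDerivAt one_ne_zero

theorem Expand.isLocalHomeomorph (h : Expand g B f) (hp : ∀ a, a ≠ 0 → 0 < B a a) :
    IsLocalHomeomorph f := by
  refine IsLocalHomeomorph.mk f fun v => ?_
  have hv := mem_chart_source E (f v)
  obtain ⟨D, hD, -⟩ := h.exists_equiv hp (chart_mem_atlas E (f v)) hv
  refine ⟨((hD.toOpenPartialHomeomorph _).restrOpen (f ⁻¹' (chartAt E (f v)).source)
    ((chartAt E (f v)).open_source.preimage h.1)).trans (chartAt E (f v)).symm, ?_, ?_⟩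
  · refine ⟨⟨hD.mem_toOpenPartialHomeomorph_source, hv⟩, ?_⟩
    exact (chartAt E (f v)).map_source hv
  · intro x hx
    exact ((chartAt E (f v)).left_inv hx.1.2).symm

/-- a lift of a curve of speed at most σ moves at most σ per unit time -/
theorem Expand.lift_le (h : Expand g B f) (hs : ∀ a b, B a b = B b a)
    (hp : ∀ a, a ≠ 0 → 0 < B a a) {c : ℝ → E} {a b σ : ℝ} (hab : a ≤ b)
    (hc : ContinuousOn c (Icc a b))
    (hd : ∀ t ∈ Ioo a b, ∃ e ∈ atlas E M, f (c t) ∈ e.source ∧ ∃ w,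
      HasDerivAt (fun s => e (f (c s))) w t ∧ loc g.inner e (e (f (c t))) w w ≤ σ) :
    B (c b - c a) (c b - c a) ≤ σ * (b - a) ^ 2 := by
  have hn : ∀ a, 0 ≤ B a a := fun a => by
    by_cases h0 : a = 0
    · simp [h0]
    · exact (hp a h0).le
  rcases hab.eq_or_lt with rfl | hab
  · simp
  have key : ∀ t, ∃ c' : E, t ∈ Ioo a b → HasDerivAt c c' t ∧ B c' c' ≤ σ := by
    intro t
    by_cases ht : t ∈ Ioo a b
    swap
    · exact ⟨0, fun h => absurd h ht⟩
    obtain ⟨e, he, h1, w, h2, h3⟩ := hd t ht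
    obtain ⟨D, hD, h4⟩ := h.exists_equiv hp he h1
    have hct : ContinuousAt c t := hc.continuousAt (Icc_mem_nhds ht.1 ht.2)
    refine ⟨D.symm w, fun _ => ⟨?_, ?_⟩⟩
    · have h5 := hD.to_localInverse.hasFDerivAt.comp_hasDerivAt t h2
      refine h5.congr_of_eventuallyEq ?_
      filter_upwards [hct.eventually hD.eventually_left_inverse] with s hs'
      exact hs'.symm
    · have h5 := h4 (D.symm w)
      rw [D.apply_symm_apply] at h5
      exact h5.trans h3
  choose c' hc' using key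
  set u := c b - c a with hu
  obtain ⟨t, ht, h1⟩ := exists_hasDerivAt_eq_slope (fun s => B u (c s)) (fun s => B u (c' s)) hab
    ((B u).continuous.comp_continuousOn hc)
    (fun s hs' => (B u).hasFDerivAt.comp_hasDerivAt s (hc' s hs').1)
  have h2 : B u (c' t) * (b - a) = B u u := by
    rw [h1, div_mul_cancel₀ _ (sub_pos.2 hab).ne', ← map_sub]
  have h3 := cauchy_schwarz B hs hp u (c' t)
  have h4 := (hc' t ht).2
  have h5 : 0 ≤ σ * (b - a) ^ 2 := mul_nonneg ((hn _).trans h4) (sq_nonneg _)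
  rcases (hn u).eq_or_lt with h0 | h0
  · rwa [← h0]
  refine le_of_mul_le_mul_left ?_ h0
  have h6 := mul_le_mul_of_nonneg_right (h3.trans (mul_le_mul_of_nonneg_left h4 h0.le))
    (sq_nonneg (b - a))
  rw [← mul_pow, h2] at h6
  linarith

end Vale.Agent.P255
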