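import Vale.Agent.P255.Base

open scoped ContDiff Manifold Topology
open Set Filter

noncomputable section

namespace Vale.Agent.P255

variable {E : Type} [NormedAddCommGroup E] [NormedSpace ℝ E] [FiniteDimensional ℝ E]
variable {G G' : E → E →L[ℝ] E →L[ℝ] ℝ} {U U' : Set E}

namespace LocX

theorem inv_of_pos (B : E →L[ℝ] E →L[ℝ] ℝ) (hp : ∀ a, a ≠ 0 → 0 < B a a) : B.IsInvertible := by
  have hinj : Function.Injective B := by
    rw [injective_iff_map_eq_zero]
    intro a ha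
    by_contra h0
    have := hp a h0
    rw [ha] at this
    simp at this
  have hfr : Module.finrank ℝ E = Module.finrank ℝ (E →L[ℝ] ℝ) := by
    rw [← (LinearMap.toContinuousLinearMap (𝕜 := ℝ) (E := E) (F' := ℝ)).finrank_eq]
    exact (Subspace.dual_finrank_eq).symm
  have hsurj : Function.Surjective B :=
    (LinearMap.injective_iff_surjective_of_finrank_eq_finrank hfr
      (f := (B : E →ₗ[ℝ] (E →L[ℝ] ℝ)))).1 hinj
  let e : E ≃ₗ[ℝ] (E →L[ℝ] ℝ) := LinearEquiv.ofBijective (B : E →ₗ[ℝ] _) ⟨hinj, hsurj⟩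
  exact ⟨e.toContinuousLinearEquiv, by ext; rfl⟩

omit [FiniteDimensional ℝ E] in
theorem diffAt (h : LM G U) {y : E} (hy : y ∈ U) : DifferentiableAt ℝ G y :=
  (h.sm.contDiffAt (h.op.mem_nhds hy)).differentiableAt (by simp)

omit [FiniteDimensional ℝ E] in
theorem fderiv_ev1 {y : E} (hd : DifferentiableAt ℝ G y) (b ξ : E) :
    fderiv ℝ (fun z => G z b) y ξ = fderiv ℝ G y ξ b := by
  have h1 := (hd.hasFDerivAt.clm_apply (hasFDerivAt_const b y)).fderiv
  rw [h1]
  simp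

omit [FiniteDimensional ℝ E] in
theorem fderiv_ev2 {y : E} (hd : DifferentiableAt ℝ G y) (a b ξ : E) :
    fderiv ℝ (fun z => G z a b) y ξ = fderiv ℝ G y ξ a b := by
  have h0 := hd.hasFDerivAt.clm_apply (hasFDerivAt_const a y)
  have h1 := (h0.clm_apply (hasFDerivAt_const b y)).fderiv
  rw [h1]
  simp

end LocX

open LocX

theorem chris_spec (h : LM G U) {y : E} (hy : y ∈ U) (a b ξ : E) :
    G y (chris G y a b) ξ =
      (1 / 2 : ℝ) * (fderiv ℝ G y a b ξ + fderiv ℝ G y b a ξ - fderiv ℝ G y ξ a b) := by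
  unfold chris
  rw [(inv_of_pos (G y) (h.pos y hy)).self_apply_inverse]
  rw [← fderiv_ev2 (diffAt h hy) a b ξ]
  simp

omit [FiniteDimensional ℝ E] in
/-- nondegeneracy -/
theorem LM.ext (h : LM G U) {y : E} (hy : y ∈ U) {a b : E} (hab : ∀ ξ, G y a ξ = G y b ξ) :
    a = b := by
  by_contra hne
  have h1 := h.pos y hy (a - b) (sub_ne_zero.2 hne)
  rw [map_sub (G y) a b, sub_apply, hab (a - b), sub_self] at h1
  exact lt_irrefl _ h1

omit [FiniteDimensional ℝ E] in
theorem fderiv_symm (h : LM G U) {y : E} (hy : y ∈ U) (ξ a b : E) :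
    fderiv ℝ G y ξ a b = fderiv ℝ G y ξ b a := by
  rw [← fderiv_ev2 (diffAt h hy) a b ξ, ← fderiv_ev2 (diffAt h hy) b a ξ]
  have : (fun z => G z a b) =ᶠ[𝓝 y] fun z => G z b a := by
    filter_upwards [h.op.mem_nhds hy] with z hz using h.symm z hz a b
  rw [this.fderiv_eq]

theorem chris_symm (h : LM G U) {y : E} (hy : y ∈ U) (a b : E) :
    chris G y a b = chris G y b a := by
  apply h.ext hy
  intro ξ
  rw [chris_spec h hy, chris_spec h hy, fderiv_symm h hy ξ a b]
  ring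

namespace LocX

theorem smooth_chris (h : LM G U) (a b : E) : ContDiffOn ℝ ∞ (fun y => chris G y a b) U := by
  have hc : ∀ b : E, ContDiffOn ℝ ∞ (fun z => G z b) U := fun b =>
    h.sm.clm_apply contDiffOn_const
  have h1 : ∀ a b : E, ContDiffOn ℝ ∞ (fun y => fderiv ℝ (fun z => G z b) y a) U := fun a b =>
    ((hc b).fderiv_of_isOpen h.op (m := ∞) (by simp)).clm_apply contDiffOn_const
  have h2 : ContDiffOn ℝ ∞ (fun y => fderiv ℝ (fun z => G z a b) y) U :=
    ((hc a).clm_apply contDiffOn_const).fderiv_of_isOpen h.op (m := ∞) (by simp)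
  have h3 : ContDiffOn ℝ ∞ (fun y => (G y).inverse) U := by
    intro y hy
    have := (inv_of_pos (G y) (h.pos y hy)).contDiffAt_map_inverse (n := ∞)
    exact this.comp_contDiffWithinAt y (h.sm y hy)
  have h4 := h3.clm_apply ((((h1 a b).add (h1 b a)).sub h2).const_smul (1 / 2 : ℝ))
  refine h4.congr fun y hy => ?_
  unfold chris
  rw [fderiv_ev1 (diffAt h hy), fderiv_ev1 (diffAt h hy)]

theorem exists_pt (h : LM G U) (y : E) : ∃ Γ : E →L[ℝ] E →L[ℝ] E,
    y ∈ U → ∀ a b, chris G y a b = Γ a b := by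
  by_cases hy : y ∈ U
  · let L : E →ₗ[ℝ] E →ₗ[ℝ] E := LinearMap.mk₂ ℝ (fun a b => chris G y a b)
      (fun a a' b => by
        apply h.ext hy
        intro ξ
        simp only [map_add, add_apply, chris_spec h hy]
        ring)
      (fun c a b => by
        apply h.ext hy
        intro ξ
        simp only [map_smul, smul_apply, chris_spec h hy, smul_eq_mul]
        ring)
      (fun a b b' => by
        apply h.ext hy
        intro ξ
        simp only [map_add, add_apply, chris_spec h hy]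
        ring)
      (fun c a b => by
        apply h.ext hy
        intro ξ
        simp only [map_smul, smul_apply, chris_spec h hy, smul_eq_mul]
        ring)
    let L' : E →ₗ[ℝ] (E →L[ℝ] E) :=
      (LinearMap.toContinuousLinearMap (𝕜 := ℝ) (E := E) (F' := E)).toLinearMap ∘ₗ L
    exact ⟨LinearMap.toContinuousLinearMap L', fun _ a b => rfl⟩
  · exact ⟨0, fun h' => absurd h' hy⟩

end LocX

theorem exists_chrisL (h : LM G U) : ∃ Γ : E → E →L[ℝ] E →L[ℝ] E, ContDiffOn ℝ ∞ Γ U ∧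
    ∀ y ∈ U, ∀ a b, chris G y a b = Γ y a b := by
  choose Γ hΓ using exists_pt h
  refine ⟨Γ, ?_, fun y hy => hΓ y hy⟩
  refine contDiffOn_clm_apply.2 fun a => contDiffOn_clm_apply.2 fun b => ?_
  exact (smooth_chris h a b).congr fun y hy => (hΓ y hy a b).symm

theorem contDiffOn_spray (h : LM G U) : ContDiffOn ℝ ∞ (spray G) (U ×ˢ univ) := by
  obtain ⟨Γ, hΓ, he⟩ := exists_chrisL h
  have h1 : ContDiffOn ℝ ∞ (fun z : E × E => Γ z.1) (U ×ˢ univ) :=
    hΓ.comp contDiffOn_fst fun z hz => hz.1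
  have h2 : ContDiffOn ℝ ∞ (fun z : E × E => (z.2, - Γ z.1 z.2 z.2)) (U ×ˢ univ) :=
    contDiffOn_snd.prodMk ((h1.clm_apply contDiffOn_snd).clm_apply contDiffOn_snd).neg
  refine h2.congr fun z hz => ?_
  unfold spray
  rw [he z.1 hz.1]

theorem fderiv_spray (h : LM G U) {z : E × E} (hz : z.1 ∈ U) (δ : E × E) :
    fderiv ℝ (spray G) z δ =
      (δ.2, - (fderiv ℝ (fun y => chris G y z.2 z.2) z.1 δ.1) - (2 : ℝ) • chris G z.1 z.2 δ.2) := by
  obtain ⟨Γ, hΓ, he⟩ := exists_chrisL h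
  have hd : HasFDerivAt Γ (fderiv ℝ Γ z.1) z.1 :=
    ((hΓ.contDiffAt (h.op.mem_nhds hz)).differentiableAt (by simp)).hasFDerivAt
  have h1 : HasFDerivAt (fun w : E × E => Γ w.1) ((fderiv ℝ Γ z.1).comp (.fst ℝ E E)) z :=
    HasFDerivAt.comp (f := Prod.fst) (g := Γ) z hd (hasFDerivAt_fst (𝕜 := ℝ) (p := z))
  have hs : HasFDerivAt (fun w : E × E => w.2) (.snd ℝ E E) z := hasFDerivAt_snd
  have h2 := hs.prodMk ((h1.clm_apply hs).clm_apply hs).neg
  have h3 : spray G =ᶠ[𝓝 z] fun w : E × E => (w.2, - Γ w.1 w.2 w.2) := by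
    have : ∀ᶠ w : E × E in 𝓝 z, w.1 ∈ U := continuous_fst.continuousAt (h.op.mem_nhds hz)
    filter_upwards [this] with w hw
    unfold spray
    rw [he w.1 hw]
  have h4 : (fun y => chris G y z.2 z.2) =ᶠ[𝓝 z.1] fun y => Γ y z.2 z.2 := by
    filter_upwards [h.op.mem_nhds hz] with y hy using he y hy _ _
  have h5 := ((hd.clm_apply (hasFDerivAt_const z.2 z.1)).clm_apply
    (hasFDerivAt_const z.2 z.1)).fderiv
  have h6 : Γ z.1 δ.2 z.2 = Γ z.1 z.2 δ.2 := by
    rw [← he _ hz, ← he _ hz, chris_symm h hz]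
  rw [h3.fderiv_eq, h4.fderiv_eq, h5, he _ hz]
  have h7 := h2.fderiv
  have h8 : (fun w : E × E => (w.2, - Γ w.1 w.2 w.2)) =
      fun w : E × E => (w.2, (-fun w : E × E => Γ w.1 w.2 w.2) w) := rfl
  rw [h8, h7]
  simp [h6, two_smul]
  abel

omit [FiniteDimensional ℝ E] in
/-- everything only depends on the germ of the metric -/
theorem chris_congr {y : E} (h : G =ᶠ[𝓝 y] G') (a b : E) : chris G y a b = chris G' y a b := by
  unfold chris
  have h1 : (fun z => G z a b) =ᶠ[𝓝 y] fun z => G' z a b := by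
    filter_upwards [h] with z hz
    rw [hz]
  rw [h.fderiv_eq, h1.fderiv_eq, h.eq_of_nhds]

omit [FiniteDimensional ℝ E] in
theorem spray_congr {z : E × E} (h : G =ᶠ[𝓝 z.1] G') : spray G =ᶠ[𝓝 z] spray G' := by
  have h1 : ∀ᶠ w : E × E in 𝓝 z, G =ᶠ[𝓝 w.1] G' :=
    continuous_fst.continuousAt h.eventuallyEq_nhds
  filter_upwards [h1] with w hw
  unfold spray
  rw [chris_congr hw]

omit [FiniteDimensional ℝ E] in
theorem mm_congr {z : E × E} (h : G =ᶠ[𝓝 z.1] G') (δ : E × E) : mm G z δ = mm G' z δ := by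
  unfold mm dJ
  rw [chris_congr h, h.eq_of_nhds]

omit [FiniteDimensional ℝ E] in
theorem Sol.congr {z δ : ℝ → E × E} {t : ℝ} (h : G =ᶠ[𝓝 (z t).1] G') (hs : Sol G z δ t) :
    Sol G' z δ t := by
  have h1 := spray_congr h
  unfold Sol
  rw [← h1.fderiv_eq, ← h1.eq_of_nhds]
  exact hs

omit [FiniteDimensional ℝ E] in
theorem LM.mono (h : LM G U) (hU : IsOpen U') (hs : U' ⊆ U) : LM G U' :=
  ⟨hU, h.sm.mono hs, fun y hy => h.symm y (hs hy), fun y hy => h.pos y (hs hy)⟩

omit [FiniteDimensional ℝ E] in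
theorem cauchy_schwarz (B : E →L[ℝ] E →L[ℝ] ℝ) (hs : ∀ a b, B a b = B b a)
    (hp : ∀ a, a ≠ 0 → 0 < B a a) (a b : E) : B a b ^ 2 ≤ B a a * B b b := by
  have hn : ∀ a, 0 ≤ B a a := fun a => by
    by_cases ha : a = 0
    · simp [ha]
    · exact (hp a ha).le
  by_cases hb : b = 0
  · simp [hb]
  have hb' := hp b hb
  have h1 := hn (B b b • a - B a b • b)
  simp only [map_sub, map_smul, sub_apply, smul_apply,
    smul_eq_mul, hs b a] at h1
  have h2 : 0 ≤ B b b * (B a a * B b b - B a b ^ 2) := by nlinarith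
  have h3 := nonneg_of_mul_nonneg_right h2 hb'
  linarith

/-- a positive definite form is comparable with the norm -/
theorem exists_coercive (B : E →L[ℝ] E →L[ℝ] ℝ) (hp : ∀ a, a ≠ 0 → 0 < B a a) :
    ∃ c > 0, ∀ a, c * ‖a‖ ^ 2 ≤ B a a := by
  have : ProperSpace E := FiniteDimensional.proper ℝ E
  have hc : Continuous fun a : E => B a a := by fun_prop
  obtain ⟨c, hc0, hcs⟩ : ∃ c > 0, ∀ a ∈ Metric.sphere (0 : E) 1, c ≤ B a a := by
    rcases (Metric.sphere (0 : E) 1).eq_empty_or_nonempty with h0 | h0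
    · exact ⟨1, one_pos, fun a ha => by rw [h0] at ha; exact absurd ha (notMem_empty _)⟩
    · obtain ⟨x, hx, hmin⟩ := (isCompact_sphere (0 : E) 1).exists_isMinOn h0 hc.continuousOn
      refine ⟨B x x, hp x ?_, fun a ha => hmin ha⟩
      rintro rfl
      simp at hx
  refine ⟨c, hc0, fun a => ?_⟩
  by_cases ha : a = 0
  · simp [ha]
  have hn : 0 < ‖a‖ := norm_pos_iff.2 ha
  have h1 := hcs (‖a‖⁻¹ • a) (by
    rw [mem_sphere_zero_iff_norm, norm_smul, norm_inv, norm_norm, inv_mul_cancel₀ hn.ne'])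
  simp only [map_smul, smul_apply, smul_eq_mul] at h1
  have h2 : ‖a‖⁻¹ * (‖a‖⁻¹ * B a a) * ‖a‖ ^ 2 = B a a := by field_simp
  rw [← h2]
  exact mul_le_mul_of_nonneg_right h1 (by positivity)

end Vale.Agent.P255
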