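import Vale.Agent.P255.LocX

open scoped ContDiff Manifold Topology
open Set Filter

noncomputable section

namespace Vale.Agent.P255

variable {E : Type} [NormedAddCommGroup E] [NormedSpace ℝ E] [FiniteDimensional ℝ E]
variable {G G' : E → E →L[ℝ] E →L[ℝ] ℝ} {U U' : Set E}

open LocX

theorem energy_deriv (h : LM G U) {z : ℝ → E × E} {t : ℝ} (hz : (z t).1 ∈ U)
    (hd : HasDerivAt z (spray G (z t)) t) :
    HasDerivAt (fun s => G (z s).1 (z s).2 (z s).2) 0 t := by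
  have h1 := bil_deriv (dAt h.op h.sm hz) (d_fst hd) (d_snd hd) (d_snd hd)
  refine h1.congr_deriv ?_
  simp only [spray, map_neg, neg_apply]
  rw [compat h hz]
  ring

theorem nn_deriv (h : LM G U) {z δ : ℝ → E × E} {t : ℝ} (hz : (z t).1 ∈ U) (hs : Sol G z δ t) :
    HasDerivAt (fun s => nn G (z s) (δ s)) (2 * mm G (z t) (δ t)) t := by
  obtain ⟨h1, -, h3, -⟩ := sol_parts h hz hs
  refine (bil_deriv (dAt h.op h.sm hz) h1 h3 h3).congr_deriv ?_
  simp only [mm, dJ, map_add]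
  rw [compat h hz, h.symm _ hz (chris G _ _ _), h.symm _ hz (δ t).2]
  ring

theorem mm_deriv (h : LM G U) {z δ : ℝ → E × E} {t : ℝ} (hz : (z t).1 ∈ U) (hs : Sol G z δ t) :
    HasDerivAt (fun s => mm G (z s) (δ s)) (qq G (z t) (δ t) - rr G (z t) (δ t)) t := by
  obtain ⟨h1, h2, h3, h4⟩ := sol_parts h hz hs
  have h5 : HasDerivAt (fun s => dJ G (z s) (δ s))
      (-curv G (z t).1 (δ t).1 (z t).2 (z t).2 - chris G (z t).1 (z t).2 (dJ G (z t) (δ t))) t := by
    refine (h4.add (chris_deriv h hz h1 h2 h3)).congr_deriv ?_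
    simp only [curv, dJ]
    rw [chris_neg_left h hz, chris_add_right h hz, fderiv_chris_symm h hz (δ t).1 (z t).2,
      chris_symm h hz (δ t).1 (chris G _ _ _), chris_symm h hz (δ t).1 (z t).2, two_smul]
    abel
  refine (bil_deriv (dAt h.op h.sm hz) h1 h3 h5).congr_deriv ?_
  simp only [qq, rr, map_sub, map_neg]
  rw [compat h hz, h.symm _ hz (curv G _ _ _ _)]
  have h6 : G (z t).1 (dJ G (z t) (δ t)) (dJ G (z t) (δ t)) =
      G (z t).1 (δ t).2 (dJ G (z t) (δ t)) +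
        G (z t).1 (chris G (z t).1 (z t).2 (δ t).1) (dJ G (z t) (δ t)) := by
    rw [← add_apply, ← map_add]
    rfl
  rw [h6]
  ring

theorem mm_eq (h : LM G U) {z : E × E} (hz : z.1 ∈ U) (δ : E × E) :
    mm G z δ = G z.1 δ.1 δ.2 + (1 / 2 : ℝ) * fderiv ℝ G z.1 z.2 δ.1 δ.1 := by
  simp only [mm, dJ, map_add]
  rw [h.symm _ hz δ.1 (chris G _ _ _), chris_spec h hz]
  ring

end Vale.Agent.P255
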