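import Vale.Agent.P255.LocX

open scoped ContDiff Manifold Topology
open Set Filter

noncomputable section

namespace Vale.Agent.P255

variable {E : Type} [NormedAddCommGroup E] [NormedSpace ℝ E] [FiniteDimensional ℝ E]
variable {G G' : E → E →L[ℝ] E →L[ℝ] ℝ} {U U' : Set E}

open LocX

/-- the covariant geodesic and Jacobi equations give the spray equation and its linearisation -/
theorem sol_of_jacobi (h : LM G U) {y J : ℝ → E} {t : ℝ} (hy : y t ∈ U)
    (hy2 : ContDiffAt ℝ 2 y t) (hJ2 : ContDiffAt ℝ 2 J t)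
    (hg : cov G y (deriv y) t = 0)
    (hj : cov G y (cov G y J) t + curv G (y t) (J t) (deriv y t) (deriv y t) = 0) :
    Sol G (fun s => (y s, deriv y s)) (fun s => (J s, deriv J s)) t := by
  have d1 : HasDerivAt y (deriv y t) t := (hy2.differentiableAt (by norm_num)).hasDerivAt
  have d2 : HasDerivAt (deriv y) (deriv (deriv y) t) t :=
    ((hy2.derivWithin (m := 1) (by norm_num)).differentiableAt (by norm_num)).hasDerivAt
  have d3 : HasDerivAt J (deriv J t) t := (hJ2.differentiableAt (by norm_num)).hasDerivAt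
  have d4 : HasDerivAt (deriv J) (deriv (deriv J) t) t :=
    ((hJ2.derivWithin (m := 1) (by norm_num)).differentiableAt (by norm_num)).hasDerivAt
  have e1 : deriv (deriv y) t = -chris G (y t) (deriv y t) (deriv y t) :=
    eq_neg_of_add_eq_zero_left hg
  rw [e1] at d2
  have d5 := d4.add (chris_deriv h hy d1 d2 d3)
  have e2 : deriv (cov G y J) t = _ := d5.deriv
  have e3 : deriv (deriv J) t = -(fderiv ℝ (fun z => chris G z (deriv y t) (deriv y t)) (y t) (J t))
      - (2 : ℝ) • chris G (y t) (deriv y t) (deriv J t) := by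
    have hj' : deriv (cov G y J) t + chris G (y t) (deriv y t)
        (deriv J t + chris G (y t) (deriv y t) (J t))
        + curv G (y t) (J t) (deriv y t) (deriv y t) = 0 := hj
    rw [e2] at hj'
    simp only [curv] at hj'
    rw [chris_neg_left h hy, chris_add_right h hy, fderiv_chris_symm h hy (J t) (deriv y t),
      chris_symm h hy (J t) (chris G _ _ _), chris_symm h hy (J t) (deriv y t)] at hj'
    rw [two_smul, ← sub_eq_zero, ← hj']
    abel
  rw [e3] at d4
  refine ⟨d1.prodMk d2, ?_⟩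
  rw [fderiv_spray h hy]
  exact d3.prodMk d4

/-- Euler-Lagrange form of the geodesic equation -/
theorem lag_one (h : LM G U) {z : ℝ → E × E} {t : ℝ} (hz : (z t).1 ∈ U)
    (hd : HasDerivAt z (spray G (z t)) t) (ξ : E) :
    HasDerivAt (fun s => G (z s).1 (z s).2 ξ)
      ((1 / 2 : ℝ) * fderiv ℝ G (z t).1 ξ (z t).2 (z t).2) t := by
  refine (bil_deriv (dAt h.op h.sm hz) (d_fst hd) (d_snd hd)
    (hasDerivAt_const t ξ)).congr_deriv ?_
  simp only [spray, map_neg, neg_apply, map_zero]
  rw [chris_spec h hz]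
  ring

/-- linearised Euler-Lagrange equation -/
theorem lag_two (h : LM G U) {z δ : ℝ → E × E} {t : ℝ} (hz : (z t).1 ∈ U) (hs : Sol G z δ t)
    (ξ : E) :
    HasDerivAt (fun s => G (z s).1 (δ s).2 ξ + fderiv ℝ G (z s).1 (δ s).1 (z s).2 ξ)
      (fderiv ℝ G (z t).1 ξ (z t).2 (δ t).2
        + (1 / 2 : ℝ) * fderiv ℝ (fun y => fderiv ℝ G y ξ (z t).2 (z t).2) (z t).1 (δ t).1) t := by
  obtain ⟨h1, h2, h3, h4⟩ := sol_parts h hz hs
  obtain ⟨Γ, hΓ, hc⟩ := exists_chrisL h
  set y := (z t).1 with hy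
  set w := (z t).2 with hw
  set a := (δ t).1 with ha
  set b := (δ t).2 with hb
  have hn : U ∈ 𝓝 y := h.op.mem_nhds hz
  let K : E → E →L[ℝ] ℝ := fun x => (G x).flip ξ
  have hK : ContDiffOn ℝ ∞ K U := by
    rw [contDiffOn_clm_apply]
    intro v
    exact (h.sm.clm_apply contDiffOn_const).clm_apply contDiffOn_const
  have hKf : ∀ x ∈ U, ∀ u v, fderiv ℝ K x u v = fderiv ℝ G x u v ξ := by
    intro x hx u v
    have e1 := (dAt h.op hK hx).hasFDerivAt.clm_apply (hasFDerivAt_const v x)
    rw [← bil_fderiv (dAt h.op h.sm hx)]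
    have e2 : fderiv ℝ (fun z => G z v ξ) x = _ := e1.fderiv
    rw [e2]
    simp
  have hH : DifferentiableAt ℝ (fderiv ℝ K) y :=
    ((hK.contDiffAt hn).fderiv_right (m := 1) (by norm_cast)).differentiableAt (by norm_num)
  have hsym : fderiv ℝ (fderiv ℝ K) y w a = fderiv ℝ (fderiv ℝ K) y a w :=
    (hK.contDiffAt hn).isSymmSndFDerivAt
      (by simp only [minSmoothness_of_isRCLikeNormedField]; norm_cast) w a
  have d1 := bil_deriv (dAt h.op h.sm hz) h1 h4 (hasDerivAt_const t ξ)
  have d2 := bil_deriv hH h1 h3 h2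
  have d2' : HasDerivAt (fun s => fderiv ℝ G (z s).1 (δ s).1 (z s).2 ξ) _ t :=
    d2.congr_of_eventuallyEq (by
      filter_upwards [h1.continuousAt.preimage_mem_nhds hn] with s hs using (hKf _ hs _ _).symm)
  refine (d1.add d2').congr_deriv ?_
  have hcd : DifferentiableAt ℝ (fun x => chris G x w w) y := by
    have e1 : DifferentiableAt ℝ (fun x => Γ x w w) y :=
      ((dAt h.op hΓ hz).clm_apply (differentiableAt_const _)).clm_apply
        (differentiableAt_const _)
    refine e1.congr_of_eventuallyEq ?_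
    filter_upwards [hn] with x hx using hc x hx _ _
  have e1 : (fun x => fderiv ℝ G x ξ w w) =ᶠ[𝓝 y]
      fun x => 2 * (fderiv ℝ K x w w - G x (chris G x w w) ξ) := by
    filter_upwards [hn] with x hx
    rw [hKf x hx, chris_spec h hx]
    ring
  have f1 := (hH.hasFDerivAt.clm_apply (hasFDerivAt_const w y)).clm_apply (hasFDerivAt_const w y)
  have f2 := ((dAt h.op h.sm hz).hasFDerivAt.clm_apply hcd.hasFDerivAt).clm_apply
    (hasFDerivAt_const ξ y)
  have e2 : fderiv ℝ (fun x => fderiv ℝ G x ξ w w) y a =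
      2 * (fderiv ℝ (fderiv ℝ K) y a w w - (fderiv ℝ G y a (chris G y w w) ξ +
        G y (fderiv ℝ (fun x => chris G x w w) y a) ξ)) := by
    rw [e1.fderiv_eq, ((f1.fun_sub f2).const_mul 2).fderiv]
    simp
    ring
  rw [e2, hsym, hKf y hz, hKf y hz]
  simp only [map_sub, map_neg, map_smul, sub_apply, neg_apply, smul_apply, smul_eq_mul, map_zero]
  rw [chris_spec h hz w b ξ]
  ring

end Vale.Agent.P255
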