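import Vale.Agent.P255.Loc

/-! Derivative rules along curves, shared by `LocA` and `LocB`. -/

open scoped ContDiff Manifold Topology
open Set Filter

noncomputable section

namespace Vale.Agent.P255.LocX

variable {E : Type} [NormedAddCommGroup E] [NormedSpace ℝ E] [FiniteDimensional ℝ E]
variable {G : E → E →L[ℝ] E →L[ℝ] ℝ} {U : Set E}

omit [FiniteDimensional ℝ E] in
theorem dAt {F : Type} [NormedAddCommGroup F] [NormedSpace ℝ F] {f : E → F} (hU : IsOpen U)
    (h : ContDiffOn ℝ ∞ f U) {y : E} (hy : y ∈ U) : DifferentiableAt ℝ f y :=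
  (h.contDiffAt (hU.mem_nhds hy)).differentiableAt (by simp)

omit [FiniteDimensional ℝ E] in
theorem bil_deriv {F : Type} [NormedAddCommGroup F] [NormedSpace ℝ F]
    {H : E → E →L[ℝ] E →L[ℝ] F} {y A B : ℝ → E} {w A' B' : E} {t : ℝ}
    (hH : DifferentiableAt ℝ H (y t)) (hy : HasDerivAt y w t) (hA : HasDerivAt A A' t)
    (hB : HasDerivAt B B' t) :
    HasDerivAt (fun s => H (y s) (A s) (B s))
      (fderiv ℝ H (y t) w (A t) (B t) + H (y t) A' (B t) + H (y t) (A t) B') t := by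
  have h1 : HasDerivAt (fun s => H (y s)) (fderiv ℝ H (y t) w) t :=
    HasFDerivAt.comp_hasDerivAt (E := E →L[ℝ] E →L[ℝ] F) (l := H) t hH.hasFDerivAt hy
  exact (h1.clm_apply hA).clm_apply hB

omit [FiniteDimensional ℝ E] in
theorem bil_fderiv {F : Type} [NormedAddCommGroup F] [NormedSpace ℝ F]
    {H : E → E →L[ℝ] E →L[ℝ] F} {y : E} (hH : DifferentiableAt ℝ H y) (a b w : E) :
    fderiv ℝ (fun z => H z a b) y w = fderiv ℝ H y w a b := by
  have h1 := (hH.hasFDerivAt.clm_apply (hasFDerivAt_const a y)).clm_apply (hasFDerivAt_const b y)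
  rw [h1.fderiv]
  simp

theorem compat (h : LM G U) {y : E} (hy : y ∈ U) (w a b : E) :
    fderiv ℝ G y w a b = G y (chris G y w a) b + G y a (chris G y w b) := by
  rw [h.symm y hy a, chris_spec h hy, chris_spec h hy, fderiv_symm h hy w b a]
  ring

theorem chris_deriv (h : LM G U) {y A B : ℝ → E} {w A' B' : E} {t : ℝ} (hU : y t ∈ U)
    (hy : HasDerivAt y w t) (hA : HasDerivAt A A' t) (hB : HasDerivAt B B' t) :
    HasDerivAt (fun s => chris G (y s) (A s) (B s))
      (fderiv ℝ (fun z => chris G z (A t) (B t)) (y t) w + chris G (y t) A' (B t)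
        + chris G (y t) (A t) B') t := by
  obtain ⟨Γ, hΓ, hc⟩ := exists_chrisL h
  have hd := dAt h.op hΓ hU
  have h1 := bil_deriv hd hy hA hB
  have h2 : (fun z => chris G z (A t) (B t)) =ᶠ[𝓝 (y t)] fun z => Γ z (A t) (B t) := by
    filter_upwards [h.op.mem_nhds hU] with z hz using hc z hz _ _
  rw [h2.fderiv_eq, bil_fderiv hd, hc _ hU, hc _ hU]
  refine h1.congr_of_eventuallyEq ?_
  filter_upwards [hy.continuousAt.preimage_mem_nhds (h.op.mem_nhds hU)] with s hs
    using hc _ hs _ _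

theorem fderiv_chris_symm (h : LM G U) {y : E} (hy : y ∈ U) (a b : E) :
    fderiv ℝ (fun z => chris G z a b) y = fderiv ℝ (fun z => chris G z b a) y := by
  refine Filter.EventuallyEq.fderiv_eq ?_
  filter_upwards [h.op.mem_nhds hy] with z hz using chris_symm h hz a b

theorem chris_neg_left (h : LM G U) {y : E} (hy : y ∈ U) (a b : E) :
    chris G y (-a) b = -chris G y a b := by
  obtain ⟨Γ, -, hc⟩ := exists_chrisL h
  simp [hc _ hy]

theorem chris_add_right (h : LM G U) {y : E} (hy : y ∈ U) (a b c : E) :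
    chris G y a (b + c) = chris G y a b + chris G y a c := by
  obtain ⟨Γ, -, hc⟩ := exists_chrisL h
  simp [hc _ hy]

omit [FiniteDimensional ℝ E] in
theorem d_fst {z : ℝ → E × E} {v : E × E} {t : ℝ} (h : HasDerivAt z v t) :
    HasDerivAt (fun s => (z s).1) v.1 t :=
  (ContinuousLinearMap.fst ℝ E E).hasFDerivAt.comp_hasDerivAt t h

omit [FiniteDimensional ℝ E] in
theorem d_snd {z : ℝ → E × E} {v : E × E} {t : ℝ} (h : HasDerivAt z v t) :
    HasDerivAt (fun s => (z s).2) v.2 t :=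
  (ContinuousLinearMap.snd ℝ E E).hasFDerivAt.comp_hasDerivAt t h

theorem sol_parts (h : LM G U) {z δ : ℝ → E × E} {t : ℝ} (hz : (z t).1 ∈ U) (hs : Sol G z δ t) :
    HasDerivAt (fun s => (z s).1) (z t).2 t ∧
    HasDerivAt (fun s => (z s).2) (-chris G (z t).1 (z t).2 (z t).2) t ∧
    HasDerivAt (fun s => (δ s).1) (δ t).2 t ∧
    HasDerivAt (fun s => (δ s).2)
      (-(fderiv ℝ (fun y => chris G y (z t).2 (z t).2) (z t).1 (δ t).1)
        - (2 : ℝ) • chris G (z t).1 (z t).2 (δ t).2) t := by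
  have h2 := hs.2
  rw [fderiv_spray h hz] at h2
  exact ⟨d_fst hs.1, d_snd hs.1, d_fst h2, d_snd h2⟩

end Vale.Agent.P255.LocX
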