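import Vale.Agent.P255.LyapA

open scoped ContDiff Manifold Topology
open Set Filter Real

noncomputable section

namespace Vale.Agent.P255

namespace Prof

variable {P : Prof} {p q dp dq : ℝ} {x ξ X Ξ a₂ a₃ : ℝ → ℝ} {t : ℝ}

/-- the conclusion -/
def Concl (P : Prof) (p q dp dq : ℝ) (x ξ X Ξ a₂ a₃ : ℝ → ℝ) (t : ℝ) : Prop :=
  ∃ κ, 0 ≤ κ ∧ LMo (fun s => P.QR p q dp dq (x s) (ξ s) (X s) (Ξ s) (a₂ s) (a₃ s)) t κ ∧
      (X t = 0 → a₂ t = 0 → a₃ t = 0 → ¬ (Ξ t = 0 ∧ dp = 0 ∧ dq = 0) → 0 < κ)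

theorem pos_aux (P : Prof) (y Z dp dq : ℝ) (h : ¬ (Z = 0 ∧ dp = 0 ∧ dq = 0)) :
    0 < Z ^ 2 + (P.A y * dp ^ 2 + 2 * P.K y * dp * dq + P.C y * dq ^ 2) := by
  by_cases h1 : dp = 0 ∧ dq = 0
  · have hZ : Z ≠ 0 := fun hZ => h ⟨hZ, h1⟩
    have := P.kform_nonneg y dp dq
    have : 0 < Z ^ 2 := by positivity
    linarith
  · have := P.kform_pos y dp dq h1
    positivity

theorem concl_l (h : P.Eqs p q dp dq x ξ X Ξ a₂ a₃ t) (e₁ e₂ : ℝ) {l m : ℝ → ℝ} {l' m' : ℝ}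
    (hl : HasDerivAt l l' (x t)) (hm : HasDerivAt m m' (x t))
    (hm' : m' = e₁ * (deriv P.A (x t) * p + deriv P.K (x t) * q)
      + e₂ * (deriv P.K (x t) * p + deriv P.C (x t) * q))
    (h1 : l (x t) * m (x t) ^ 2 = P.V1 (x t) p q)
    (h2 : l' * m (x t) ^ 2 + 2 * l (x t) * m (x t) * m' = P.V2 (x t) p q)
    (h3 : l' + (P.A (x t) * e₁ ^ 2 + 2 * P.K (x t) * e₁ * e₂ + P.C (x t) * e₂ ^ 2) * l (x t) ^ 2
      ≤ 0)
    (h4 : ∀ᶠ y in 𝓝 (x t), ∀ ξ X Ξ a₂ a₃ : ℝ, P.QR p q dp dq y ξ X Ξ a₂ a₃ =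
      X * Ξ + a₂ * dp + a₃ * dq - ξ * (l y * (e₁ * a₂ + e₂ * a₃) ^ 2)
        + 2 * (l y * m y * (e₁ * a₂ + e₂ * a₃)) * X) :
    P.Concl p q dp dq x ξ X Ξ a₂ a₃ t := by
  have hd := dQl h e₁ e₂ hl hm hm' h1 h2
  refine ⟨_, ?_, (LMo.of_hasDerivAt hd le_rfl).congr ?_, ?_⟩
  · have k1 := P.kform_nonneg (x t)
      (dp - l (x t) * (ξ t * (e₁ * a₂ t + e₂ * a₃ t) - m (x t) * X t) * e₁)
      (dq - l (x t) * (ξ t * (e₁ * a₂ t + e₂ * a₃ t) - m (x t) * X t) * e₂)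
    have k2 := mul_nonneg (neg_nonneg.2 h3)
      (sq_nonneg (ξ t * (e₁ * a₂ t + e₂ * a₃ t) - m (x t) * X t))
    have k3 := sq_nonneg (Ξ t + l (x t) * m (x t) * (e₁ * a₂ t + e₂ * a₃ t))
    linarith
  · filter_upwards [h.1.continuousAt.eventually h4] with s hs
    exact (hs _ _ _ _ _).symm
  · intro g1 g2 g3 g4
    have := pos_aux P (x t) (Ξ t) dp dq g4
    rw [g1, g2, g3]
    simpa using this

theorem concl_La (h : P.Eqs p q dp dq x ξ X Ξ a₂ a₃ t) (hx : x t < 0) :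
    P.Concl p q dp dq x ξ X Ξ a₂ a₃ t := by
  have hA := P.posA (x t)
  have hl : HasDerivAt (fun y => deriv P.A y / (2 * P.A y ^ 2))
      ((deriv (deriv P.A) (x t) * (2 * P.A (x t) ^ 2)
        - deriv P.A (x t) * (2 * (2 * P.A (x t) * deriv P.A (x t)))) / (2 * P.A (x t) ^ 2) ^ 2)
      (x t) := by
    have := (P.ddA (x t)).div (((P.dA (x t)).pow 2).const_mul 2)
      (mul_ne_zero two_ne_zero (pow_ne_zero 2 hA.ne'))
    refine HasDerivAt.congr_deriv this ?_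
    simp
  obtain ⟨k1, k2, k3, k4, k5, k6⟩ := P.left (x t) hx.le
  refine concl_l h 1 0 hl (P.dmL (x t) p q) (by ring) ?_ ?_ ?_ ?_
  · rw [P.V1_left hx.le, P.mL_left hx.le]; field_simp
  · rw [P.mL_left hx.le]
    simp only [V2, qf, k3, k5, k6]
    field_simp
    ring
  · have := P.npcL (x t) hx.le
    have e : (deriv (deriv P.A) (x t) * (2 * P.A (x t) ^ 2)
        - deriv P.A (x t) * (2 * (2 * P.A (x t) * deriv P.A (x t)))) / (2 * P.A (x t) ^ 2) ^ 2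
        + (P.A (x t) * 1 ^ 2 + 2 * P.K (x t) * 1 * 0 + P.C (x t) * 0 ^ 2)
          * (deriv P.A (x t) / (2 * P.A (x t) ^ 2)) ^ 2
        = (2 * P.A (x t) * deriv (deriv P.A) (x t) - 3 * deriv P.A (x t) ^ 2)
          / (4 * P.A (x t) ^ 3) := by
      field_simp
      ring
    rw [e]
    exact div_nonpos_of_nonpos_of_nonneg (by linarith) (by positivity)
  · filter_upwards [gt_mem_nhds hx] with y hy ξ X Ξ a₂ a₃
    have h1 := (P.left_type (p := p) (q := q) (by linarith : y ≤ 1) (P.V1_nonneg hy.le p q)).1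
    unfold QR
    rw [h1]
    unfold fL
    rw [if_pos hy]
    ring

theorem concl_Ra (h : P.Eqs p q dp dq x ξ X Ξ a₂ a₃ t) (hx : 1 < x t) :
    P.Concl p q dp dq x ξ X Ξ a₂ a₃ t := by
  have hA := P.CD_pos hx.le
  have hl : HasDerivAt (fun y => deriv P.C y / (2 * (P.C y - P.D) ^ 2))
      ((deriv (deriv P.C) (x t) * (2 * (P.C (x t) - P.D) ^ 2)
        - deriv P.C (x t) * (2 * (2 * (P.C (x t) - P.D) * deriv P.C (x t))))
          / (2 * (P.C (x t) - P.D) ^ 2) ^ 2)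
      (x t) := by
    have := (P.ddC (x t)).div ((((P.dC (x t)).sub_const P.D).pow 2).const_mul 2)
      (mul_ne_zero two_ne_zero (pow_ne_zero 2 hA.ne'))
    refine HasDerivAt.congr_deriv this ?_
    simp
  obtain ⟨k1, k2, k3, k4, k5, k6⟩ := P.right (x t) hx.le
  refine concl_l h (-1) 1 hl (P.dmR (x t) p q) (by ring) ?_ ?_ ?_ ?_
  · rw [P.V1_right hx.le, P.mR_right hx.le]; field_simp
  · rw [P.mR_right hx.le]
    simp only [V2, qf, k3, k4, k5, k6]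
    field_simp
    ring
  · have := P.npcR (x t) hx.le
    have e : (deriv (deriv P.C) (x t) * (2 * (P.C (x t) - P.D) ^ 2)
        - deriv P.C (x t) * (2 * (2 * (P.C (x t) - P.D) * deriv P.C (x t))))
          / (2 * (P.C (x t) - P.D) ^ 2) ^ 2
        + (P.A (x t) * (-1) ^ 2 + 2 * P.K (x t) * (-1) * 1 + P.C (x t) * 1 ^ 2)
          * (deriv P.C (x t) / (2 * (P.C (x t) - P.D) ^ 2)) ^ 2
        = (2 * (P.C (x t) - P.D) * deriv (deriv P.C) (x t) - 3 * deriv P.C (x t) ^ 2)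
          / (4 * (P.C (x t) - P.D) ^ 3) := by
      rw [k1, k2]
      field_simp
      ring
    rw [e]
    exact div_nonpos_of_nonpos_of_nonneg (by linarith) (by positivity)
  · filter_upwards [lt_mem_nhds hx] with y hy ξ X Ξ a₂ a₃
    have h1 := (P.right_type (p := p) (q := q) (by linarith : 0 ≤ y) (P.V1_nonpos hy.le p q)).1
    unfold QR
    rw [h1]
    unfold fR
    rw [if_pos hy]
    ring

theorem concl_Lb (h : P.Eqs p q dp dq x ξ X Ξ a₂ a₃ t) (hx : x t ∈ Icc (0 : ℝ) 1)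
    (hV : 0 < P.V1 (x t) p q) : P.Concl p q dp dq x ξ X Ξ a₂ a₃ t := by
  have hm := P.mL_ne hx hV
  have hl := (P.dV1 (x t) p q).div ((P.dmL (x t) p q).pow 2) (pow_ne_zero 2 hm)
  have hx1 : x t < 1 := by
    rcases hx.2.eq_or_lt with h1 | h1
    · have := P.V1_nonpos h1.ge p q; linarith
    · exact h1
  refine concl_l h 1 0 (l := fun y => P.V1 y p q / P.mL y p q ^ 2) hl (P.dmL (x t) p q)
    (by ring) ?_ ?_ ?_ ?_
  · field_simp
  · simp only [Pi.pow_apply]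
    push_cast
    field_simp
    ring
  · have := P.ineqL (x t) hx p q hV
    simp only [Pi.pow_apply]
    push_cast
    have e : (P.V2 (x t) p q * P.mL (x t) p q ^ 2 - P.V1 (x t) p q
          * (2 * P.mL (x t) p q ^ (2 - 1) * (deriv P.A (x t) * p + deriv P.K (x t) * q)))
          / (P.mL (x t) p q ^ 2) ^ 2
        + (P.A (x t) * 1 ^ 2 + 2 * P.K (x t) * 1 * 0 + P.C (x t) * 0 ^ 2)
          * (P.V1 (x t) p q / P.mL (x t) p q ^ 2) ^ 2
        = (P.A (x t) * P.V1 (x t) p q ^ 2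
          - 2 * P.mL (x t) p q * (deriv P.A (x t) * p + deriv P.K (x t) * q) * P.V1 (x t) p q
          + P.mL (x t) p q ^ 2 * P.V2 (x t) p q) / P.mL (x t) p q ^ 4 := by
      field_simp
      ring
    rw [e]
    exact div_nonpos_of_nonpos_of_nonneg this (by positivity)
  · filter_upwards [gt_mem_nhds hx1, (P.dV1 (x t) p q).continuousAt.eventually (lt_mem_nhds hV),
      (P.dmL (x t) p q).continuousAt.eventually_ne hm] with y hy hy' hy'' ξ X Ξ a₂ a₃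
    obtain ⟨h1, h2⟩ := P.left_type (p := p) (q := q) hy.le hy'.le
    unfold QR
    rw [h1, ← h2]
    field_simp
    ring

theorem concl_Rb (h : P.Eqs p q dp dq x ξ X Ξ a₂ a₃ t) (hx : x t ∈ Icc (0 : ℝ) 1)
    (hV : P.V1 (x t) p q < 0) : P.Concl p q dp dq x ξ X Ξ a₂ a₃ t := by
  have hm := P.mR_ne hx hV
  have hl := (P.dV1 (x t) p q).div ((P.dmR (x t) p q).pow 2) (pow_ne_zero 2 hm)
  have hx1 : 0 < x t := by
    rcases hx.1.eq_or_lt with h1 | h1
    · have := P.V1_nonneg h1.ge p q; linarith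
    · exact h1
  refine concl_l h (-1) 1 (l := fun y => P.V1 y p q / P.mR y p q ^ 2) hl (P.dmR (x t) p q)
    (by ring) ?_ ?_ ?_ ?_
  · field_simp
  · simp only [Pi.pow_apply]
    push_cast
    field_simp
    ring
  · have := P.ineqR (x t) hx p q hV
    simp only [Pi.pow_apply]
    push_cast
    have e : (P.V2 (x t) p q * P.mR (x t) p q ^ 2 - P.V1 (x t) p q
          * (2 * P.mR (x t) p q ^ (2 - 1) * ((deriv P.K (x t) - deriv P.A (x t)) * p
            + (deriv P.C (x t) - deriv P.K (x t)) * q)))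
          / (P.mR (x t) p q ^ 2) ^ 2
        + (P.A (x t) * (-1) ^ 2 + 2 * P.K (x t) * (-1) * 1 + P.C (x t) * 1 ^ 2)
          * (P.V1 (x t) p q / P.mR (x t) p q ^ 2) ^ 2
        = ((P.A (x t) - 2 * P.K (x t) + P.C (x t)) * P.V1 (x t) p q ^ 2
          - 2 * P.mR (x t) p q * ((deriv P.K (x t) - deriv P.A (x t)) * p
            + (deriv P.C (x t) - deriv P.K (x t)) * q) * P.V1 (x t) p q
          + P.mR (x t) p q ^ 2 * P.V2 (x t) p q) / P.mR (x t) p q ^ 4 := by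
      field_simp
      ring
    rw [e]
    exact div_nonpos_of_nonpos_of_nonneg this (by positivity)
  · filter_upwards [lt_mem_nhds hx1, (P.dV1 (x t) p q).continuousAt.eventually (gt_mem_nhds hV),
      (P.dmR (x t) p q).continuousAt.eventually_ne hm] with y hy hy' hy'' ξ X Ξ a₂ a₃
    obtain ⟨h1, h2⟩ := P.right_type (p := p) (q := q) hy.le hy'.le
    have h3 : P.V1 y p q = - (P.fR y p q * P.mR y p q ^ 2) := by linarith
    unfold QR
    rw [h1, h3]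
    field_simp
    ring

theorem QR_top {y : ℝ} (hy : y ∈ Icc (0 : ℝ) 1) (hV : P.V1 y p q = 0) (ξ X Ξ a₂ a₃ : ℝ) :
    P.QR p q dp dq y ξ X Ξ a₂ a₃ = X * Ξ + a₂ * dp + a₃ * dq := by
  unfold QR
  rw [(P.left_type hy.2 hV.ge).1, (P.right_type hy.1 hV.le).1]
  ring

/-- comparison with the crossing form on the left of the top -/
theorem QR_left {y y₀ : ℝ} (hy : y₀ ∈ Icc (0 : ℝ) 1) (hV : P.V1 y₀ p q = 0) (h : y ≤ y₀)
    {ξ : ℝ} (hξ : ξ ≠ 0) (X Ξ a₂ a₃ : ℝ) :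
    ∃ r, 0 ≤ r ∧ P.QR p q dp dq y ξ X Ξ a₂ a₃
      = X * Ξ + a₂ * dp + a₃ * dq + P.V1 y p q * X ^ 2 / ξ - r / ξ := by
  have h0 : 0 ≤ P.V1 y p q := by
    by_cases h1 : y ≤ 0
    · exact P.V1_nonneg h1 p q
    · have := P.V1_anti p q ⟨(not_le.1 h1).le, h.trans hy.2⟩ hy h
      simpa [hV] using this
  obtain ⟨h1, h2⟩ := P.left_type (h.trans hy.2) h0
  refine ⟨P.fL y p q * (ξ * a₂ - P.mL y p q * X) ^ 2,
    mul_nonneg (P.fL_nonneg y p q) (sq_nonneg _), ?_⟩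
  unfold QR
  rw [h1, ← h2]
  field_simp
  ring

theorem QR_right {y y₀ : ℝ} (hy : y₀ ∈ Icc (0 : ℝ) 1) (hV : P.V1 y₀ p q = 0) (h : y₀ ≤ y)
    {ξ : ℝ} (hξ : ξ ≠ 0) (X Ξ a₂ a₃ : ℝ) :
    ∃ r, 0 ≤ r ∧ P.QR p q dp dq y ξ X Ξ a₂ a₃
      = X * Ξ + a₂ * dp + a₃ * dq + P.V1 y p q * X ^ 2 / ξ + r / ξ := by
  have h0 : P.V1 y p q ≤ 0 := by
    by_cases h1 : 1 ≤ y
    · exact P.V1_nonpos h1 p q
    · have := P.V1_anti p q hy ⟨hy.1.trans h, (not_le.1 h1).le⟩ h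
      simpa [hV] using this
  obtain ⟨h1, h2⟩ := P.right_type (hy.1.trans h) h0
  refine ⟨P.fR y p q * (ξ * (a₃ - a₂) - P.mR y p q * X) ^ 2,
    mul_nonneg (P.fR_nonneg y p q) (sq_nonneg _), ?_⟩
  have h3 : P.V1 y p q = - (P.fR y p q * P.mR y p q ^ 2) := by linarith
  unfold QR
  rw [h1, h3]
  field_simp
  ring

theorem side_pos {f : ℝ → ℝ} {f' t : ℝ} (h : HasDerivAt f f' t) (hp : 0 < f') :
    (∀ᶠ s in 𝓝[>] t, f t ≤ f s) ∧ ∀ᶠ s in 𝓝[<] t, f s ≤ f t := by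
  obtain ⟨h1, h2⟩ := hasDerivAt_iff_tendsto_slope_left_right.1 h
  constructor
  · filter_upwards [h2.eventually (lt_mem_nhds hp), self_mem_nhdsWithin] with s hs hs'
    rw [slope_def_field] at hs
    have : 0 < s - t := sub_pos.2 hs'
    have := (div_pos_iff_of_pos_right this).1 hs
    linarith
  · filter_upwards [h1.eventually (lt_mem_nhds hp), self_mem_nhdsWithin] with s hs hs'
    rw [slope_def_field] at hs
    have h3 : s - t < 0 := sub_neg.2 hs'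
    by_contra hc
    have : (f s - f t) / (s - t) < 0 := div_neg_of_pos_of_neg (by linarith [not_le.1 hc]) h3
    linarith

theorem concl_cross (h : P.Eqs p q dp dq x ξ X Ξ a₂ a₃ t) (hx : x t ∈ Icc (0 : ℝ) 1)
    (hV : P.V1 (x t) p q = 0) (hξ : ξ t ≠ 0) : P.Concl p q dp dq x ξ X Ξ a₂ a₃ t := by
  have hd := dQ1 h hξ
  refine ⟨_, ?_, (LMo.of_hasDerivAt hd le_rfl).of_squeeze ?_ ?_ ?_, ?_⟩
  · have := P.kform_nonneg (x t) dp dq
    positivity
  · simp only [QR_top hx hV, hV]; simp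
  · rcases lt_or_gt_of_ne hξ with h1 | h1
    · have h2 := (side_pos h.1.neg (neg_pos.2 h1)).1
      filter_upwards [h2, nhdsWithin_le_nhds (h.2.1.continuousAt.eventually (gt_mem_nhds h1))]
        with s hs hs'
      obtain ⟨r, hr, e⟩ := QR_left (dp := dp) (dq := dq) hx hV
        (by simpa using hs : x s ≤ x t) hs'.ne (X s) (Ξ s) (a₂ s) (a₃ s)
      have := div_nonpos_of_nonneg_of_nonpos hr hs'.le
      simp only [e]; linarith
    · have h2 := (side_pos h.1 h1).1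
      filter_upwards [h2, nhdsWithin_le_nhds (h.2.1.continuousAt.eventually (lt_mem_nhds h1))]
        with s hs hs'
      obtain ⟨r, hr, e⟩ := QR_right (dp := dp) (dq := dq) hx hV hs hs'.ne' (X s) (Ξ s) (a₂ s) (a₃ s)
      have := div_nonneg hr hs'.le
      simp only [e]; linarith
  · rcases lt_or_gt_of_ne hξ with h1 | h1
    · have h2 := (side_pos h.1.neg (neg_pos.2 h1)).2
      filter_upwards [h2, nhdsWithin_le_nhds (h.2.1.continuousAt.eventually (gt_mem_nhds h1))]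
        with s hs hs'
      obtain ⟨r, hr, e⟩ := QR_right (dp := dp) (dq := dq) hx hV
        (by simpa using hs : x t ≤ x s) hs'.ne (X s) (Ξ s) (a₂ s) (a₃ s)
      have := div_nonpos_of_nonneg_of_nonpos hr hs'.le
      simp only [e]; linarith
    · have h2 := (side_pos h.1 h1).2
      filter_upwards [h2, nhdsWithin_le_nhds (h.2.1.continuousAt.eventually (lt_mem_nhds h1))]
        with s hs hs'
      obtain ⟨r, hr, e⟩ := QR_left (dp := dp) (dq := dq) hx hV hs hs'.ne' (X s) (Ξ s) (a₂ s) (a₃ s)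
      have := div_nonneg hr hs'.le
      simp only [e]; linarith
  · intro g1 _ _ g4
    have := pos_aux P (x t) (Ξ t) dp dq g4
    rw [g1]
    simpa using this

theorem concl_rest (h : ∀ᶠ s in 𝓝 t, P.Eqs p q dp dq x ξ X Ξ a₂ a₃ s) (hx : x t ∈ Icc (0 : ℝ) 1)
    (hV : P.V1 (x t) p q = 0) (hξ : ξ t = 0) : P.Concl p q dp dq x ξ X Ξ a₂ a₃ t := by
  have h0 := h.self_of_nhds
  have hv : ContDiffAt ℝ 1 (fun z : ℝ × ℝ => (z.2, - P.V1 z.1 p q)) (x t, 0) := by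
    have := P.contDiff_V1 p q
    exact (contDiff_snd.prodMk (this.comp contDiff_fst).neg).contDiffAt
  obtain ⟨L, S, hS, hL⟩ := hv.exists_lipschitzOnWith
  have hc : ContinuousAt (fun s => (x s, ξ s)) t := h0.1.continuousAt.prodMk h0.2.1.continuousAt
  have he : (fun s => (x s, ξ s)) =ᶠ[𝓝 t] fun _ => (x t, (0 : ℝ)) := by
    refine ODE_solution_unique_of_eventually (v := fun _ z => (z.2, - P.V1 z.1 p q))
      (s := fun _ => S) (Eventually.of_forall fun _ => hL) ?_ ?_ (by simp [hξ])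
    · have : S ∈ 𝓝 (x t, ξ t) := by rwa [hξ]
      filter_upwards [h, hc.eventually this] with s hs hs'
      exact ⟨hs.1.prodMk hs.2.1, hs'⟩
    · refine Eventually.of_forall fun s => ⟨?_, mem_of_mem_nhds hS⟩
      refine HasDerivAt.congr_deriv (hasDerivAt_const s (x t, (0 : ℝ))) ?_
      simp only [hV, neg_zero]
      rfl
  have hd := dQ0 h0
  have hV2 : P.V2 (x t) p q ≤ 0 := P.conc (x t) hx p q
  refine ⟨_, ?_, (LMo.of_hasDerivAt hd le_rfl).congr ?_, ?_⟩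
  · have := P.kform_nonneg (x t) dp dq
    nlinarith [sq_nonneg (Ξ t), mul_nonneg (neg_nonneg.2 hV2) (sq_nonneg (X t))]
  · filter_upwards [he] with s hs
    have : x s = x t := congrArg Prod.fst hs
    rw [this, QR_top hx hV]
  · intro g1 _ _ g4
    have := pos_aux P (x t) (Ξ t) dp dq g4
    rw [g1]
    simpa using this

end Prof

variable (P : Prof)

theorem lyap_real {p q dp dq : ℝ} {x ξ X Ξ a₂ a₃ : ℝ → ℝ} {t : ℝ}
    (h : ∀ᶠ s in 𝓝 t, HasDerivAt x (ξ s) s ∧ HasDerivAt ξ (- P.V1 (x s) p q) s ∧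
      HasDerivAt X (Ξ s) s ∧
      HasDerivAt Ξ (- P.V2 (x s) p q * X s - (deriv P.A (x s) * p * dp
        + deriv P.K (x s) * (p * dq + q * dp) + deriv P.C (x s) * q * dq)) s ∧
      HasDerivAt a₂ (P.A (x s) * dp + P.K (x s) * dq
        + (deriv P.A (x s) * p + deriv P.K (x s) * q) * X s) s ∧
      HasDerivAt a₃ (P.K (x s) * dp + P.C (x s) * dq
        + (deriv P.K (x s) * p + deriv P.C (x s) * q) * X s) s) :
    ∃ κ, 0 ≤ κ ∧ LMo (fun s => P.QR p q dp dq (x s) (ξ s) (X s) (Ξ s) (a₂ s) (a₃ s)) t κ ∧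
      (X t = 0 → a₂ t = 0 → a₃ t = 0 → ¬ (Ξ t = 0 ∧ dp = 0 ∧ dq = 0) → 0 < κ) := by
  have h0 : P.Eqs p q dp dq x ξ X Ξ a₂ a₃ t := h.self_of_nhds
  by_cases h1 : x t < 0
  · exact Prof.concl_La h0 h1
  by_cases h2 : 1 < x t
  · exact Prof.concl_Ra h0 h2
  have hx : x t ∈ Icc (0 : ℝ) 1 := ⟨not_lt.1 h1, not_lt.1 h2⟩
  rcases lt_trichotomy (P.V1 (x t) p q) 0 with h3 | h3 | h3
  · exact Prof.concl_Rb h0 hx h3
  · by_cases h4 : ξ t = 0
    · exact Prof.concl_rest h hx h3 h4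
    · exact Prof.concl_cross h0 hx h3 h4
  · exact Prof.concl_Lb h0 hx h3

end Vale.Agent.P255
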