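import Vale.Agent.P255.Base

open scoped ContDiff Manifold Topology
open Set Filter

noncomputable section

namespace Vale.Agent.P255

/-- variational equation -/
theorem variation {P X : Type} [NormedAddCommGroup P] [NormedSpace ℝ P]
    [NormedAddCommGroup X] [NormedSpace ℝ X] {Ψ : ℝ × P → X} {F : X → X} {t : ℝ} {v₀ : P}
    (hΨ : ContDiffAt ℝ 2 Ψ (t, v₀)) (hF : DifferentiableAt ℝ F (Ψ (t, v₀)))
    (hode : ∀ᶠ v in 𝓝 v₀, HasDerivAt (fun s => Ψ (s, v)) (F (Ψ (t, v))) t) (η : P) :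
    HasDerivAt (fun s => fderiv ℝ (fun v => Ψ (s, v)) v₀ η)
      (fderiv ℝ F (Ψ (t, v₀)) (fderiv ℝ (fun v => Ψ (t, v)) v₀ η)) t := by
  have hd : ∀ᶠ x in 𝓝 (t, v₀), DifferentiableAt ℝ Ψ x :=
    (hΨ.eventually (by simp)).mono fun x hx => hx.differentiableAt (by norm_num)
  have hD : HasFDerivAt (fderiv ℝ Ψ) (fderiv ℝ (fderiv ℝ Ψ) (t, v₀)) (t, v₀) :=
    ((hΨ.fderiv_right (m := 1) (by norm_num)).differentiableAt (by norm_num)).hasFDerivAt
  have hsym : fderiv ℝ (fderiv ℝ Ψ) (t, v₀) (1, 0) (0, η) =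
      fderiv ℝ (fderiv ℝ Ψ) (t, v₀) (0, η) (1, 0) :=
    hΨ.isSymmSndFDerivAt (by simp) _ _
  have hs : ∀ v : P, HasDerivAt (fun s : ℝ => (s, v)) ((1 : ℝ), (0 : P)) t := fun v =>
    (hasDerivAt_id t).prodMk (hasDerivAt_const t v)
  have hv : ∀ (s : ℝ) (v : P), HasFDerivAt (fun v : P => (s, v))
      (ContinuousLinearMap.inr ℝ ℝ P) v := fun s v => hasFDerivAt_prodMk_right s v
  have e1 : ∀ s, DifferentiableAt ℝ Ψ (s, v₀) → HasFDerivAt (fun v => Ψ (s, v))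
      ((fderiv ℝ Ψ (s, v₀)).comp (ContinuousLinearMap.inr ℝ ℝ P)) v₀ := fun s h =>
    HasFDerivAt.comp v₀ (g := Ψ) h.hasFDerivAt (hv s v₀)
  have d1 : HasDerivAt (fun s : ℝ => fderiv ℝ Ψ (s, v₀) (0, η))
      (fderiv ℝ (fderiv ℝ Ψ) (t, v₀) (1, 0) (0, η)) t := by
    have h1 := HasFDerivAt.comp_hasDerivAt (E := ℝ × P →L[ℝ] X) (l := fderiv ℝ Ψ) t hD (hs v₀)
    simpa using h1.clm_apply (hasDerivAt_const t ((0 : ℝ), η))
  have e2 : (fun v => fderiv ℝ Ψ (t, v) (1, 0)) =ᶠ[𝓝 v₀] fun v => F (Ψ (t, v)) := by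
    filter_upwards [hode, (hv t v₀).continuousAt.eventually hd] with v h1 h2
    exact (HasFDerivAt.comp_hasDerivAt (l := Ψ) t h2.hasFDerivAt (hs v)).unique h1
  have d2 := (HasFDerivAt.comp v₀ (g := fderiv ℝ Ψ) hD (hv t v₀)).clm_apply
    (hasFDerivAt_const ((1 : ℝ), (0 : P)) v₀)
  have d3 := HasFDerivAt.comp v₀ (g := F) hF.hasFDerivAt (e1 t hd.self_of_nhds)
  have e3 := congrArg (fun L => L η) ((d2.congr_of_eventuallyEq e2.symm).unique d3)
  rw [(e1 t hd.self_of_nhds).fderiv]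
  refine (d1.congr_deriv ?_).congr_of_eventuallyEq ?_
  · rw [hsym]
    simpa using e3
  · filter_upwards [(hs v₀).continuousAt.eventually hd] with s h
    rw [(e1 s h).fderiv]
    simp

theorem rauch_aux {n m q m' : ℝ → ℝ} (hn : ∀ t, HasDerivAt n (2 * m t) t)
    (hm : ∀ t, HasDerivAt m (m' t) t) (hq : ∀ t, q t ≤ m' t) (hcs : ∀ t, m t ^ 2 ≤ n t * q t)
    (h0 : ∀ t, 0 ≤ n t) (hq0 : ∀ t, 0 ≤ q t) {ε t : ℝ} (hε : 0 < ε) (ht : t < 1) :
    (1 - t) * m t ≤ √(n 1 + ε) * √(n t + ε) := by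
  have hp : ∀ s, 0 < n s + ε := fun s => by have := h0 s; linarith
  have hs : ∀ s, 0 < √(n s + ε) := fun s => Real.sqrt_pos.2 (hp s)
  have d1 : ∀ s, HasDerivAt (fun s => √(n s + ε)) (m s / √(n s + ε)) s := fun s => by
    refine (((hn s).add_const ε).sqrt (hp s).ne').congr_deriv ?_
    have := (hs s).ne'
    field_simp
  have d2 : ∀ s, HasDerivAt (fun s => m s / √(n s + ε))
      ((m' s * √(n s + ε) - m s * (m s / √(n s + ε))) / √(n s + ε) ^ 2) s := fun s =>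
    (hm s).fun_div (d1 s) (hs s).ne'
  have hmono : Monotone fun s => m s / √(n s + ε) := by
    refine monotone_of_deriv_nonneg (fun s => (d2 s).differentiableAt) fun s => ?_
    rw [(d2 s).deriv]
    refine div_nonneg ?_ (sq_nonneg _)
    rw [sub_nonneg, ← mul_div_assoc, div_le_iff₀ (hs s), mul_assoc,
      Real.mul_self_sqrt (hp s).le]
    have h1 := hcs s
    have h2 := hq s
    have h3 := hq0 s
    have h4 := h0 s
    nlinarith [mul_le_mul_of_nonneg_left h2 h4, mul_nonneg hε.le (h3.trans h2)]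
  obtain ⟨c, hc, hc'⟩ := exists_hasDerivAt_eq_slope (fun s => √(n s + ε)) _ ht
    (fun s _ => (d1 s).continuousAt.continuousWithinAt) (fun s _ => d1 s)
  have h1 : m t / √(n t + ε) ≤ m c / √(n c + ε) := hmono hc.1.le
  rw [hc', div_le_div_iff₀ (hs t) (by linarith)] at h1
  nlinarith [mul_pos (hs t) (hs t)]

/-- real-variable Rauch comparison -/
theorem rauch_real {n m q m' : ℝ → ℝ} (hn : ∀ t, HasDerivAt n (2 * m t) t)
    (hm : ∀ t, HasDerivAt m (m' t) t) (hq : ∀ t, q t ≤ m' t) (hcs : ∀ t, m t ^ 2 ≤ n t * q t)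
    (h0 : ∀ t, 0 ≤ n t) (hq0 : ∀ t, 0 ≤ q t) (hn0 : n 0 = 0) (hm0 : m 0 = 0) : q 0 ≤ n 1 := by
  set a := m' 0 with ha
  rcases le_or_gt a 0 with h | h
  · exact ((hq 0).trans h).trans (h0 1)
  have key : ∀ δ : ℝ, 0 < δ → δ < a → δ < 1 →
      ((1 - δ) * (a - δ)) ^ 2 ≤ (n 1 + δ) * (a + 2 * δ) := by
    intro δ hδ hδa hδ1
    have h1 := (hasDerivAt_iff_isLittleO_nhds_zero.1 (hm 0)).bound hδ
    obtain ⟨r, hr, hr'⟩ := Metric.eventually_nhds_iff.1 h1
    set t := min (r / 2) δ with ht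
    have ht0 : 0 < t := lt_min (by linarith) hδ
    have ht1 : t ≤ δ := min_le_right _ _
    have ht2 : t < r := (min_le_left _ _).trans_lt (by linarith)
    have h2 : ∀ s, 0 < s → s ≤ t → |m s - s * a| ≤ δ * s := fun s hs hst => by
      have := hr' (y := s) (by rw [dist_zero_right, Real.norm_eq_abs, abs_of_pos hs]; linarith)
      simpa [hm0, abs_of_pos hs] using this
    have h3 : n t ≤ (a + δ) * t ^ 2 := by
      have d1 : ∀ s, HasDerivAt (fun s => (a + δ) * s ^ 2 - n s)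
          ((a + δ) * (2 * s) - 2 * m s) s := fun s => by
        have := ((hasDerivAt_pow 2 s).const_mul (a + δ)).fun_sub (hn s)
        simpa using this
      obtain ⟨c, hc, hc'⟩ := exists_hasDerivAt_eq_slope (fun s => (a + δ) * s ^ 2 - n s) _ ht0
        (fun s _ => (d1 s).continuousAt.continuousWithinAt) (fun s _ => d1 s)
      have h4 := (abs_le.1 (h2 c hc.1 hc.2.le)).2
      have h5 : 0 ≤ (a + δ) * (2 * c) - 2 * m c := by linarith
      rw [hc', hn0, sub_zero t, le_div_iff₀ ht0] at h5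
      linarith
    have h4 := (abs_le.1 (h2 t ht0 le_rfl)).1
    have h5 := rauch_aux hn hm hq hcs h0 hq0 (ε := δ * t ^ 2) (t := t) (by positivity)
      (by linarith)
    have h6 : (1 - δ) * (a - δ) * t ≤ (1 - t) * m t := by
      rw [mul_assoc]
      exact mul_le_mul (by linarith) (by linarith) (by nlinarith) (by linarith)
    have h7 : 0 ≤ (1 - δ) * (a - δ) * t :=
      mul_nonneg (mul_nonneg (by linarith) (by linarith)) ht0.le
    have h8 := pow_le_pow_left₀ h7 (h6.trans h5) 2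
    have h9 : 0 ≤ δ * t ^ 2 := by positivity
    rw [mul_pow (√_), Real.sq_sqrt (by have := h0 1; linarith),
      Real.sq_sqrt (by have := h0 t; linarith)] at h8
    have h10 : (n 1 + δ * t ^ 2) * (n t + δ * t ^ 2) ≤ (n 1 + δ) * ((a + 2 * δ) * t ^ 2) := by
      have : t ^ 2 ≤ 1 := pow_le_one₀ ht0.le (by linarith)
      refine mul_le_mul (by nlinarith) (by linarith) (by have := h0 t; linarith)
        (by have := h0 1; linarith)
    have h11 : ((1 - δ) * (a - δ)) ^ 2 * t ^ 2 ≤ (n 1 + δ) * (a + 2 * δ) * t ^ 2 := by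
      rw [← mul_pow, mul_assoc (n 1 + δ)]
      exact h8.trans h10
    exact le_of_mul_le_mul_right h11 (by positivity)
  have c1 : Tendsto (fun δ : ℝ => ((1 - δ) * (a - δ)) ^ 2) (𝓝[>] 0)
      (𝓝 (((1 - 0) * (a - 0)) ^ 2)) :=
    (Continuous.tendsto (by fun_prop) 0).mono_left nhdsWithin_le_nhds
  have c2 : Tendsto (fun δ : ℝ => (n 1 + δ) * (a + 2 * δ)) (𝓝[>] 0)
      (𝓝 ((n 1 + 0) * (a + 2 * 0))) :=
    (Continuous.tendsto (by fun_prop) 0).mono_left nhdsWithin_le_nhds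
  have h1 := le_of_tendsto_of_tendsto c1 c2 (by
    filter_upwards [Ioo_mem_nhdsGT (lt_min h one_pos)] with δ hδ
    exact key δ hδ.1 (hδ.2.trans_le (min_le_left _ _)) (hδ.2.trans_le (min_le_right _ _)))
  have h2 : a ≤ n 1 := by nlinarith
  exact (hq 0).trans h2

theorem LMo.of_hasDerivAt {Q : ℝ → ℝ} {t κ κ' : ℝ} (h : HasDerivAt Q κ' t) (hκ : κ ≤ κ') :
    LMo Q t κ := by
  refine ⟨fun η hη => ?_, fun η hη => ?_⟩
  · have h1 := (hasDerivAt_iff_isLittleO.1 h).bound hη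
    filter_upwards [nhdsWithin_le_nhds h1, self_mem_nhdsWithin] with s hs hst
    have h2 : 0 < s - t := sub_pos.2 hst
    rw [Real.norm_eq_abs, Real.norm_eq_abs, abs_of_pos h2, smul_eq_mul] at hs
    have h3 := (abs_le.1 hs).1
    nlinarith [mul_le_mul_of_nonneg_left hκ h2.le]
  · exact nhdsWithin_le_nhds (h.continuousAt.eventually (eventually_le_nhds (by linarith)))

theorem LMo.congr {Q Q' : ℝ → ℝ} {t κ : ℝ} (h : LMo Q t κ) (he : Q =ᶠ[𝓝 t] Q') :
    LMo Q' t κ := by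
  have h0 := he.self_of_nhds
  refine ⟨fun η hη => ?_, fun η hη => ?_⟩
  · filter_upwards [h.1 η hη, nhdsWithin_le_nhds he] with s h1 h2
    rwa [← h0, ← h2]
  · filter_upwards [h.2 η hη, nhdsWithin_le_nhds he] with s h1 h2
    rwa [← h0, ← h2]

theorem LMo.of_squeeze {Q Q₁ : ℝ → ℝ} {t κ : ℝ} (h : LMo Q₁ t κ) (h0 : Q t = Q₁ t)
    (hr : ∀ᶠ s in 𝓝[>] t, Q₁ s ≤ Q s) (hl : ∀ᶠ s in 𝓝[<] t, Q s ≤ Q₁ s) : LMo Q t κ := by
  refine ⟨fun η hη => ?_, fun η hη => ?_⟩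
  · filter_upwards [h.1 η hη, hr] with s h1 h2
    rw [h0]
    exact h1.trans h2
  · filter_upwards [h.2 η hη, hl] with s h1 h2
    rw [h0]
    exact h2.trans h1

theorem le_of_LMo {Q : ℝ → ℝ} {a b : ℝ} (hab : a ≤ b)
    (h : ∀ t ∈ Icc a b, ∃ κ, 0 ≤ κ ∧ LMo Q t κ) : Q a ≤ Q b := by
  have key : ∀ η > 0, Q a - η * (b - a) ≤ Q b := by
    intro η hη
    set S : Set ℝ := {s | s ∈ Icc a b ∧ ∀ r ∈ Icc a s, Q a - η * (r - a) ≤ Q r} with hS
    have ha : a ∈ S := ⟨⟨le_rfl, hab⟩, fun r hr => by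
      rw [le_antisymm hr.2 hr.1]; simp⟩
    have hbd : BddAbove S := ⟨b, fun s hs => hs.1.2⟩
    set c := sSup S with hc
    have hac : a ≤ c := le_csSup hbd ha
    have hcb : c ≤ b := csSup_le ⟨a, ha⟩ fun s hs => hs.1.2
    have h1 : ∀ r, a ≤ r → r < c → Q a - η * (r - a) ≤ Q r := fun r h1 h2 => by
      obtain ⟨s, hs, hrs⟩ := exists_lt_of_lt_csSup ⟨a, ha⟩ h2
      exact hs.2 r ⟨h1, hrs.le⟩
    obtain ⟨κ, hκ, hL⟩ := h c ⟨hac, hcb⟩
    have h2 : Q a - η * (c - a) ≤ Q c := by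
      rcases hac.eq_or_lt with h3 | h3
      · rw [← h3]; simp
      · refine le_of_forall_pos_le_add fun ε hε => ?_
        obtain ⟨s, hs1, hs2⟩ := ((hL.2 ε hε).and (Ioo_mem_nhdsLT h3)).exists
        have := h1 s hs2.1.le hs2.2
        nlinarith [hs2.2]
    rcases hcb.eq_or_lt with h3 | h3
    · rwa [← h3]
    · exfalso
      obtain ⟨u, hu, hu'⟩ := (mem_nhdsGT_iff_exists_Ioc_subset).1 (hL.1 η hη)
      have h4 : c < min u b := lt_min hu h3
      have h5 : min u b ∈ S := by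
        refine ⟨⟨hac.trans h4.le, min_le_right _ _⟩, fun r hr => ?_⟩
        rcases lt_trichotomy r c with h6 | h6 | h6
        · exact h1 r hr.1 h6
        · rwa [h6]
        · have h7 : Q c + (κ - η) * (r - c) ≤ Q r := hu' ⟨h6, hr.2.trans (min_le_left _ _)⟩
          nlinarith [mul_nonneg hκ (sub_pos.2 h6).le]
      exact absurd (le_csSup hbd h5) (not_le.2 h4)
  refine le_of_forall_pos_le_add fun ε hε => ?_
  have h1 := key (ε / (b - a + 1)) (by have := sub_nonneg.2 hab; positivity)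
  have h2 : ε / (b - a + 1) * (b - a) ≤ ε := by
    rw [div_mul_eq_mul_div, div_le_iff₀ (by linarith)]
    nlinarith
  linarith

theorem lt_of_LMo {Q : ℝ → ℝ} {a b κ : ℝ} (hab : a < b)
    (h : ∀ t ∈ Icc a b, ∃ κ, 0 ≤ κ ∧ LMo Q t κ) (hκ : 0 < κ) (ha : LMo Q a κ) : Q a < Q b := by
  obtain ⟨s, hs1, hs2⟩ := ((ha.1 (κ / 2) (by linarith)).and (Ioo_mem_nhdsGT hab)).exists
  have h1 : Q s ≤ Q b := le_of_LMo hs2.2.le fun t ht => h t ⟨hs2.1.le.trans ht.1, ht.2⟩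
  nlinarith [mul_pos hκ (sub_pos.2 hs2.1)]

end Vale.Agent.P255
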