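import Vale.Agent.P255.Model
import Vale.Agent.P255.Real

open scoped ContDiff Manifold Topology
open Set Filter Real

noncomputable section

namespace Vale.Agent.P255

namespace Prof

variable (P : Prof)

theorem dA (x : ℝ) : HasDerivAt P.A (deriv P.A x) x :=
  ((contDiff_infty_iff_deriv.1 P.sA).1 x).hasDerivAt
theorem dK (x : ℝ) : HasDerivAt P.K (deriv P.K x) x :=
  ((contDiff_infty_iff_deriv.1 P.sK).1 x).hasDerivAt
theorem dC (x : ℝ) : HasDerivAt P.C (deriv P.C x) x :=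
  ((contDiff_infty_iff_deriv.1 P.sC).1 x).hasDerivAt
theorem ddA (x : ℝ) : HasDerivAt (deriv P.A) (deriv (deriv P.A) x) x :=
  ((contDiff_infty_iff_deriv.1 (contDiff_infty_iff_deriv.1 P.sA).2).1 x).hasDerivAt
theorem ddK (x : ℝ) : HasDerivAt (deriv P.K) (deriv (deriv P.K) x) x :=
  ((contDiff_infty_iff_deriv.1 (contDiff_infty_iff_deriv.1 P.sK).2).1 x).hasDerivAt
theorem ddC (x : ℝ) : HasDerivAt (deriv P.C) (deriv (deriv P.C) x) x :=
  ((contDiff_infty_iff_deriv.1 (contDiff_infty_iff_deriv.1 P.sC).2).1 x).hasDerivAt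

theorem dV1 (x p q : ℝ) : HasDerivAt (fun x => P.V1 x p q) (P.V2 x p q) x := by
  unfold V1 V2 qf
  have := ((((P.ddA x).mul_const (p ^ 2)).add ((((P.ddK x).const_mul 2).mul_const p).mul_const q)).add
    ((P.ddC x).mul_const (q ^ 2))).div_const 2
  exact this

theorem contDiff_V1 (p q : ℝ) : ContDiff ℝ 1 (fun x => P.V1 x p q) := by
  unfold V1 qf
  have hA : ContDiff ℝ 1 (deriv P.A) := (contDiff_infty_iff_deriv.1 P.sA).2.of_le (by simp)
  have hK : ContDiff ℝ 1 (deriv P.K) := (contDiff_infty_iff_deriv.1 P.sK).2.of_le (by simp)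
  have hC : ContDiff ℝ 1 (deriv P.C) := (contDiff_infty_iff_deriv.1 P.sC).2.of_le (by simp)
  fun_prop

theorem dmL (x p q : ℝ) :
    HasDerivAt (fun x => P.mL x p q) (deriv P.A x * p + deriv P.K x * q) x :=
  ((P.dA x).mul_const p).add ((P.dK x).mul_const q)

theorem dmR (x p q : ℝ) : HasDerivAt (fun x => P.mR x p q)
    ((deriv P.K x - deriv P.A x) * p + (deriv P.C x - deriv P.K x) * q) x :=
  (((P.dK x).sub (P.dA x)).mul_const p).add (((P.dC x).sub (P.dK x)).mul_const q)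

theorem kform_nonneg (x a b : ℝ) : 0 ≤ P.A x * a ^ 2 + 2 * P.K x * a * b + P.C x * b ^ 2 := by
  have h1 := P.posA x
  have h2 := P.posD x
  have : P.A x * (P.A x * a ^ 2 + 2 * P.K x * a * b + P.C x * b ^ 2)
      = (P.A x * a + P.K x * b) ^ 2 + (P.A x * P.C x - P.K x ^ 2) * b ^ 2 := by ring
  have h3 : 0 ≤ P.A x * (P.A x * a ^ 2 + 2 * P.K x * a * b + P.C x * b ^ 2) := by
    rw [this]; positivity
  exact nonneg_of_mul_nonneg_right h3 h1 |> fun h => by
    by_contra hc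
    push Not at hc
    nlinarith

theorem kform_pos (x a b : ℝ) (h : ¬ (a = 0 ∧ b = 0)) :
    0 < P.A x * a ^ 2 + 2 * P.K x * a * b + P.C x * b ^ 2 := by
  have h1 := P.posA x
  have h2 := P.posD x
  have e : P.A x * (P.A x * a ^ 2 + 2 * P.K x * a * b + P.C x * b ^ 2)
      = (P.A x * a + P.K x * b) ^ 2 + (P.A x * P.C x - P.K x ^ 2) * b ^ 2 := by ring
  have h3 : 0 < P.A x * (P.A x * a ^ 2 + 2 * P.K x * a * b + P.C x * b ^ 2) := by
    rw [e]
    by_cases hb : b = 0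
    · have ha : a ≠ 0 := fun ha => h ⟨ha, hb⟩
      rw [hb]
      have : 0 < (P.A x * a) ^ 2 := by positivity
      simpa using this
    · have : 0 < (P.A x * P.C x - P.K x ^ 2) * b ^ 2 := by positivity
      positivity
  exact (mul_pos_iff_of_pos_left h1).1 h3

theorem V1_left {x : ℝ} (hx : x ≤ 0) (p q : ℝ) : P.V1 x p q = deriv P.A x * p ^ 2 / 2 := by
  obtain ⟨-, -, h1, h2, -⟩ := P.left x hx
  simp [V1, qf, h1, h2]

theorem V1_right {x : ℝ} (hx : 1 ≤ x) (p q : ℝ) : P.V1 x p q = deriv P.C x * q ^ 2 / 2 := by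
  obtain ⟨-, -, h1, h2, -⟩ := P.right x hx
  simp [V1, qf, h1, h2]

theorem V1_nonneg {x : ℝ} (hx : x ≤ 0) (p q : ℝ) : 0 ≤ P.V1 x p q := by
  rw [P.V1_left hx]; have := P.monoA x; positivity

theorem V1_nonpos {x : ℝ} (hx : 1 ≤ x) (p q : ℝ) : P.V1 x p q ≤ 0 := by
  rw [P.V1_right hx]; have := P.monoC x; nlinarith [sq_nonneg q]

theorem mL_left {x : ℝ} (hx : x ≤ 0) (p q : ℝ) : P.mL x p q = P.A x * p := by
  simp [mL, (P.left x hx).1]

theorem mR_right {x : ℝ} (hx : 1 ≤ x) (p q : ℝ) : P.mR x p q = (P.C x - P.D) * q := by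
  obtain ⟨h1, h2, -⟩ := P.right x hx
  simp [mR, h1, h2]

theorem CD_pos {x : ℝ} (hx : 1 ≤ x) : 0 < P.C x - P.D := by
  obtain ⟨h1, h2, -⟩ := P.right x hx
  have h3 := P.posA x
  have h4 := P.posD x
  rw [h1] at h3
  rw [h1, h2] at h4
  have : P.D * (P.C x - P.D) = P.D * P.C x - P.D ^ 2 := by ring
  exact (mul_pos_iff_of_pos_left h3).1 (this ▸ h4)

theorem V1_anti (p q : ℝ) : AntitoneOn (fun x => P.V1 x p q) (Icc 0 1) := by
  refine antitoneOn_of_deriv_nonpos (convex_Icc 0 1) ?_ ?_ ?_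
  · exact fun x _ => (P.dV1 x p q).continuousAt.continuousWithinAt
  · exact fun x _ => (P.dV1 x p q).differentiableAt.differentiableWithinAt
  · intro x hx
    rw [(P.dV1 x p q).deriv]
    exact P.conc x (interior_subset hx) p q

theorem mL_ne {x : ℝ} (hx : x ∈ Icc (0 : ℝ) 1) {p q : ℝ} (h : 0 < P.V1 x p q) :
    P.mL x p q ≠ 0 := by
  intro h0
  have := P.ineqL x hx p q h
  have e : P.A x * p + P.K x * q = 0 := h0
  rw [e] at this
  have h1 := P.posA x
  have h2 : 0 < P.A x * P.V1 x p q ^ 2 := by positivity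
  unfold V1 at h2
  linarith

theorem kR_pos (x : ℝ) : 0 < P.A x - 2 * P.K x + P.C x := by
  have := P.kform_pos x 1 (-1) (by simp)
  linarith

theorem mR_ne {x : ℝ} (hx : x ∈ Icc (0 : ℝ) 1) {p q : ℝ} (h : P.V1 x p q < 0) :
    P.mR x p q ≠ 0 := by
  intro h0
  have := P.ineqR x hx p q h
  have e : (P.K x - P.A x) * p + (P.C x - P.K x) * q = 0 := h0
  rw [e] at this
  have h1 := P.kR_pos x
  have h2 : 0 < (P.A x - 2 * P.K x + P.C x) * P.V1 x p q ^ 2 := mul_pos h1 (pow_pos' h.ne)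
  unfold V1 at h2
  linarith
where pow_pos' {a : ℝ} (h : a ≠ 0) : 0 < a ^ 2 := by positivity

theorem fL_nonneg (x p q : ℝ) : 0 ≤ P.fL x p q := by
  unfold fL
  split_ifs
  · have := P.monoA x; positivity
  · have : 0 ≤ max (P.V1 x p q) 0 := le_max_right _ _
    positivity

theorem fR_nonneg (x p q : ℝ) : 0 ≤ P.fR x p q := by
  unfold fR
  split_ifs
  · have := P.monoC x
    exact div_nonneg (by linarith) (by positivity)
  · have : 0 ≤ max (-P.V1 x p q) 0 := le_max_right _ _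
    positivity

/-- to the left of the top of the potential -/
theorem left_type {x p q : ℝ} (hx : x ≤ 1) (h : 0 ≤ P.V1 x p q) :
    P.fR x p q = 0 ∧ P.fL x p q * P.mL x p q ^ 2 = P.V1 x p q := by
  constructor
  · unfold fR
    rw [if_neg (not_lt.2 hx), max_eq_right (by linarith), zero_div]
  · unfold fL
    split_ifs with h0
    · rw [P.V1_left h0.le, P.mL_left h0.le]
      have := (P.posA x).ne'
      field_simp
    · rw [max_eq_left h]
      rcases h.eq_or_lt with h1 | h1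
      · rw [← h1]; simp
      · have := P.mL_ne ⟨not_lt.1 h0, hx⟩ h1
        field_simp

theorem right_type {x p q : ℝ} (hx : 0 ≤ x) (h : P.V1 x p q ≤ 0) :
    P.fL x p q = 0 ∧ P.fR x p q * P.mR x p q ^ 2 = - P.V1 x p q := by
  constructor
  · unfold fL
    rw [if_neg (not_lt.2 hx), max_eq_right h, zero_div]
  · unfold fR
    split_ifs with h0
    · rw [P.V1_right h0.le, P.mR_right h0.le]
      have := (P.CD_pos h0.le).ne'
      field_simp
    · rw [max_eq_left (by linarith)]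
      rcases h.eq_or_lt with h1 | h1
      · rw [h1]; simp
      · have := P.mR_ne ⟨hx, not_lt.1 h0⟩ h1
        field_simp

/-- the equations of motion at one time -/
def Eqs (p q dp dq : ℝ) (x ξ X Ξ a₂ a₃ : ℝ → ℝ) (s : ℝ) : Prop :=
  HasDerivAt x (ξ s) s ∧ HasDerivAt ξ (- P.V1 (x s) p q) s ∧
      HasDerivAt X (Ξ s) s ∧
      HasDerivAt Ξ (- P.V2 (x s) p q * X s - (deriv P.A (x s) * p * dp
        + deriv P.K (x s) * (p * dq + q * dp) + deriv P.C (x s) * q * dq)) s ∧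
      HasDerivAt a₂ (P.A (x s) * dp + P.K (x s) * dq
        + (deriv P.A (x s) * p + deriv P.K (x s) * q) * X s) s ∧
      HasDerivAt a₃ (P.K (x s) * dp + P.C (x s) * dq
        + (deriv P.K (x s) * p + deriv P.C (x s) * q) * X s) s

variable {P} {p q dp dq : ℝ} {x ξ X Ξ a₂ a₃ : ℝ → ℝ} {t : ℝ}

theorem dQ0 (h : P.Eqs p q dp dq x ξ X Ξ a₂ a₃ t) :
    HasDerivAt (fun s => X s * Ξ s + a₂ s * dp + a₃ s * dq)
      (Ξ t ^ 2 - P.V2 (x t) p q * X t ^ 2
        + (P.A (x t) * dp ^ 2 + 2 * P.K (x t) * dp * dq + P.C (x t) * dq ^ 2)) t := by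
  obtain ⟨-, -, h3, h4, h5, h6⟩ := h
  have := ((h3.mul h4).add (h5.mul_const dp)).add (h6.mul_const dq)
  refine HasDerivAt.congr_deriv this ?_
  ring

theorem dQ1 (h : P.Eqs p q dp dq x ξ X Ξ a₂ a₃ t) (hξ : ξ t ≠ 0) :
    HasDerivAt (fun s => X s * Ξ s + a₂ s * dp + a₃ s * dq + P.V1 (x s) p q * X s ^ 2 / ξ s)
      ((Ξ t + P.V1 (x t) p q * X t / ξ t) ^ 2
        + (P.A (x t) * dp ^ 2 + 2 * P.K (x t) * dp * dq + P.C (x t) * dq ^ 2)) t := by
  have h0 := dQ0 h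
  obtain ⟨h1, h2, h3, -⟩ := h
  have hV := (P.dV1 (x t) p q).comp t h1
  have := h0.add ((hV.mul (h3.pow 2)).div h2 hξ)
  refine HasDerivAt.congr_deriv this ?_
  simp only [Function.comp, Pi.mul_apply, Pi.pow_apply]
  field_simp
  ring

/-- derivative of the rank one correction in the direction `(e₁, e₂)` -/
theorem dQl (h : P.Eqs p q dp dq x ξ X Ξ a₂ a₃ t) (e₁ e₂ : ℝ) {l m : ℝ → ℝ} {l' m' : ℝ}
    (hl : HasDerivAt l l' (x t)) (hm : HasDerivAt m m' (x t))
    (hm' : m' = e₁ * (deriv P.A (x t) * p + deriv P.K (x t) * q)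
      + e₂ * (deriv P.K (x t) * p + deriv P.C (x t) * q))
    (h1 : l (x t) * m (x t) ^ 2 = P.V1 (x t) p q)
    (h2 : l' * m (x t) ^ 2 + 2 * l (x t) * m (x t) * m' = P.V2 (x t) p q) :
    HasDerivAt (fun s => X s * Ξ s + a₂ s * dp + a₃ s * dq
        - ξ s * (l (x s) * (e₁ * a₂ s + e₂ * a₃ s) ^ 2)
        + 2 * (l (x s) * m (x s) * (e₁ * a₂ s + e₂ * a₃ s)) * X s)
      ((Ξ t + l (x t) * m (x t) * (e₁ * a₂ t + e₂ * a₃ t)) ^ 2
        + (P.A (x t) * (dp - l (x t) * (ξ t * (e₁ * a₂ t + e₂ * a₃ t) - m (x t) * X t) * e₁) ^ 2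
          + 2 * P.K (x t) * (dp - l (x t) * (ξ t * (e₁ * a₂ t + e₂ * a₃ t) - m (x t) * X t) * e₁)
            * (dq - l (x t) * (ξ t * (e₁ * a₂ t + e₂ * a₃ t) - m (x t) * X t) * e₂)
          + P.C (x t) * (dq - l (x t) * (ξ t * (e₁ * a₂ t + e₂ * a₃ t) - m (x t) * X t) * e₂) ^ 2)
        - (l' + (P.A (x t) * e₁ ^ 2 + 2 * P.K (x t) * e₁ * e₂ + P.C (x t) * e₂ ^ 2) * l (x t) ^ 2)
          * (ξ t * (e₁ * a₂ t + e₂ * a₃ t) - m (x t) * X t) ^ 2) t := by
  have h0 := dQ0 h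
  obtain ⟨g1, g2, g3, -, g5, g6⟩ := h
  have hlx := hl.comp t g1
  have hmx := hm.comp t g1
  have ha := (g5.const_mul e₁).add (g6.const_mul e₂)
  have := (h0.sub (g2.mul (hlx.mul (ha.pow 2)))).add
    ((((hlx.mul hmx).mul ha).const_mul 2).mul g3)
  refine HasDerivAt.congr_deriv this ?_
  simp only [Function.comp, Pi.mul_apply, Pi.pow_apply, Pi.add_apply]
  rw [← h1, ← h2, hm']
  push_cast
  ring

end Prof

end Vale.Agent.P255
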