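import Vale.Agent.P255.Jac
import Vale.Agent.P255.Real

open scoped ContDiff Manifold Topology
open Set Filter

noncomputable section

namespace Vale.Agent.P255

variable {E : Type} [NormedAddCommGroup E] [NormedSpace ℝ E] [FiniteDimensional ℝ E]
variable {M : Type} [TopologicalSpace M] [ChartedSpace E M] [IsManifold 𝓘(ℝ, E) ∞ M]

/-- Lyapunov principle -/
theorem noConj_of_lyap (g : RMetric E M) (Q : OpenPartialHomeomorph M E → E × E → E × E → ℝ)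
    (hinv : ∀ e ∈ atlas E M, ∀ e' ∈ atlas E M, ∀ z δ : E × E,
      z.1 ∈ e.target ∩ e.symm ⁻¹' e'.source →
      Q e' (tmap (e' ∘ e.symm) z) (fderiv ℝ (tmap (e' ∘ e.symm)) z δ) = Q e z δ)
    (hzero : ∀ e ∈ atlas E M, ∀ z : E × E, z.1 ∈ e.target → ∀ b : E, Q e z (0, b) = 0)
    (hmono : ∀ e ∈ atlas E M, ∀ (z δ : ℝ → E × E) (t : ℝ), (z t).1 ∈ e.target →
      (∀ᶠ s in 𝓝 t, Sol (loc g.inner e) z δ s) →
      ∃ κ, 0 ≤ κ ∧ LMo (fun s => Q e (z s) (δ s)) t κ ∧ ((δ t).1 = 0 → (δ t).2 ≠ 0 → 0 < κ)) :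
    NoConj g := by
  intro a b γ J hγ hJ
  set Qh : ℝ → ℝ := fun t => Q (chartAt E (γ t)) (zc (chartAt E (γ t)) γ t)
    (dc (chartAt E (γ t)) γ J t) with hQh
  have hl : ∀ t ∈ Ioo a b, ∃ κ, 0 ≤ κ ∧ LMo Qh t κ ∧
      ((dc (chartAt E (γ t)) γ J t).1 = 0 → (dc (chartAt E (γ t)) γ J t).2 ≠ 0 → 0 < κ) := by
    intro t ht
    have he := chart_mem_atlas E (γ t)
    have hs := jac_sol hγ hJ ht he (mem_chart_source E _)
    obtain ⟨κ, h0, h1, h2⟩ := hmono _ he (zc (chartAt E (γ t)) γ) (dc (chartAt E (γ t)) γ J) t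
      (mem_chart_target E _) (hs.mono fun s hs => hs.2)
    refine ⟨κ, h0, h1.congr ?_, h2⟩
    filter_upwards [hs, isOpen_Ioo.mem_nhds ht] with s h3 h4
    obtain ⟨e1, e2⟩ := jac_trans hγ hJ h4 he (chart_mem_atlas E (γ s)) h3.1 (mem_chart_source E _)
    simp only [hQh]
    rw [e1, e2]
    refine (hinv _ he _ (chart_mem_atlas E (γ s)) _ _ ⟨(chartAt E (γ t)).map_source h3.1, ?_⟩).symm
    show (chartAt E (γ t)).symm (chartAt E (γ t) (γ s)) ∈ (chartAt E (γ s)).source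
    rw [(chartAt E (γ t)).left_inv h3.1]
    exact mem_chart_source E _
  have h1 : ∀ t, J t = 0 → (dc (chartAt E (γ t)) γ J t).1 = 0 := by
    intro t ht
    simp only [dc, ht, map_zero]
  have hz : ∀ t, J t = 0 → Qh t = 0 := by
    intro t ht
    have e : dc (chartAt E (γ t)) γ J t = (0, (dc (chartAt E (γ t)) γ J t).2) :=
      Prod.ext (h1 t ht) rfl
    simp only [hQh]
    rw [e]
    exact hzero _ (chart_mem_atlas E _) _ (mem_chart_target E _) _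
  have main : ∀ t₀ ∈ Ioo a b, ∀ t₁ ∈ Ioo a b, t₀ < t₁ → J t₀ = 0 → J t₁ = 0 →
      ∀ t ∈ Ioo a b, J t = 0 := by
    intro t₀ h₀ t₁ h₁ hlt j₀ j₁
    by_cases hd : (dc (chartAt E (γ t₀)) γ J t₀).2 = 0
    · exact jac_zero hγ hJ h₀ (chart_mem_atlas E _) (mem_chart_source E _)
        (Prod.ext (h1 _ j₀) hd)
    · obtain ⟨κ, -, k1, k2⟩ := hl t₀ h₀
      have := lt_of_LMo hlt (fun t ht => (hl t ⟨h₀.1.trans_le ht.1, ht.2.trans_lt h₁.2⟩).imp
        fun κ hκ => ⟨hκ.1, hκ.2.1⟩) (k2 (h1 _ j₀) hd) k1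
      rw [hz _ j₀, hz _ j₁] at this
      exact absurd this (lt_irrefl _)
  intro t₀ h₀ t₁ h₁ hne j₀ j₁
  rcases hne.lt_or_gt with h | h
  · exact main t₀ h₀ t₁ h₁ h j₀ j₁
  · exact main t₁ h₁ t₀ h₀ h j₁ j₀

end Vale.Agent.P255
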