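import Vale.Agent.P255.Loc
import Vale.Agent.P255.CovTop

open scoped ContDiff Manifold Topology
open Set Filter

noncomputable section

namespace Vale.Agent.P255

variable {E : Type} [NormedAddCommGroup E] [NormedSpace ℝ E] [FiniteDimensional ℝ E]
variable {M : Type} [TopologicalSpace M] [T2Space M] [CompactSpace M]

/-- deck transformations attain their minimal displacement -/
theorem exists_min {P : E → M} (hP : IsCoveringMap P) {d : E → E → ℝ} (hd : CatD d)
    (hinv : ∀ T ∈ Deck P, ∀ x y, d (T x) (T y) = d x y) (hc : ∀ x, Continuous (d x))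
    {κ : ℝ} (hκ : 0 < κ) (hpr : ∀ y, κ * ‖y‖ ≤ d 0 y) {T : Equiv.Perm E} (hT : T ∈ Deck P) :
    ∃ x, ∀ y, d x (T x) ≤ d y (T y) := by
  have nn : ∀ x y, 0 ≤ d x y := fun x y => by
    have := hd.tri x y x
    rw [hd.self, hd.symm y x] at this
    linarith
  have hopen : IsOpenMap P := hP.isLocalHomeomorph.isOpenMap
  obtain ⟨r, hr⟩ : ∃ r : ℕ, range P ⊆ P '' Metric.ball 0 r := by
    refine (isClosed_range_of_cov hP).isCompact.elim_directed_cover
      (fun n : ℕ => P '' Metric.ball 0 n) (fun n => hopen _ Metric.isOpen_ball) ?_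
      (directed_of_isDirected_le fun m n h => image_mono (Metric.ball_subset_ball (by exact_mod_cast h)))
    rintro _ ⟨x, rfl⟩
    obtain ⟨n, hn⟩ := exists_nat_gt ‖x‖
    exact mem_iUnion.2 ⟨n, x, mem_ball_zero_iff.2 hn, rfl⟩
  have hγ : ∀ x, ∃ γ ∈ Deck P, ‖γ x‖ ≤ r := fun x => by
    obtain ⟨k, hk, e⟩ := hr ⟨x, rfl⟩
    obtain ⟨γ, h1, h2⟩ := deck_exists hP e.symm
    exact ⟨γ, h1, h2 ▸ (mem_ball_zero_iff.1 hk).le⟩
  choose γ g1 g2 using hγ
  have hb : BddBelow (range fun x => d x (T x)) := ⟨0, by rintro _ ⟨x, rfl⟩; exact nn _ _⟩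
  obtain ⟨u, -, hu, hu'⟩ := exists_seq_tendsto_sInf (range_nonempty _) hb
  choose x hx using hu'
  obtain ⟨C, hC⟩ := (isCompact_closedBall (0 : E) r).bddAbove_image (hc 0).continuousOn
  obtain ⟨C', hC'⟩ := hu.bddAbove_range
  have hbd : ∀ n, (γ (x n) (x n), γ (x n) (T (x n))) ∈
      Metric.closedBall (0 : E) r ×ˢ Metric.closedBall (0 : E) ((C + C') / κ) := by
    intro n
    have h1 : γ (x n) (x n) ∈ Metric.closedBall (0 : E) r := mem_closedBall_zero_iff.2 (g2 _)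
    refine ⟨h1, mem_closedBall_zero_iff.2 ?_⟩
    rw [le_div_iff₀ hκ, mul_comm]
    refine (hpr _).trans ((hd.tri _ (γ (x n) (x n)) _).trans (add_le_add (hC ⟨_, h1, rfl⟩) ?_))
    rw [hinv _ (g1 _)]
    exact (hx n).le.trans (hC' ⟨n, rfl⟩)
  obtain ⟨⟨k, y⟩, -, φ, hφ, hl⟩ :=
    ((isCompact_closedBall _ _).prod (isCompact_closedBall _ _)).tendsto_subseq hbd
  have l1 : Tendsto (fun n => γ (x (φ n)) (x (φ n))) atTop (𝓝 k) :=
    (continuous_fst.tendsto _).comp hl
  have l2 : Tendsto (fun n => γ (x (φ n)) (T (x (φ n)))) atTop (𝓝 y) :=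
    (continuous_snd.tendsto _).comp hl
  have e0 : ∀ z, P (γ z z) = P (γ z (T z)) := fun z => by rw [(g1 z).2.2, (g1 z).2.2, hT.2.2]
  have e1 : P k = P y := by
    refine tendsto_nhds_unique ((hP.continuous.tendsto k).comp l1) ?_
    have := (hP.continuous.tendsto y).comp l2
    simpa only [Function.comp_def, e0] using this
  obtain ⟨S, hS, hSk⟩ := deck_exists hP e1
  obtain ⟨U, hU, hyU, hinj⟩ := hP.isLocalHomeomorph.isLocallyInjective y
  have l3 : Tendsto (fun n => S (γ (x (φ n)) (x (φ n)))) atTop (𝓝 y) :=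
    hSk ▸ (hS.1.tendsto k).comp l1
  obtain ⟨n, n1, n2⟩ := ((l2.eventually (hU.mem_nhds hyU)).and
    (l3.eventually (hU.mem_nhds hyU))).exists
  have e2 : S = γ (x (φ n)) * T * (γ (x (φ n)))⁻¹ := by
    refine deck_ext hP hS (mul_mem (mul_mem (g1 _) hT) (inv_mem (g1 _)))
      (x := γ (x (φ n)) (x (φ n))) ?_
    rw [hinj n2 n1 (by rw [hS.2.2, e0])]
    simp
  have e3 : d k y ≤ sInf (range fun x => d x (T x)) := by
    have t1 := ((hc k).tendsto k).comp l1
    have t2 := ((hc y).tendsto y).comp l2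
    have t3 := (t1.add (hu.comp hφ.tendsto_atTop)).add t2
    rw [hd.self, hd.self, zero_add, add_zero] at t3
    refine ge_of_tendsto' t3 fun m => ?_
    have a1 := hd.tri k (γ (x (φ m)) (x (φ m))) y
    have a2 := hd.tri (γ (x (φ m)) (x (φ m))) (γ (x (φ m)) (T (x (φ m)))) y
    rw [hinv _ (g1 _), hd.symm (γ (x (φ m)) (T (x (φ m)))) y] at a2
    have a3 := hx (φ m)
    simp only [Function.comp] at a3 ⊢
    linarith
  refine ⟨(γ (x (φ n)))⁻¹ k, fun z => le_trans ?_ (e3.trans (csInf_le hb ⟨z, rfl⟩))⟩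
  rw [← hinv _ (g1 (x (φ n))), ← hSk, e2]
  simp

end Vale.Agent.P255
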