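import Vale.Agent.P255.ProfA
import Vale.Agent.P255.Ineq

open scoped ContDiff Manifold Topology
open Set Filter Real

noncomputable section

namespace Vale.Agent.P255

/-- primitive of the logistic bump -/
def bumpI (x : ℝ) : ℝ := ∫ t in (0 : ℝ)..x, smoothTransition t * (1 - smoothTransition t)

theorem bump_contDiff : ContDiff ℝ ∞ (fun t => smoothTransition t * (1 - smoothTransition t)) :=
  smoothTransition.contDiff.mul (contDiff_const.sub smoothTransition.contDiff)

theorem bump_nonneg (t : ℝ) : 0 ≤ smoothTransition t * (1 - smoothTransition t) :=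
  mul_nonneg (smoothTransition.nonneg t) (sub_nonneg.2 (smoothTransition.le_one t))

theorem bumpI_hasDerivAt (x : ℝ) :
    HasDerivAt bumpI (smoothTransition x * (1 - smoothTransition x)) x :=
  (bump_contDiff.continuous.integral_hasStrictDerivAt 0 x).hasDerivAt

theorem bumpI_contDiff : ContDiff ℝ ∞ bumpI := by
  have h : deriv bumpI = fun t => smoothTransition t * (1 - smoothTransition t) :=
    funext fun x => (bumpI_hasDerivAt x).deriv
  rw [contDiff_infty_iff_deriv, h]
  exact ⟨fun x => (bumpI_hasDerivAt x).differentiableAt, bump_contDiff⟩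

theorem bumpI_zero : bumpI 0 = 0 := by simp [bumpI]

theorem eq_of_hasDerivAt_zero {f f' : ℝ → ℝ} {a b : ℝ} (hab : a ≤ b)
    (hf : ∀ x, HasDerivAt f (f' x) x) (h0 : ∀ x ∈ Icc a b, f' x = 0) : f a = f b := by
  have h1 := le_of_hasDerivAt_nonneg hab (fun x _ => hf x) (fun x hx => (h0 x hx).ge)
  have h2 := le_of_hasDerivAt_nonneg (f := fun y => -f y) (f' := fun y => -f' y) hab
    (fun x _ => (hf x).neg) (fun x hx => by rw [h0 x hx]; simp)
  linarith

theorem bumpI_of_nonpos {x : ℝ} (hx : x ≤ 0) : bumpI x = 0 := by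
  rw [← bumpI_zero]
  refine eq_of_hasDerivAt_zero hx bumpI_hasDerivAt fun y hy => ?_
  rw [smoothTransition.zero_of_nonpos hy.2]; ring

theorem bumpI_of_one_le {x : ℝ} (hx : 1 ≤ x) : bumpI x = bumpI 1 := by
  refine (eq_of_hasDerivAt_zero hx bumpI_hasDerivAt fun y hy => ?_).symm
  rw [smoothTransition.one_of_one_le hy.1]; ring

theorem bumpI_mono {x y : ℝ} (h : x ≤ y) : bumpI x ≤ bumpI y :=
  le_of_hasDerivAt_nonneg h (fun z _ => bumpI_hasDerivAt z) (fun z _ => bump_nonneg z)

theorem bumpI_sub_le {x y : ℝ} (h : x ≤ y) :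
    bumpI y - bumpI x ≤ smoothTransition y - smoothTransition x := by
  have h1 := le_of_hasDerivAt_nonneg (f := fun z => smoothTransition z - bumpI z)
    (f' := fun z => deriv smoothTransition z - smoothTransition z * (1 - smoothTransition z)) h
    (fun z _ => (sT_hasDerivAt' z).sub (bumpI_hasDerivAt z))
    (fun z _ => by nlinarith [sT_deriv z, bump_nonneg z])
  linarith

theorem bumpI_one_pos : 0 < bumpI 1 := by
  refine intervalIntegral.intervalIntegral_pos_of_pos_on
    (bump_contDiff.continuous.intervalIntegrable 0 1) (fun x hx => ?_) zero_lt_one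
  exact mul_pos (smoothTransition.pos_of_pos hx.1)
    (sub_pos.2 (smoothTransition.lt_one_of_lt_one hx.2))

theorem bumpI_one_le : bumpI 1 ≤ 1 := by
  have h := bumpI_sub_le (zero_le_one (α := ℝ))
  rw [bumpI_zero, smoothTransition.one, smoothTransition.zero] at h
  linarith

theorem sT_deriv_symm (x : ℝ) : deriv smoothTransition (1 - x) = deriv smoothTransition x := by
  rw [sT_deriv_eq, sT_deriv_eq, sT_symm, sub_sub_cancel, sub_sub_cancel]
  ring

theorem contDiff_hasDerivAt {F : ℝ → ℝ} (hF : ContDiff ℝ ∞ F) (x : ℝ) :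
    HasDerivAt F (deriv F x) x :=
  (hF.differentiable (by simp) x).hasDerivAt

theorem deriv_refl {F : ℝ → ℝ} (hF : ContDiff ℝ ∞ F) (D : ℝ) :
    deriv (fun x => D + F (1 - x)) = fun x => -deriv F (1 - x) := by
  funext x
  have h := ((contDiff_hasDerivAt hF (1 - x)).comp x ((hasDerivAt_id' x).const_sub 1)).const_add D
  exact (HasDerivAt.congr_deriv h (by ring)).deriv

theorem deriv_deriv_refl {F : ℝ → ℝ} (hF : ContDiff ℝ ∞ F) (D x : ℝ) :
    deriv (deriv (fun x => D + F (1 - x))) x = deriv (deriv F) (1 - x) := by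
  rw [deriv_refl hF]
  have hF' : ContDiff ℝ ∞ (deriv F) := (contDiff_infty_iff_deriv.1 hF).2
  have h := ((contDiff_hasDerivAt hF' (1 - x)).comp x ((hasDerivAt_id' x).const_sub 1)).neg
  exact (HasDerivAt.congr_deriv h (by ring)).deriv

theorem deriv_mul_bumpI (ν : ℝ) : deriv (fun x => ν * bumpI x)
    = fun x => ν * smoothTransition x * (1 - smoothTransition x) := by
  funext x
  exact (HasDerivAt.congr_deriv ((bumpI_hasDerivAt x).const_mul ν) (by ring)).deriv

theorem deriv_deriv_mul_bumpI (ν x : ℝ) : deriv (deriv (fun x => ν * bumpI x)) x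
    = ν * deriv smoothTransition x * (1 - 2 * smoothTransition x) := by
  rw [deriv_mul_bumpI]
  have h := ((sT_hasDerivAt' x).const_mul ν).mul ((sT_hasDerivAt' x).const_sub 1)
  exact (HasDerivAt.congr_deriv h (by ring)).deriv

theorem prof_consts {I D : ℝ} (hI : 0 < I) (hI1 : I ≤ 1) (hD0 : 0 < D)
    (hD : D ≤ 1 / (320000 / I ^ 2) ^ 2 + 1 / (320000 / I ^ 2 + 1) ^ 3) :
    (D / I) ^ 2 ≤ 1 / (320000 / I ^ 2 + 1) ^ 3 / 10000 ∧
      D ^ 2 < 1 / (320000 / I ^ 2 + 1) ^ 2 * (1 / 9) ∧ D ≤ 1 / 2 ∧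
      1 / (320000 / I ^ 2 + 1) ^ 3 ≤ 1 / 10000 ∧
      1 / (320000 / I ^ 2 + 1) ^ 3 ≤ 1 / (320000 / I ^ 2 + 1) ^ 2 := by
  set R := 320000 / I ^ 2 with hR
  have hRI : R * I ^ 2 = 320000 := by rw [hR]; field_simp
  have hI2 : I ^ 2 ≤ 1 := by nlinarith
  have hR0 : 0 < R := by positivity
  have hR1 : 320000 ≤ R := by nlinarith
  have a1 : 1 / (R + 1) ^ 3 ≤ 1 / R ^ 2 :=
    one_div_le_one_div_of_le (by positivity) (by nlinarith [sq_nonneg R, mul_pos hR0 (mul_pos hR0 hR0)])
  have hD2 : D ≤ 2 / R ^ 2 := by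
    have : 2 / R ^ 2 = 1 / R ^ 2 + 1 / R ^ 2 := by ring
    linarith
  have hD3 : D * R ^ 2 ≤ 2 := by rwa [le_div_iff₀ (by positivity)] at hD2
  have hD4 : (D * R ^ 2) ^ 2 ≤ 4 := by nlinarith [mul_pos hD0 (pow_pos hR0 2)]
  have hc : (R + 1) ^ 3 ≤ 8 * R ^ 3 := by
    have : (R + 1) ^ 3 ≤ (2 * R) ^ 3 := pow_le_pow_left₀ (by positivity) (by linarith) 3
    linarith [mul_pow 2 R 3]
  have hs : (R + 1) ^ 2 ≤ 4 * R ^ 2 := by nlinarith
  refine ⟨?_, ?_, ?_, ?_, ?_⟩
  · rw [div_pow, div_div, div_le_div_iff₀ (by positivity) (by positivity)]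
    have h1 : D ^ 2 * ((R + 1) ^ 3 * 10000) ≤ D ^ 2 * (8 * R ^ 3 * 10000) :=
      mul_le_mul_of_nonneg_left (by linarith) (by positivity)
    have h2 : (D ^ 2 * (8 * R ^ 3 * 10000)) * R ≤ I ^ 2 * R := by
      have : (D ^ 2 * (8 * R ^ 3 * 10000)) * R = 80000 * (D * R ^ 2) ^ 2 := by ring
      rw [this]; linarith
    have h3 := le_of_mul_le_mul_right h2 hR0
    linarith
  · rw [div_mul_div_comm, lt_div_iff₀ (by positivity)]
    have h1 : D ^ 2 * ((R + 1) ^ 2 * 9) ≤ D ^ 2 * (4 * R ^ 2 * 9) :=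
      mul_le_mul_of_nonneg_left (by linarith) (by positivity)
    have h2 : (D ^ 2 * (4 * R ^ 2 * 9)) * R ^ 2 < 1 * R ^ 2 := by
      have : (D ^ 2 * (4 * R ^ 2 * 9)) * R ^ 2 = 36 * (D * R ^ 2) ^ 2 := by ring
      rw [this]; nlinarith
    have h3 := lt_of_mul_lt_mul_right h2 (by positivity)
    linarith
  · have h1 : D * 4 ≤ D * R ^ 2 := mul_le_mul_of_nonneg_left (by nlinarith) hD0.le
    linarith
  · refine one_div_le_one_div_of_le (by norm_num) ?_
    have : (100 : ℝ) ^ 3 ≤ (R + 1) ^ 3 := pow_le_pow_left₀ (by norm_num) (by linarith) 3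
    linarith
  · refine one_div_le_one_div_of_le (by positivity) ?_
    nlinarith [pow_pos (show 0 < R + 1 by linarith) 2]

theorem exists_prof : Nonempty Prof := by
  have hI := bumpI_one_pos
  have hI1 := bumpI_one_le
  set I := bumpI 1 with hIdef
  set R := 320000 / I ^ 2 with hR
  have hR2 : 2 ≤ R := by
    rw [hR, le_div_iff₀ (by positivity)]
    nlinarith
  set l := 1 / (R + 1) ^ 3 with hl
  have hl0 : 0 < l := by rw [hl]; positivity
  obtain ⟨A, sA, pA, eA, mA, dA, nA, bA⟩ := exists_side hR2 hl0 le_rfl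
  obtain ⟨F, sF, pF, eF, mF, dF, nF, bF⟩ :=
    exists_side (c := 2) (l := 1 / 27) le_rfl (by norm_num) (by norm_num)
  set D := A 1 with hD
  have hD0 : 0 < D := pA 1
  obtain ⟨k1, k2, k3, k4, k5⟩ := prof_consts hI hI1 hD0 (bA 1 (by norm_num)).2
  rw [← hR] at k1 k2 k4 k5
  rw [← hl] at k1 k4 k5
  set ν := D / I with hν
  have hν0 : 0 < ν := by positivity
  have hνI : ν * I = D := by rw [hν]; field_simp
  have A1 : ∀ x, 1 ≤ x → A x = D := by
    intro x hx
    refine (eq_of_hasDerivAt_zero hx (contDiff_hasDerivAt sA) fun y hy => ?_).symm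
    rw [(dA y (by linarith [hy.1])).1, smoothTransition.one_of_one_le hy.1]; ring
  have F1 : ∀ x, 1 ≤ x → F x = F 1 := by
    intro x hx
    refine (eq_of_hasDerivAt_zero hx (contDiff_hasDerivAt sF) fun y hy => ?_).symm
    rw [(dF y (by linarith [hy.1])).1, smoothTransition.one_of_one_le hy.1]; ring
  have K0 : ∀ x, 0 ≤ x → 0 ≤ ν * bumpI x := by
    intro x hx
    have := bumpI_mono hx
    rw [bumpI_zero] at this
    positivity
  have KD : ∀ x, x ≤ 1 → ν * bumpI x ≤ D := by
    intro x hx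
    rw [← hνI]
    exact mul_le_mul_of_nonneg_left (bumpI_mono hx) hν0.le
  have dC : ∀ x, x ≤ 1 → deriv (fun x => D + F (1 - x)) x = -(1 / 27 * smoothTransition x) := by
    intro x hx
    rw [deriv_refl sF]
    beta_reduce
    rw [(dF (1 - x) (by linarith)).1, sT_symm]; ring
  have ddC : ∀ x, x ≤ 1 → deriv (deriv (fun x => D + F (1 - x))) x
      = -(1 / 27 * deriv smoothTransition x) := by
    intro x hx
    rw [deriv_deriv_refl sF, (dF (1 - x) (by linarith)).2, sT_deriv_symm]
  have dK : ∀ x, deriv (fun x => ν * bumpI x) x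
      = ν * smoothTransition x * (1 - smoothTransition x) := fun x => by rw [deriv_mul_bumpI]
  have hconc : ∀ x ∈ Icc (0 : ℝ) 1, ∀ p q, qf (-(l * deriv smoothTransition x))
      (ν * deriv smoothTransition x * (1 - 2 * smoothTransition x))
      (-(1 / 27 * deriv smoothTransition x)) p q ≤ 0 := fun x _ p q =>
    conc_alg (smoothTransition.nonneg x) (smoothTransition.le_one x) (sT_deriv_nonneg x) hl0
      (by linarith)
  refine ⟨⟨fun b => if b then 2 else R, A, fun x => ν * bumpI x, fun x => D + F (1 - x),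
    D + F 1, D, ?_, sA, contDiff_const.mul bumpI_contDiff,
    contDiff_const.add (sF.comp (contDiff_const.sub contDiff_id)), pA, ?_, ?_, ?_, ?_, ?_, mA,
    ?_, nA, ?_, ?_, ?_, ?_⟩⟩
  · intro b
    cases b
    · simpa using hR2
    · simp
  · intro x
    have a0 := pA x
    have f0 := pF (1 - x)
    rcases le_total x 0 with hx | hx
    · rw [bumpI_of_nonpos hx]
      have : 0 < A x * (D + F (1 - x)) := by positivity
      simpa using this
    rcases le_total 1 x with hx1 | hx1
    · rw [bumpI_of_one_le hx1, ← hIdef, hνI, A1 x hx1]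
      nlinarith [mul_pos hD0 f0]
    · have h1 := K0 x hx
      have h2 := KD x hx1
      have h3 := (bA x (by linarith)).1
      have h4 := (bF (1 - x) (by linarith)).1
      have h5 : (ν * bumpI x) ^ 2 ≤ D ^ 2 := pow_le_pow_left₀ h1 h2 2
      have h6 : 1 / (R + 1) ^ 2 * (1 / 9) ≤ A x * (D + F (1 - x)) :=
        mul_le_mul h3 (by norm_num at h4 ⊢; linarith) (by norm_num) a0.le
      linarith
  · intro x hx
    refine ⟨by rw [bumpI_of_nonpos hx, mul_zero], by rw [F1 (1 - x) (by linarith)], ?_, ?_, ?_, ?_⟩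
    · rw [dK, smoothTransition.zero_of_nonpos hx]; ring
    · rw [dC x (by linarith), smoothTransition.zero_of_nonpos hx]; ring
    · rw [deriv_deriv_mul_bumpI, sT_deriv_of_nonpos hx]; ring
    · rw [ddC x (by linarith), sT_deriv_of_nonpos hx]; ring
  · intro x hx
    refine ⟨A1 x hx, by rw [bumpI_of_one_le hx, ← hIdef, hνI], ?_, ?_, ?_, ?_⟩
    · rw [(dA x (by linarith)).1, smoothTransition.one_of_one_le hx]; ring
    · rw [dK, smoothTransition.one_of_one_le hx]; ring
    · rw [(dA x (by linarith)).2, sT_deriv_of_one_le hx]; ring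
    · rw [deriv_deriv_mul_bumpI, sT_deriv_of_one_le hx]; ring
  · intro x hx
    simpa using eA x hx
  · intro x hx
    have h := eF (1 - x) (by linarith)
    have e : (2 : ℝ) - (1 - x) = 2 + x - 1 := by ring
    rw [e] at h
    simpa using h
  · intro x
    rw [deriv_refl sF]
    exact neg_nonpos.2 (mF _)
  · intro x hx
    rw [deriv_deriv_refl sF, deriv_refl sF]
    have h := nF (1 - x) (by linarith)
    beta_reduce
    rw [add_sub_cancel_left, neg_sq]
    exact h
  · intro x hx p q
    rw [(dA x hx.1).2, deriv_deriv_mul_bumpI, ddC x hx.2]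
    exact hconc x hx p q
  · intro x hx p q hV
    rw [(dA x hx.1).1, dK, dC x hx.2] at hV ⊢
    rw [(dA x hx.1).2, deriv_deriv_mul_bumpI, ddC x hx.2]
    refine ineqL_alg (smoothTransition.nonneg x) (smoothTransition.le_one x) hl0
      (k5.trans (bA x (by linarith [hx.1])).1) hν0.le (by linarith) (K0 x hx.1) ?_
      (hconc x hx p q) hV
    have h := bumpI_sub_le hx.1
    rw [bumpI_zero, smoothTransition.zero, sub_zero, sub_zero] at h
    exact mul_le_mul_of_nonneg_left h hν0.le
  · intro x hx p q hV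
    rw [(dA x hx.1).1, dK, dC x hx.2] at hV ⊢
    rw [(dA x hx.1).2, deriv_deriv_mul_bumpI, ddC x hx.2]
    have h1 := K0 x hx.1
    have h2 := KD x hx.2
    have h4 := bF (1 - x) (by linarith [hx.2])
    have s1 : 0 ≤ 1 - smoothTransition x := sub_nonneg.2 (smoothTransition.le_one x)
    have hAD : A x ≤ D :=
      le_of_hasDerivAt_nonneg hx.2 (fun y _ => contDiff_hasDerivAt sA y) (fun y _ => mA y)
    have hAD' : D - A x ≤ l * (1 - smoothTransition x) := by
      have h := le_of_hasDerivAt_nonneg (f := fun y => l * (1 - smoothTransition x) * y - A y)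
        (f' := fun y => l * (1 - smoothTransition x) * 1 - deriv A y) hx.2
        (fun y _ => ((hasDerivAt_id y).const_mul _).sub (contDiff_hasDerivAt sA y))
        (fun y hy => by
          rw [(dA y (hx.1.trans hy.1)).1]
          nlinarith [smoothTransition.monotone hy.1])
      nlinarith [mul_nonneg (mul_nonneg hl0.le s1) hx.1]
    have hKD : D - ν * bumpI x ≤ ν * (1 - smoothTransition x) := by
      have h := bumpI_sub_le hx.2
      rw [smoothTransition.one, ← hIdef] at h
      have := mul_le_mul_of_nonneg_left h hν0.le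
      linarith
    have hd : |A x - ν * bumpI x| ≤ (l + ν) * (1 - smoothTransition x) := by
      have a1 := mul_nonneg hl0.le s1
      have a2 := mul_nonneg hν0.le s1
      rw [abs_le]
      constructor <;> linarith
    have key := ineqR_alg (c₀ := D + F (1 - x) - ν * bumpI x) (d₀ := A x - ν * bumpI x)
      (smoothTransition.nonneg x) (smoothTransition.le_one x) (sT_deriv x) hl0 k4 hν0.le k1
      (by norm_num at h4 ⊢; linarith [h4.1]) (by norm_num at h4 ⊢; linarith [h4.2]) hd hV
    have e1 : A x - 2 * (ν * bumpI x) + (D + F (1 - x))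
        = D + F (1 - x) - ν * bumpI x + (A x - ν * bumpI x) := by ring
    have e2 : ν * bumpI x - A x = -(A x - ν * bumpI x) := by ring
    rw [e1, e2]
    exact key

end Vale.Agent.P255
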