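import Vale.Agent.P255.GeoA
import Vale.Agent.P255.CovTop

open scoped ContDiff Manifold Topology
open Set Filter Real

noncomputable section

namespace Vale.Agent.P255

namespace TopAA

variable {M : Type} [TopologicalSpace M] {P : E3 → M}

/-- relations from a lift of the boundary of the square times the line -/
theorem sq_rel (hP : IsCoveringMap P) {Φ : ℝ × ℝ → E3} (hΦ : Continuous Φ)
    {T₁ T₂ : Equiv.Perm E3} (hT₁ : T₁ ∈ Deck P) (hT₂ : T₂ ∈ Deck P)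
    (h1 : ∀ θ w, Φ (θ + 2 * π, w) = T₁ (Φ (θ, w))) (h2 : ∀ θ w, Φ (θ, w + 2 * π) = T₂ (Φ (θ, w)))
    (ha : ∀ θ ∈ Icc (-(π / 4)) (π / 4), ∀ w, P (Φ (π - θ, w)) = P (Φ (θ, w)))
    (hb : ∀ θ ∈ Icc (π / 4) (3 * π / 4), ∀ w, P (Φ (2 * π - θ, w)) = P (Φ (θ, w))) :
    ∃ a ∈ Deck P, ∃ b ∈ Deck P, a * T₂ = T₂ * a ∧ b * T₂ = T₂ * b ∧ a * b = b * T₁ * a := by
  have hp := pi_pos
  have key : ∀ (κ l r m : ℝ), m ∈ Icc l r → (∀ θ ∈ Icc l r, ∀ w, P (Φ (κ - θ, w)) = P (Φ (θ, w))) →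
      ∃ a ∈ Deck P, a * T₂ = T₂ * a ∧ ∀ θ ∈ Icc l r, ∀ w, a (Φ (κ - θ, w)) = Φ (θ, w) := by
    intro κ l r m hm h
    obtain ⟨a, ha, e⟩ := deck_exists hP (h m hm 0)
    have e2 : ∀ θ ∈ Icc l r, ∀ w, a (Φ (κ - θ, w)) = Φ (θ, w) := by
      intro θ hθ w
      have c1 : Continuous fun v : ℝ × ℝ => a (Φ (κ - v.1, v.2)) := ha.1.comp (by fun_prop)
      exact hP.eqOn_of_comp_eqOn (s := Icc l r ×ˢ univ) (isPreconnected_Icc.prod isPreconnected_univ)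
        c1.continuousOn hΦ.continuousOn (fun v hv => (ha.2.2 _).trans (h v.1 hv.1 v.2))
        (a := (m, 0)) ⟨hm, mem_univ _⟩ e (show (θ, w) ∈ _ from ⟨hθ, mem_univ _⟩)
    refine ⟨a, ha, deck_ext hP (mul_mem ha hT₂) (mul_mem hT₂ ha) (x := Φ (κ - m, 0)) ?_, e2⟩
    rw [Equiv.Perm.mul_apply, Equiv.Perm.mul_apply, ← h2, e2 m hm, e2 m hm, h2]
  obtain ⟨a, ha1, ha2, ha3⟩ := key π _ _ 0 ⟨by linarith, by linarith⟩ ha
  obtain ⟨b, hb1, hb2, hb3⟩ := key (2 * π) _ _ (π / 2) ⟨by linarith, by linarith⟩ hb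
  refine ⟨a, ha1, b, hb1, ha2, hb2, deck_ext hP (mul_mem ha1 hb1)
    (mul_mem (mul_mem hb1 hT₁) ha1) (x := Φ (5 * π / 4, 0)) ?_⟩
  have e1 := hb3 (3 * π / 4) ⟨by linarith, le_rfl⟩ 0
  have e2 := ha3 (π / 4) ⟨by linarith, le_rfl⟩ 0
  have e3 := ha3 (-(π / 4)) ⟨le_rfl, by linarith⟩ 0
  have e4 := h1 (-(π / 4)) 0
  have e5 := hb3 (π / 4) ⟨le_rfl, by linarith⟩ 0
  rw [show 2 * π - 3 * π / 4 = 5 * π / 4 by ring] at e1
  rw [show π - π / 4 = 3 * π / 4 by ring] at e2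
  rw [show π - -(π / 4) = 5 * π / 4 by ring] at e3
  rw [show -(π / 4) + 2 * π = 2 * π - π / 4 by ring] at e4
  simp only [Equiv.Perm.mul_apply]
  rw [e1, e2, e3, ← e4, e5]

def mx (θ : ℝ) : ℝ := max |cos θ| |sin θ|

theorem mx_pos (θ : ℝ) : 0 < mx θ := by
  by_contra h
  have h1 : |cos θ| ≤ 0 := (le_max_left _ _).trans (not_lt.1 h)
  have h2 : |sin θ| ≤ 0 := (le_max_right _ _).trans (not_lt.1 h)
  have h3 := cos_sq_add_sin_sq θ
  rw [abs_nonpos_iff.1 h1, abs_nonpos_iff.1 h2] at h3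
  norm_num at h3

theorem mx_le (θ : ℝ) : mx θ ≤ 1 := max_le (abs_cos_le_one θ) (abs_sin_le_one θ)

theorem mx_cos {θ : ℝ} (h : θ ∈ Icc (-(π / 4)) (π / 4)) : mx θ = cos θ := by
  have hp := pi_pos
  have h1 : 0 ≤ cos θ := cos_nonneg_of_mem_Icc ⟨by linarith [h.1], by linarith [h.2]⟩
  have h2 : 0 ≤ cos (2 * θ) := cos_nonneg_of_mem_Icc ⟨by linarith [h.1], by linarith [h.2]⟩
  rw [cos_two_mul'] at h2
  rw [mx, max_eq_left (sq_le_sq.1 (by linarith)), abs_of_nonneg h1]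

theorem mx_sin {θ : ℝ} (h : θ ∈ Icc (π / 4) (3 * π / 4)) : mx θ = sin θ := by
  have h1 := mx_cos (θ := π / 2 - θ) ⟨by linarith [h.2], by linarith [h.1]⟩
  rw [mx, cos_pi_div_two_sub, sin_pi_div_two_sub, max_comm] at h1
  exact h1

def kk (l : ℝ) : ℝ := max 0 (min l 1)

def rho (r H l θ : ℝ) : ℝ := (1 - kk l) * r + kk l * (H / mx θ)

def pt (r H : ℝ) (v : ℝ × ℝ × ℝ) : E3 :=
  (rho r H v.1 v.2.1 * cos v.2.1, rho r H v.1 v.2.1 * sin v.2.1, v.2.2)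

theorem cont_pt (r H : ℝ) : Continuous (pt r H) := by
  have h1 : Continuous mx := by unfold mx; fun_prop
  have h2 : Continuous kk := by unfold kk; fun_prop
  have h3 : Continuous fun θ => H / mx θ := continuous_const.div h1 fun θ => (mx_pos θ).ne'
  have h4 : Continuous fun v : ℝ × ℝ × ℝ => rho r H v.1 v.2.1 :=
    ((continuous_const.sub (h2.comp continuous_fst)).mul continuous_const).add
      ((h2.comp continuous_fst).mul (h3.comp (continuous_fst.comp continuous_snd)))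
  unfold pt
  fun_prop

theorem rho_bd {r H : ℝ} (hr : 0 ≤ r) (hH : r ≤ H) (l θ : ℝ) :
    r ≤ rho r H l θ ∧ rho r H l θ * mx θ ≤ H := by
  have k0 : 0 ≤ kk l := le_max_left _ _
  have k1 : kk l ≤ 1 := max_le zero_le_one (min_le_right _ _)
  have m0 := mx_pos θ
  have m1 := mx_le θ
  have h1 : H ≤ H / mx θ := by
    rw [le_div_iff₀ m0]
    nlinarith
  have h2 : H / mx θ * mx θ = H := div_mul_cancel₀ _ m0.ne'
  have h3 : r * mx θ ≤ H := by nlinarith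
  unfold rho
  constructor
  · nlinarith
  · nlinarith

theorem pt_mem {c : Bool → ℝ} (hc : ∀ b, 2 ≤ c b) (b : Bool) (v : ℝ × ℝ × ℝ) :
    pt (c b + 2) (c b + 10) v ∈ Om c (some b) := by
  have hb := hc b
  obtain ⟨h1, h2⟩ := rho_bd (r := c b + 2) (H := c b + 10) (by linarith) (by linarith) v.1 v.2.1
  have h0 : 0 ≤ rho (c b + 2) (c b + 10) v.1 v.2.1 := by linarith
  refine ⟨?_, ?_, ?_⟩
  · simp only [pt]
    rw [abs_mul, abs_of_nonneg h0]
    have := mul_le_mul_of_nonneg_left (le_max_left |cos v.2.1| |sin v.2.1|) h0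
    unfold mx at h2
    linarith
  · simp only [pt]
    rw [abs_mul, abs_of_nonneg h0]
    have := mul_le_mul_of_nonneg_left (le_max_right |cos v.2.1| |sin v.2.1|) h0
    unfold mx at h2
    linarith
  · simp only [pt]
    rw [mul_pow, mul_pow, ← mul_add, cos_sq_add_sin_sq]
    nlinarith

theorem side {c : Bool → ℝ} (hc : ∀ b, 2 ≤ c b) (b : Bool) (hP : IsCoveringMap P) {g : E3 → M}
    (hg : ContinuousOn g (Om c (some b)))
    (hper : ∀ y ∈ Om c (some b), ∀ y' ∈ Om c (some b), Rel c (some b) y (some b) y' → g y = g y')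
    {φ : ℝ × ℝ → E3} (hφ : Continuous φ)
    (hPφ : ∀ θ w, P (φ (θ, w)) = g ((c b + 2) * cos θ, (c b + 2) * sin θ, w))
    {T₁ T₂ : Equiv.Perm E3} (hT₁ : T₁ ∈ Deck P) (hT₂ : T₂ ∈ Deck P)
    (h1 : ∀ θ w, φ (θ + 2 * π, w) = T₁ (φ (θ, w))) (h2 : ∀ θ w, φ (θ, w + 2 * π) = T₂ (φ (θ, w))) :
    ∃ a ∈ Deck P, ∃ b ∈ Deck P, a * T₂ = T₂ * a ∧ b * T₂ = T₂ * b ∧ a * b = b * T₁ * a := by
  set q := pt (c b + 2) (c b + 10) with hq
  have hm : ∀ v, q v ∈ Om c (some b) := pt_mem hc b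
  have hf : Continuous fun v => g (q v) := hg.comp_continuous (cont_pt _ _) hm
  have q0 : ∀ θ w, q (0, θ, w) = ((c b + 2) * cos θ, (c b + 2) * sin θ, w) := by
    intro θ w
    simp [hq, pt, rho, kk]
  have q1 : ∀ θ w, q (1, θ, w) = ((c b + 10) / mx θ * cos θ, (c b + 10) / mx θ * sin θ, w) := by
    intro θ w
    simp [hq, pt, rho, kk]
  obtain ⟨F, f1, f2, f3⟩ := exists_lift_convex hP convex_univ hf.continuousOn
    (mem_univ ((0 : ℝ), (0 : ℝ), (0 : ℝ))) (x₀ := φ (0, 0)) (by rw [hPφ, q0])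
  rw [continuousOn_univ] at f1
  replace f3 : ∀ v, P (F v) = g (q v) := fun v => f3 v (mem_univ v)
  have f0 : ∀ v, F (0, v) = φ v := fun v => congrFun
    (hP.eq_of_comp_eq (g₁ := fun v => F (0, v)) (g₂ := φ) (by fun_prop) hφ
      (funext fun v => (f3 _).trans (by rw [q0 v.1 v.2, ← hPφ]; rfl)) (0, 0) f2) v
  have sh : ∀ (d : ℝ × ℝ) (T : Equiv.Perm E3), T ∈ Deck P → φ ((0, 0) + d) = T (φ (0, 0)) →
      (∀ v : ℝ × ℝ × ℝ, g (q (v.1, v.2 + d)) = g (q v)) →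
      ∀ v : ℝ × ℝ × ℝ, F (v.1, v.2 + d) = T (F v) := by
    intro d T hT e1 e2 v
    exact congrFun (hP.eq_of_comp_eq (g₁ := fun v : ℝ × ℝ × ℝ => F (v.1, v.2 + d))
      (g₂ := fun v => T (F v)) (by fun_prop) (hT.1.comp f1)
      (funext fun v => (f3 _).trans ((e2 v).trans ((hT.2.2 _).trans (f3 v)).symm)) (0, 0)
      (by simp only [f0]; exact e1)) v
  have s1 := sh (2 * π, 0) T₁ hT₁ (by simpa using h1 0 0) fun v => by
    congr 1
    simp [hq, pt, rho, mx]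
  have s2 := sh (0, 2 * π) T₂ hT₂ (by simpa using h2 0 0) fun v => by
    refine (hper _ (hm _) _ (hm _) ⟨rfl, 0, 0, 1, ?_⟩).symm
    simp [hq, pt]
  refine sq_rel hP (Φ := fun v => F (1, v)) (by fun_prop) hT₁ hT₂
    (fun θ w => by simpa using s1 (1, θ, w)) (fun θ w => by simpa using s2 (1, θ, w)) ?_ ?_
  · intro θ hθ w
    rw [f3, f3]
    refine hper _ (hm _) _ (hm _) ⟨rfl, 1, 0, 0, ?_⟩
    have e1 : mx (π - θ) = mx θ := by simp [mx]
    have e2 := div_mul_cancel₀ (c b + 10) (mx_pos θ).ne'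
    rw [q1, q1, e1, cos_pi_sub, sin_pi_sub, ← mx_cos hθ]
    simp only [Prod.mk_add_mk, Int.cast_zero, Int.cast_one, mul_zero, add_zero, mul_neg, e2]
    congr 1
    ring
  · intro θ hθ w
    rw [f3, f3]
    refine hper _ (hm _) _ (hm _) ⟨rfl, 0, 1, 0, ?_⟩
    have e1 : mx (2 * π - θ) = mx θ := by simp [mx]
    have e2 := div_mul_cancel₀ (c b + 10) (mx_pos θ).ne'
    rw [q1, q1, e1, cos_two_pi_sub, sin_two_pi_sub, ← mx_sin hθ]
    simp only [Prod.mk_add_mk, Int.cast_zero, Int.cast_one, mul_zero, add_zero, mul_neg, e2]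
    congr 2
    ring

end TopAA

open TopAA

variable {M : Type} [TopologicalSpace M] [ChartedSpace E3 M] {c : Bool → ℝ}
  {π' : Option Bool → E3 → M}

theorem deck_relations (hc : ∀ b, 2 ≤ c b) (h : Pres (Om c) (Rel c) π') {P : E3 → M}
    (hP : IsCoveringMap P) (h0 : P 0 = π' none 0) :
    ∃ (ψ : E3 → E3) (a b c' e u s : Equiv.Perm E3), ContinuousOn ψ (Om c none) ∧
      (∀ y ∈ Om c none, P (ψ y) = π' none y) ∧
      (∀ T ∈ ({a, b, c', e, u, s} : Set (Equiv.Perm E3)), T ∈ Deck P) ∧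
      (∀ y ∈ Om c none, ψ (y + (0, 0, 2 * π)) = s (ψ y)) ∧
      u * s = s * u ∧ a * s = s * a ∧ b * s = s * b ∧ a * b = b * u * a ∧
      c' * (u * s) = (u * s) * c' ∧ e * (u * s) = (u * s) * e ∧ c' * e = e * s * c' := by
  have hcv : Convex ℝ (Om c none) :=
    (convex_Ioo (-3 : ℝ) 4).linear_preimage (LinearMap.fst ℝ ℝ (ℝ × ℝ))
  have hz : (0 : E3) ∈ Om c none := ⟨by norm_num, by norm_num⟩
  have hsh : ∀ y ∈ Om c none, ∀ p q : ℝ, y + (0, p, q) ∈ Om c none := fun y hy p q =>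
    ⟨by simpa using hy.1, by simpa using hy.2⟩
  obtain ⟨ψ, p1, -, p3⟩ := exists_lift_convex hP hcv (h.cont none) hz h0
  have sh : ∀ m n : ℤ, ∃ T ∈ Deck P,
      ∀ y ∈ Om c none, ψ (y + (0, 2 * π * m, 2 * π * n)) = T (ψ y) := by
    intro m n
    have e : ∀ y ∈ Om c none, P (ψ y) = P (ψ (y + (0, 2 * π * m, 2 * π * n))) := fun y hy => by
      rw [p3 _ hy, p3 _ (hsh y hy _ _)]
      exact (h.rel none none _ hy _ (hsh y hy _ _)).2 ⟨m, n, rfl⟩
    obtain ⟨T, hT, e1⟩ := deck_exists hP (e 0 hz)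
    refine ⟨T, hT, hP.eqOn_of_comp_eqOn hcv.isPreconnected
      (p1.comp (by fun_prop) fun y hy => hsh y hy _ _) (hT.1.comp_continuousOn p1)
      (fun y hy => (e y hy).symm.trans (hT.2.2 _).symm) hz e1.symm⟩
  obtain ⟨u, hu, eu⟩ := sh 1 0
  obtain ⟨s, hs, es⟩ := sh 0 1
  simp only [Int.cast_zero, Int.cast_one, mul_zero, mul_one] at eu es
  have hper : ∀ b, ∀ y ∈ Om c (some b), ∀ y' ∈ Om c (some b), Rel c (some b) y (some b) y' →
      π' (some b) y = π' (some b) y' := fun b y hy y' hy' hr => (h.rel _ _ y hy y' hy').2 hr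
  have hl : ∀ b, ∀ y ∈ Om c none, hgt b y = 2 → P (ψ y) =
      π' (some b) ((c b + 2) * cos (ang b y), (c b + 2) * sin (ang b y), fib b y) := by
    intro b y hy h2
    have h3 := pol_mem hc hy (by rw [h2]; norm_num : 1 < hgt b y) 0
    rw [p3 y hy, (h.rel none (some b) y hy _ h3).2 ⟨by rw [h2]; norm_num, 0, rfl⟩]
    simp [pol, h2]
  have m1 : ∀ p q : ℝ, ((-2 : ℝ), p, q) ∈ Om c none := fun p q => ⟨by norm_num, by norm_num⟩
  have m2 : ∀ p q : ℝ, ((3 : ℝ), p, q) ∈ Om c none := fun p q => ⟨by norm_num, by norm_num⟩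
  obtain ⟨a, ha, b, hb, r1, r2, r3⟩ := side hc false hP (h.cont _) (hper _)
    (φ := fun v => ψ (-2, v.1, v.2)) (p1.comp_continuous (by fun_prop) fun v => m1 _ _)
    (fun θ w => by simpa [ang, fib] using hl false _ (m1 θ w) (by simp [hgt])) hu hs
    (fun θ w => by simpa using eu _ (m1 θ w)) (fun θ w => by simpa using es _ (m1 θ w))
  obtain ⟨c', hc', e, he, r4, r5, r6⟩ := side hc true hP (h.cont _) (hper _)
    (φ := fun v => ψ (3, v.2, v.1 + v.2)) (p1.comp_continuous (by fun_prop) fun v => m2 _ _)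
    (fun θ w => by simpa [ang, fib] using hl true _ (m2 w (θ + w)) (by norm_num [hgt])) hs
    (mul_mem hu hs)
    (fun θ w => by simpa [add_right_comm] using es _ (m2 w (θ + w)))
    (fun θ w => by
      rw [Equiv.Perm.mul_apply, ← es _ (m2 _ _), ← eu _ (hsh _ (m2 _ _) _ _)]
      simp [add_assoc])
  refine ⟨ψ, a, b, c', e, u, s, p1, p3, ?_, es, ?_, r1, r2, r3, r4, r5, r6⟩
  · rintro T (rfl | rfl | rfl | rfl | rfl | rfl) <;> assumption
  · refine deck_ext hP (mul_mem hu hs) (mul_mem hs hu) (x := ψ 0) ?_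
    rw [Equiv.Perm.mul_apply, Equiv.Perm.mul_apply, ← es _ hz, ← eu _ (hsh _ hz _ _),
      ← eu _ hz, ← es _ (hsh _ hz _ _), add_right_comm]

end Vale.Agent.P255
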