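import Vale.Agent.P255.TopX
import Vale.Agent.P255.CovTop
import Vale.Agent.P255.Met

open scoped ContDiff Manifold Topology
open Set Filter Real

noncomputable section

namespace Vale.Agent.P255

variable {c : Bool → ℝ}

/-- the cocycle condition -/
def Coc (c : Bool → ℝ) (i : Option Bool) (y : E3) (j : Option Bool) (y' : E3) : Prop :=
  (∃ n : ℤ, z2 c j y' = z2 c i y + n) ∧
    ∀ r : ℝ, (∃ k : ℤ, r = z2 c i y + k) → Th c i y r = Th c j y' r

theorem Coc.symm {i j : Option Bool} {y y' : E3} (h : Coc c i y j y') : Coc c j y' i y := by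
  obtain ⟨⟨n, hn⟩, h2⟩ := h
  refine ⟨⟨-n, by rw [hn]; push_cast; ring⟩, fun r ⟨k, hk⟩ => (h2 r ⟨n + k, ?_⟩).symm⟩
  rw [hk, hn]; push_cast; ring

theorem coc_of_eq {i j : Option Bool} {y y' : E3} (h1 : Wc c i y = Wc c j y')
    (h2 : sig c i y = sig c j y') : Coc c i y j y' := by
  have e1 : z1 c i y = z1 c j y' := by unfold z1; rw [h1]
  have e2 : z2 c i y = z2 c j y' := by unfold z2; rw [h1]
  exact ⟨⟨0, by simp [e2]⟩, fun r _ => by unfold Th; rw [e1, e2, h2]⟩

theorem coc_nn {y y' : E3} (h : Rel c none y none y') : Coc c none y none y' := by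
  obtain ⟨m, n, rfl⟩ := h
  have e : (y + (0, 2 * π * m, 2 * π * n)).2.2 - (y + (0, 2 * π * m, 2 * π * n)).2.1
      = y.2.2 - y.2.1 + ((n - m : ℤ) : ℝ) * (2 * π) := by
    simp only [Prod.snd_add, Prod.fst_add]; push_cast; ring
  have e1 : (y + (0, 2 * π * m, 2 * π * n)).1 = y.1 := by simp
  have hW : Wc c none y = Wc c none (y + (0, 2 * π * m, 2 * π * n)) := by
    simp only [Wc]
    rw [e, e1, Real.cos_add_int_mul_two_pi, Real.sin_add_int_mul_two_pi]
  refine coc_of_eq hW ?_
  have hz : z1 c none y = z1 c none (y + (0, 2 * π * m, 2 * π * n)) := by unfold z1; rw [hW]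
  simp only [sig]
  rw [← hW, ← hz, e, e1, Real.cos_add_int_mul_two_pi, Real.sin_add_int_mul_two_pi]
  congr 1
  exact (exp_per y.2.1 m).symm

theorem coc_ns (hc : ∀ b, 2 ≤ c b) {b : Bool} {y y' : E3} (hy' : y' ∈ Om c (some b))
    (h : Rel c none y (some b) y') : Coc c none y (some b) y' := by
  have h1 := one_lt_hgt hc hy' h
  obtain ⟨-, n, rfl⟩ := h
  cases b
  · have hx : y.1 ≤ 1 := by simp only [hgt] at h1; norm_num at h1; linarith
    have hW : Wc c none y = (0, 0) := by simp [Wc, lam_zero hx]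
    refine coc_of_eq hW ?_
    have hz : z1 c none y = 0 := by simp [z1, hW]
    have e : (pol c false y + (0, 0, 2 * π * n)).2.2 = y.2.2 + 2 * π * n := by simp [pol, fib]
    simp only [sig]
    rw [hW, hz, lam_zero hx, e, exp_per]
    have e2 : Complex.exp (-(Complex.I * y.2.2)) = Complex.exp (-(Complex.I * y.2.1)) *
        Complex.exp (-((y.2.2 - y.2.1 : ℝ) : ℂ) * Complex.I) := by
      rw [← Complex.exp_add]; congr 1; push_cast; ring
    rw [e2, Complex.exp_mul_I, Complex.cos_neg, Complex.sin_neg]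
    simp only [Sf, kap, zero_div, mul_zero, sin_zero, cos_zero]
    push_cast
    have := Complex.I_mul_I
    norm_num
    linear_combination (Complex.exp (-(Complex.I * y.2.1)) * Complex.sin (y.2.2 - y.2.1)) * this
  · have hx : 2 ≤ y.1 := by simp only [hgt] at h1; norm_num at h1; linarith
    have hW : Wc c none y = Wc c (some true) (pol c true y + (0, 0, 2 * π * n)) := by
      simp only [Wc, lam_one hx, pol, hgt, ang]
      ext <;> simp <;> ring_nf <;> simp
    refine coc_of_eq hW ?_
    have hz : z1 c none y = z1 c (some true) (pol c true y + (0, 0, 2 * π * n)) := by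
      unfold z1; rw [hW]
    have e : (pol c true y + (0, 0, 2 * π * n)).2.2 = y.2.1 + 2 * π * n := by simp [pol, fib]
    simp only [sig]
    rw [hW, hz, lam_one hx, e, exp_per]
    simp [Wc]

theorem exp_int (k : ℤ) : Complex.exp (4 * π * Complex.I * (k : ℝ)) = 1 := by
  rw [Complex.exp_eq_one_iff]
  exact ⟨2 * k, by push_cast; ring⟩

theorem coc_tt (hc : ∀ b, 2 ≤ c b) {y y' : E3} (hy : y ∈ Om c (some true))
    (hy' : y' ∈ Om c (some true)) (h : Rel c (some true) y (some true) y') :
    Coc c (some true) y (some true) y' := by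
  obtain ⟨-, l, m, n, h⟩ := h
  have hc' := hc true
  have h0 : (2 * (c true + 10)) ≠ 0 := by linarith
  have a1 : y'.1 = y.1 + 2 * (c true + 10) * l := by rw [h]; simp
  have a2 : y'.2.1 = y.2.1 + 2 * (c true + 10) * m := by rw [h]; simp
  have a3 : y'.2.2 = y.2.2 + 2 * π * n := by rw [h]; simp
  have e1 : z1 c (some true) y' = z1 c (some true) y + l := by
    simp only [z1, Wc, a1]; field_simp
  have e2 : z2 c (some true) y' = z2 c (some true) y + m := by
    simp only [z2, Wc, a2]; field_simp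
  refine ⟨⟨m, e2⟩, fun r ⟨k, hk⟩ => ?_⟩
  obtain ⟨b1, b2⟩ := abs_lt.1 hy.2.1
  obtain ⟨b3, b4⟩ := abs_lt.1 hy'.2.1
  have hm1 : m < 2 := by
    have : (m : ℝ) < 2 := by nlinarith
    exact_mod_cast this
  have hm2 : -2 < m := by
    have : (-2 : ℝ) < m := by nlinarith
    exact_mod_cast this
  have key : Sf (kap c y'.2.1) (z1 c (some true) y) ^ 2 = Sf (kap c y.2.1) (z1 c (some true) y) ^ 2
      * Complex.exp (4 * π * Complex.I * (z1 c (some true) y * m : ℝ)) := by
    interval_cases m
    · rw [kap_neg_one hc (v := y'.2.1) (by push_cast at a2; linarith),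
        kap_one hc (v := y.2.1) (by push_cast at a2; linarith), Sf_twist, mul_assoc,
        ← Complex.exp_add]
      push_cast
      simp
    · rw [a2]; simp
    · rw [kap_one hc (v := y'.2.1) (by push_cast at a2; linarith),
        kap_neg_one hc (v := y.2.1) (by push_cast at a2; linarith), Sf_twist]
      simp
  unfold Th
  simp only [sig]
  have fin : Complex.exp (4 * π * Complex.I *
        (z1 c (some true) y * (z2 c (some true) y + k - z2 c (some true) y) : ℝ)) =
      Complex.exp (4 * π * Complex.I * (z1 c (some true) y * m : ℝ)) *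
        Complex.exp (4 * π * Complex.I * ((z1 c (some true) y + l)
          * (z2 c (some true) y + k - (z2 c (some true) y + m)) : ℝ)) := by
    rw [← Complex.exp_add, Complex.exp_eq_exp_iff_exists_int]
    exact ⟨-2 * l * (k - m), by push_cast; ring⟩
  rw [a3, exp_per, mul_pow, mul_pow, e1, e2, Sf_sq_shift, key, hk, fin]
  ring

theorem coc (hc : ∀ b, 2 ≤ c b) {i j : Option Bool} {y y' : E3} (hy : y ∈ Om c i)
    (hy' : y' ∈ Om c j) (h : Rel c i y j y') : Coc c i y j y' := by
  rcases i with _ | b <;> rcases j with _ | b'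
  · exact coc_nn h
  · exact coc_ns hc hy' h
  · exact (coc_ns hc hy h).symm
  · obtain rfl : b = b' := h.1
    cases b
    · obtain ⟨-, l, m, n, h⟩ := h
      refine coc_of_eq rfl ?_
      have a3 : y'.2.2 = y.2.2 + 2 * π * n := by rw [h]; simp
      simp only [sig]
      rw [a3, exp_per]
    · exact coc_tt hc hy hy' h

variable {M : Type} [TopologicalSpace M] [ChartedSpace E3 M] [IsManifold 𝓘(ℝ, E3) ∞ M]
  {π' : Option Bool → E3 → M}

/-- the fibre loop of the left piece does not lift to a loop -/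
theorem fibre_nontrivial (hc : ∀ b, 2 ≤ c b) (h : Pres (Om c) (Rel c) π') {P : E3 → M}
    (hP : Continuous P) {ψ : E3 → E3} (hψ : ContinuousOn ψ (Om c none))
    (hl : ∀ y ∈ Om c none, P (ψ y) = π' none y) : ψ (0, 0, 2 * π) ≠ ψ 0 := by
  intro hper
  choose ix pt hpt hπ using h.surj
  have hco : ∀ i, ∀ y ∈ Om c i, Coc c (ix (π' i y)) (pt (π' i y)) i y := fun i y hy =>
    coc hc (hpt _) hy ((h.rel _ _ _ (hpt _) _ hy).1 (hπ _))
  let ζ : M → AddCircle (1 : ℝ) := fun p => (z2 c (ix p) (pt p) : ℝ)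
  have hζ : ∀ i, ∀ y ∈ Om c i, ζ (π' i y) = (z2 c i y : ℝ) := by
    intro i y hy
    obtain ⟨n, hn⟩ := (hco i y hy).1
    have : ((n : ℝ) : AddCircle (1 : ℝ)) = 0 := (AddCircle.coe_eq_zero_iff 1).2 ⟨n, by simp⟩
    simp only [ζ]
    rw [hn, AddCircle.coe_add, this, add_zero]
  have hζc : Continuous ζ := h.continuous fun i =>
    (((AddCircle.isCoveringMap_coe (1 : ℝ)).continuous.comp (continuous_z2 (c := c) i)).continuousOn).congr
      fun y hy => hζ i y hy
  obtain ⟨zt, hzt, -, hzl⟩ := exists_lift_convex (AddCircle.isCoveringMap_coe (1 : ℝ))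
    (convex_univ (E := E3)) (hζc.comp hP).continuousOn (mem_univ 0)
    (x₀ := z2 c (ix (P 0)) (pt (P 0))) rfl
  have hztc : Continuous zt := continuousOn_univ.1 hzt
  have hint : ∀ x, ∃ k : ℤ, zt x = z2 c (ix (P x)) (pt (P x)) + k := by
    intro x
    have h1 : ((zt x : ℝ) : AddCircle (1 : ℝ)) = (z2 c (ix (P x)) (pt (P x)) : ℝ) :=
      hzl x (mem_univ x)
    rw [← sub_eq_zero, ← AddCircle.coe_sub, AddCircle.coe_eq_zero_iff] at h1
    obtain ⟨k, hk⟩ := h1
    exact ⟨k, by simp at hk; linarith⟩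
  let Θ : E3 → ℂ := fun x => Th c (ix (P x)) (pt (P x)) (zt x)
  have hΘ : ∀ x i, ∀ y ∈ Om c i, P x = π' i y → Θ x = Th c i y (zt x) := by
    intro x i y hy hx
    have := (hco i y hy).2 (zt x) (by rw [← hx]; exact hint x)
    simp only [Θ]
    rw [hx, this]
  have hΘc : Continuous Θ := by
    rw [continuous_iff_continuousAt]
    intro x
    obtain ⟨i, hi⟩ := h.ty _ (chart_mem_atlas E3 (P x))
    have h1 : ContinuousAt (fun x' => chartAt E3 (P x) (P x')) x :=
      ((chartAt E3 (P x)).continuousAt (mem_chart_source E3 (P x))).comp hP.continuousAt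
    have h2 : ContinuousAt (fun x' => Th c i (chartAt E3 (P x) (P x')) (zt x')) x :=
      ContinuousAt.comp (g := fun x : E3 × ℝ => Th c i x.1 x.2)
        (f := fun x' => (chartAt E3 (P x) (P x'), zt x'))
        (continuous_Th (c := c) i).continuousAt (h1.prodMk hztc.continuousAt)
    refine h2.congr ?_
    filter_upwards [hP.continuousAt.eventually (chart_source_mem_nhds E3 (P x))] with x' hx'
    have h3 := (chartAt E3 (P x)).map_source hx'
    refine (hΘ x' i _ (hi.1 h3) ?_).symm
    rw [← hi.2 _ h3, (chartAt E3 (P x)).left_inv hx']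
  have hne : ∀ x, Θ x ≠ 0 := fun x => Th_ne hc _ (hpt _) _
  obtain ⟨L, hL, -, hLl⟩ := exists_lift_convex Complex.isCoveringMap_exp (convex_univ (E := E3))
    (f := fun x => (⟨Θ x, hne x⟩ : {z : ℂ // z ≠ 0})) (hΘc.subtype_mk _).continuousOn (mem_univ 0)
    (x₀ := Complex.log (Θ 0)) (Subtype.ext (Complex.exp_log (hne 0)))
  have hLc : Continuous L := continuousOn_univ.1 hL
  have hmem : ∀ β : ℝ, ((0, 0, β) : E3) ∈ Om c none := fun β => by simp [Om]
  have hψc : Continuous (fun β : ℝ => ψ (0, 0, β)) :=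
    hψ.comp_continuous (by fun_prop) hmem
  have hval : ∀ β : ℝ, Complex.exp (L (ψ (0, 0, β)) + 2 * Complex.I * β) = -1 := by
    intro β
    have h1 : Complex.exp (L (ψ (0, 0, β))) = Θ (ψ (0, 0, β)) :=
      congrArg Subtype.val (hLl _ (mem_univ _))
    have hW : Wc c none ((0, 0, β) : E3) = (0, 0) := by simp [Wc, lam_zero]
    have h2 : sig c none ((0, 0, β) : E3) = Complex.I * Complex.exp (-(β : ℂ) * Complex.I) := by
      simp only [sig, z1, hW]
      rw [Complex.exp_mul_I, Complex.cos_neg, Complex.sin_neg, lam_zero (by norm_num)]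
      simp only [Sf, kap, zero_div, mul_zero, sin_zero, cos_zero, sub_zero]
      push_cast
      have := Complex.I_mul_I
      norm_num
      linear_combination (Complex.sin β) * this
    rw [Complex.exp_add, h1, hΘ _ none _ (hmem β) (hl _ (hmem β))]
    unfold Th
    rw [h2]
    simp only [z1, hW, zero_div, zero_mul, Complex.ofReal_zero, mul_zero, Complex.exp_zero, mul_one]
    rw [mul_pow, Complex.I_sq, ← Complex.exp_nat_mul, mul_assoc, ← Complex.exp_add]
    have : ((2 : ℕ) : ℂ) * (-(β : ℂ) * Complex.I) + 2 * Complex.I * β = 0 := by push_cast; ring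
    rw [this]; simp
  have hg : Continuous (fun β : ℝ => L (ψ (0, 0, β)) + 2 * Complex.I * β) := by
    exact (hLc.comp hψc).add (continuous_const.mul Complex.continuous_ofReal)
  have := Complex.isCoveringMap_exp.const_of_comp hg
    (fun a a' => Subtype.ext ((hval a).trans (hval a').symm)) (2 * π) 0
  rw [hper] at this
  have h0 : ((0, 0, 0) : E3) = 0 := rfl
  rw [h0] at this
  simp at this

end Vale.Agent.P255
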