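import Vale.Agent.P255.NoConj
import Vale.Agent.P255.ESys
import Vale.Agent.P255.Dist
import Vale.Agent.P255.MinD
import Vale.Agent.P255.Cat
import Vale.Agent.P255.Et
import Vale.Agent.P255.GeoB
import Vale.Agent.P255.TopA
import Vale.Agent.P255.TopB
import Vale.Agent.P255.ProfB

open scoped ContDiff Manifold Topology
open Set Filter Real

noncomputable section

namespace Vale.Agent.P255

theorem not_nonpos {M : Type} [TopologicalSpace M] [T2Space M] [CompactSpace M]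
    [ChartedSpace E3 M] [IsManifold 𝓘(ℝ, E3) ∞ M] {c : Bool → ℝ} (hc : ∀ b, 2 ≤ c b)
    {π' : Option Bool → E3 → M} (h : Pres (Om c) (Rel c) π') (g : RMetric E3 M) : ¬ Nonpos g := by
  intro hg
  have hes := es_of_nonpos g hg
  set p := π' none 0 with hp
  obtain ⟨d, hd, hinv, hcont, h0⟩ := exists_dist hes p
  obtain ⟨ψ, a, b, c', e, u, s, hψ, hl, hD, hs, h1, h2, h3, h4, h5, h6, h7⟩ :=
    deck_relations hc h (hes.cov p) (hes.zero p)
  obtain ⟨κ, hκ, hco⟩ := exists_coercive (g.inner p) (g.pos p)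
  have hpr : ∀ y, Real.sqrt κ * ‖y‖ ≤ d 0 y := by
    intro y
    rw [h0, ← Real.sqrt_sq (norm_nonneg y), ← Real.sqrt_mul hκ.le]
    exact Real.sqrt_le_sqrt (hco y)
  have hsD : s ∈ Deck (ex g p) := hD s (by simp)
  have huD : u ∈ Deck (ex g p) := hD u (by simp)
  obtain ⟨x₁, hx₁⟩ := exists_min (hes.cov p) hd hinv hcont (Real.sqrt_pos.2 hκ) hpr hsD
  obtain ⟨x₂, hx₂⟩ := exists_min (hes.cov p) hd hinv hcont (Real.sqrt_pos.2 hκ) hpr
    ((Deck (ex g p)).mul_mem huD hsD)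
  have hfix := cat_obstruction hd (fun T hT => hinv T (hD T hT)) h1 h2 h3 h4 h5 h6 h7 hx₁ hx₂
  have hs1 : s = 1 := deck_ext (hes.cov p) hsD (Deck (ex g p)).one_mem hfix
  have h00 : (0 : E3) ∈ Om c none := by simp [Om]
  have := hs 0 h00
  rw [hs1, zero_add] at this
  exact fibre_nontrivial hc h (hes.cov p).continuous hψ hl this

theorem main : ∃ (M : Type) (_ : TopologicalSpace M) (_ : T2Space M) (_ : CompactSpace M)
    (_ : ChartedSpace (ℝ × ℝ × ℝ) M) (_ : IsManifold 𝓘(ℝ, ℝ × ℝ × ℝ) ∞ M),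
    (∃ g : RMetric (ℝ × ℝ × ℝ) M, NoConj g) ∧ ∀ g : RMetric (ℝ × ℝ × ℝ) M, ¬ Nonpos g := by
  obtain ⟨P⟩ := exists_prof
  obtain ⟨M, i1, i2, i3, i4, i5, π', h⟩ := exists_manifold (etale_model P.hc)
    ⟨none, 0, by simp [Om]⟩
  exact ⟨M, i1, i2, i3, i4, i5, exists_noConj P h, not_nonpos P.hc h⟩

end Vale.Agent.P255
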