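import Vale.Agent.P255.Base

open scoped ContDiff Manifold Topology
open Set Filter Real

noncomputable section

namespace Vale.Agent.P255

/-! The model: gluing data, metric profile, Lyapunov function (definitions only). -/

abbrev E3 := ℝ × ℝ × ℝ

/-- `none` = neck, `some false` = left flat piece, `some true` = right flat piece -/
def Om (c : Bool → ℝ) : Option Bool → Set E3
  | none => {y | -3 < y.1 ∧ y.1 < 4}
  | some b => {y | |y.1| < c b + 11 ∧ |y.2.1| < c b + 11 ∧ (c b + 1) ^ 2 < y.1 ^ 2 + y.2.1 ^ 2}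

def hgt (b : Bool) (y : E3) : ℝ := if b then y.1 - 1 else - y.1
def ang (b : Bool) (y : E3) : ℝ := if b then y.2.2 - y.2.1 else y.2.1
def fib (b : Bool) (y : E3) : ℝ := if b then y.2.1 else y.2.2

def pol (c : Bool → ℝ) (b : Bool) (y : E3) : E3 :=
  ((c b + hgt b y) * cos (ang b y), (c b + hgt b y) * sin (ang b y), fib b y)

def Rel (c : Bool → ℝ) : Option Bool → E3 → Option Bool → E3 → Prop
  | none, y, none, y' => ∃ m n : ℤ, y' = y + (0, 2 * π * m, 2 * π * n)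
  | some b, y, some b', y' => b = b' ∧
      ∃ l m n : ℤ, y' = y + (2 * (c b + 10) * l, 2 * (c b + 10) * m, 2 * π * n)
  | none, y, some b, y' => 0 ≤ hgt b y ∧ ∃ n : ℤ, y' = pol c b y + (0, 0, 2 * π * n)
  | some b, y, none, y' => 0 ≤ hgt b y' ∧ ∃ n : ℤ, y = pol c b y' + (0, 0, 2 * π * n)

def e1 : E3 →L[ℝ] ℝ := ContinuousLinearMap.fst ℝ ℝ (ℝ × ℝ)
def e2 : E3 →L[ℝ] ℝ := (ContinuousLinearMap.fst ℝ ℝ ℝ).comp (ContinuousLinearMap.snd ℝ ℝ (ℝ × ℝ))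
def e3 : E3 →L[ℝ] ℝ := (ContinuousLinearMap.snd ℝ ℝ ℝ).comp (ContinuousLinearMap.snd ℝ ℝ (ℝ × ℝ))

def bil (b c d : ℝ) : E3 →L[ℝ] E3 →L[ℝ] ℝ :=
  e1.smulRight e1 + b • e2.smulRight e2 + c • (e2.smulRight e3 + e3.smulRight e2)
    + d • e3.smulRight e3

theorem bil_apply (b c d : ℝ) (v w : E3) : bil b c d v w =
    v.1 * w.1 + b * (v.2.1 * w.2.1) + c * (v.2.1 * w.2.2 + v.2.2 * w.2.1) + d * (v.2.2 * w.2.2) := by
  simp [bil, e1, e2, e3, mul_add]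

def qf (a k c p q : ℝ) : ℝ := (a * p ^ 2 + 2 * k * p * q + c * q ^ 2) / 2

/-- profile of the inverse metric `[[A,K],[K,C]]` of the neck -/
structure Prof where
  c : Bool → ℝ
  A : ℝ → ℝ
  K : ℝ → ℝ
  C : ℝ → ℝ
  B : ℝ
  D : ℝ
  hc : ∀ b, 2 ≤ c b
  sA : ContDiff ℝ ∞ A
  sK : ContDiff ℝ ∞ K
  sC : ContDiff ℝ ∞ C
  posA : ∀ x, 0 < A x
  posD : ∀ x, 0 < A x * C x - K x ^ 2
  left : ∀ x, x ≤ 0 → K x = 0 ∧ C x = B ∧ deriv K x = 0 ∧ deriv C x = 0 ∧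
    deriv (deriv K) x = 0 ∧ deriv (deriv C) x = 0
  right : ∀ x, 1 ≤ x → A x = D ∧ K x = D ∧ deriv A x = 0 ∧ deriv K x = 0 ∧
    deriv (deriv A) x = 0 ∧ deriv (deriv K) x = 0
  endL : ∀ x, x ≤ -1 → A x = 1 / (c false - x) ^ 2
  endR : ∀ x, 2 ≤ x → C x - D = 1 / (c true + x - 1) ^ 2
  monoA : ∀ x, 0 ≤ deriv A x
  monoC : ∀ x, deriv C x ≤ 0
  npcL : ∀ x, x ≤ 0 → 2 * A x * deriv (deriv A) x ≤ 3 * deriv A x ^ 2
  npcR : ∀ x, 1 ≤ x → 2 * (C x - D) * deriv (deriv C) x ≤ 3 * deriv C x ^ 2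
  conc : ∀ x ∈ Icc (0 : ℝ) 1, ∀ p q,
    qf (deriv (deriv A) x) (deriv (deriv K) x) (deriv (deriv C) x) p q ≤ 0
  ineqL : ∀ x ∈ Icc (0 : ℝ) 1, ∀ p q, 0 < qf (deriv A x) (deriv K x) (deriv C x) p q →
    A x * qf (deriv A x) (deriv K x) (deriv C x) p q ^ 2
      - 2 * (A x * p + K x * q) * (deriv A x * p + deriv K x * q)
          * qf (deriv A x) (deriv K x) (deriv C x) p q
      + (A x * p + K x * q) ^ 2
          * qf (deriv (deriv A) x) (deriv (deriv K) x) (deriv (deriv C) x) p q ≤ 0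
  ineqR : ∀ x ∈ Icc (0 : ℝ) 1, ∀ p q, qf (deriv A x) (deriv K x) (deriv C x) p q < 0 →
    (A x - 2 * K x + C x) * qf (deriv A x) (deriv K x) (deriv C x) p q ^ 2
      - 2 * ((K x - A x) * p + (C x - K x) * q)
          * ((deriv K x - deriv A x) * p + (deriv C x - deriv K x) * q)
          * qf (deriv A x) (deriv K x) (deriv C x) p q
      + ((K x - A x) * p + (C x - K x) * q) ^ 2
          * qf (deriv (deriv A) x) (deriv (deriv K) x) (deriv (deriv C) x) p q ≤ 0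

namespace Prof

variable (P : Prof)

def V1 (x p q : ℝ) : ℝ := qf (deriv P.A x) (deriv P.K x) (deriv P.C x) p q
def V2 (x p q : ℝ) : ℝ :=
  qf (deriv (deriv P.A) x) (deriv (deriv P.K) x) (deriv (deriv P.C) x) p q
def mL (x p q : ℝ) : ℝ := P.A x * p + P.K x * q
def mR (x p q : ℝ) : ℝ := (P.K x - P.A x) * p + (P.C x - P.K x) * q
def fL (x p q : ℝ) : ℝ :=
  if x < 0 then deriv P.A x / (2 * P.A x ^ 2) else max (P.V1 x p q) 0 / P.mL x p q ^ 2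
def fR (x p q : ℝ) : ℝ :=
  if 1 < x then - deriv P.C x / (2 * (P.C x - P.D) ^ 2) else max (- P.V1 x p q) 0 / P.mR x p q ^ 2

/-- the Lyapunov function in real variables -/
def QR (p q dp dq x ξ X Ξ a₂ a₃ : ℝ) : ℝ :=
  X * Ξ + a₂ * dp + a₃ * dq - ξ * (P.fL x p q * a₂ ^ 2 - P.fR x p q * (a₃ - a₂) ^ 2)
    + 2 * (P.fL x p q * P.mL x p q * a₂ - P.fR x p q * P.mR x p q * (a₃ - a₂)) * X

def Dt (x : ℝ) : ℝ := P.A x * P.C x - P.K x ^ 2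

/-- metric of the neck -/
def GN (y : E3) : E3 →L[ℝ] E3 →L[ℝ] ℝ :=
  bil (P.C y.1 / P.Dt y.1) (- P.K y.1 / P.Dt y.1) (P.A y.1 / P.Dt y.1)

/-- the three local metrics -/
def Gm : Option Bool → E3 → E3 →L[ℝ] E3 →L[ℝ] ℝ
  | none => P.GN
  | some b => fun _ => bil 1 0 (if b then 1 / P.D else 1 / P.B)

def pp (z : E3 × E3) : ℝ := P.GN z.1 z.2 (0, 1, 0)
def pq (z : E3 × E3) : ℝ := P.GN z.1 z.2 (0, 0, 1)
def dp (z δ : E3 × E3) : ℝ := P.GN z.1 δ.2 (0, 1, 0) + fderiv ℝ P.GN z.1 δ.1 z.2 (0, 1, 0)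
def dq (z δ : E3 × E3) : ℝ := P.GN z.1 δ.2 (0, 0, 1) + fderiv ℝ P.GN z.1 δ.1 z.2 (0, 0, 1)

def QN (z δ : E3 × E3) : ℝ :=
  P.QR (P.pp z) (P.pq z) (P.dp z δ) (P.dq z δ) z.1.1 z.2.1 δ.1.1 δ.2.1 δ.1.2.1 δ.1.2.2

/-- the three local Lyapunov functions -/
def Qm : Option Bool → E3 × E3 → E3 × E3 → ℝ
  | none => P.QN
  | some b => mm (P.Gm (some b))

end Prof

end Vale.Agent.P255
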