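import Vale.Agent.P255.LocA
import Vale.Agent.P255.LocB
import Vale.Agent.P255.Comp

open scoped ContDiff Manifold Topology
open Set Filter Real

noncomputable section

namespace Vale.Agent.P255

variable (P : Prof)

namespace NeckA

theorem hfst {F G : Type} [NormedAddCommGroup F] [NormedSpace ℝ F] [NormedAddCommGroup G]
    [NormedSpace ℝ G] {f : ℝ → F × G} {f' : F × G} {t : ℝ} (h : HasDerivAt f f' t) :
    HasDerivAt (fun s => (f s).1) f'.1 t :=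
  (ContinuousLinearMap.fst ℝ F G).hasFDerivAt.comp_hasDerivAt t h

theorem hsnd {F G : Type} [NormedAddCommGroup F] [NormedSpace ℝ F] [NormedAddCommGroup G]
    [NormedSpace ℝ G] {f : ℝ → F × G} {f' : F × G} {t : ℝ} (h : HasDerivAt f f' t) :
    HasDerivAt (fun s => (f s).2) f'.2 t :=
  (ContinuousLinearMap.snd ℝ F G).hasFDerivAt.comp_hasDerivAt t h

def hb (x : ℝ) : ℝ := P.C x / P.Dt x
def hc (x : ℝ) : ℝ := - P.K x / P.Dt x
def hd (x : ℝ) : ℝ := P.A x / P.Dt x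

theorem d1 {f : ℝ → ℝ} (h : ContDiff ℝ ∞ f) (x : ℝ) : HasDerivAt f (deriv f x) x :=
  (h.differentiable (by simp) x).hasDerivAt

theorem d2 {f : ℝ → ℝ} (h : ContDiff ℝ ∞ f) (x : ℝ) :
    HasDerivAt (deriv f) (deriv (deriv f) x) x :=
  d1 (contDiff_infty_iff_deriv.1 h).2 x

theorem dDt (x : ℝ) : HasDerivAt P.Dt
    (deriv P.A x * P.C x + P.A x * deriv P.C x - 2 * P.K x * deriv P.K x) x := by
  have h := ((d1 P.sA x).mul (d1 P.sC x)).sub ((d1 P.sK x).mul (d1 P.sK x))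
  have e : P.Dt = P.A * P.C - P.K * P.K := by
    funext y
    simp [Prof.Dt, sq]
  rw [e]
  exact h.congr_deriv (by ring)

def b1 (x : ℝ) : ℝ :=
  -(hb P x ^ 2 * deriv P.A x + 2 * hb P x * hc P x * deriv P.K x + hc P x ^ 2 * deriv P.C x)
def c1 (x : ℝ) : ℝ :=
  -(hb P x * hc P x * deriv P.A x + (hb P x * hd P x + hc P x ^ 2) * deriv P.K x +
    hc P x * hd P x * deriv P.C x)
def d1' (x : ℝ) : ℝ :=
  -(hc P x ^ 2 * deriv P.A x + 2 * hc P x * hd P x * deriv P.K x + hd P x ^ 2 * deriv P.C x)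

theorem Dt_ne (x : ℝ) : P.Dt x ≠ 0 := (P.posD x).ne'

theorem dhb (x : ℝ) : HasDerivAt (hb P) (b1 P x) x := by
  refine ((d1 P.sC x).div (dDt P x) (Dt_ne P x)).congr_deriv ?_
  have h := Dt_ne P x
  unfold b1 hb hc
  field_simp
  unfold Prof.Dt
  ring

theorem dhc (x : ℝ) : HasDerivAt (hc P) (c1 P x) x := by
  refine ((d1 P.sK x).neg.div (dDt P x) (Dt_ne P x)).congr_deriv ?_
  have h := Dt_ne P x
  unfold c1 hb hc hd
  simp only [Pi.neg_apply]
  field_simp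
  unfold Prof.Dt
  ring

theorem dhd (x : ℝ) : HasDerivAt (hd P) (d1' P x) x := by
  refine ((d1 P.sA x).div (dDt P x) (Dt_ne P x)).congr_deriv ?_
  have h := Dt_ne P x
  unfold d1' hc hd
  field_simp
  unfold Prof.Dt
  ring

theorem GN_apply (y v w : E3) : P.GN y v w = v.1 * w.1 + hb P y.1 * (v.2.1 * w.2.1) +
    hc P y.1 * (v.2.1 * w.2.2 + v.2.2 * w.2.1) + hd P y.1 * (v.2.2 * w.2.2) :=
  bil_apply _ _ _ v w

theorem fd_fst {f : ℝ → ℝ} {f' : ℝ} {y : E3} (h : HasDerivAt f f' y.1) (a : E3) :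
    fderiv ℝ (fun z : E3 => f z.1) y a = a.1 * f' := by
  have h1 : HasFDerivAt (fun z : E3 => f z.1) _ y := h.hasFDerivAt.comp y hasFDerivAt_fst
  rw [h1.fderiv]
  simp

theorem lmN : LM P.GN univ := lm_Gm P none

theorem fd_GN (y a v w : E3) : fderiv ℝ P.GN y a v w = a.1 * (b1 P y.1 * (v.2.1 * w.2.1) +
    c1 P y.1 * (v.2.1 * w.2.2 + v.2.2 * w.2.1) + d1' P y.1 * (v.2.2 * w.2.2)) := by
  have h0 : HasFDerivAt P.GN (fderiv ℝ P.GN y) y :=
    (((lmN P).sm.contDiffAt univ_mem).differentiableAt (by simp)).hasFDerivAt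
  have h1 := (h0.clm_apply (hasFDerivAt_const v y)).clm_apply (hasFDerivAt_const w y)
  have h2 : fderiv ℝ (fun z => P.GN z v w) y a = fderiv ℝ P.GN y a v w := by
    rw [h1.fderiv]
    simp
  have h3 := fd_fst (y := y) (((((dhb P y.1).mul_const (v.2.1 * w.2.1)).const_add (v.1 * w.1)).add
    ((dhc P y.1).mul_const (v.2.1 * w.2.2 + v.2.2 * w.2.1))).add
    ((dhd P y.1).mul_const (v.2.2 * w.2.2))) a
  rw [← h2, ← h3]
  simp only [GN_apply, Pi.add_apply]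

theorem pp_eq (z : E3 × E3) : P.pp z = hb P z.1.1 * z.2.2.1 + hc P z.1.1 * z.2.2.2 := by
  simp [Prof.pp, GN_apply]

theorem pq_eq (z : E3 × E3) : P.pq z = hc P z.1.1 * z.2.2.1 + hd P z.1.1 * z.2.2.2 := by
  simp [Prof.pq, GN_apply]

theorem dp_eq (z δ : E3 × E3) : P.dp z δ = hb P z.1.1 * δ.2.2.1 + hc P z.1.1 * δ.2.2.2 +
    δ.1.1 * (b1 P z.1.1 * z.2.2.1 + c1 P z.1.1 * z.2.2.2) := by
  simp [Prof.dp, GN_apply, fd_GN]

theorem dq_eq (z δ : E3 × E3) : P.dq z δ = hc P z.1.1 * δ.2.2.1 + hd P z.1.1 * δ.2.2.2 +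
    δ.1.1 * (c1 P z.1.1 * z.2.2.1 + d1' P z.1.1 * z.2.2.2) := by
  simp [Prof.dq, GN_apply, fd_GN]

theorem inv1 (x : ℝ) : P.A x * hb P x + P.K x * hc P x = 1 := by
  have h := Dt_ne P x
  unfold hb hc
  field_simp
  unfold Prof.Dt
  ring

theorem inv2 (x : ℝ) : P.A x * hc P x + P.K x * hd P x = 0 := by
  unfold hc hd
  ring

theorem inv3 (x : ℝ) : P.K x * hb P x + P.C x * hc P x = 0 := by
  unfold hb hc
  ring

theorem inv4 (x : ℝ) : P.K x * hc P x + P.C x * hd P x = 1 := by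
  have h := Dt_ne P x
  unfold hc hd
  field_simp
  unfold Prof.Dt
  ring

/-- the second derivative of the metric -/
theorem fd_two (y a ξ w : E3) : fderiv ℝ (fun y => fderiv ℝ P.GN y ξ w w) y a =
    a.1 * (ξ.1 * -(2 * P.V2 y.1 (P.pp (y, w)) (P.pq (y, w)) +
      2 * (deriv P.A y.1 * P.pp (y, w) + deriv P.K y.1 * P.pq (y, w)) *
        (b1 P y.1 * w.2.1 + c1 P y.1 * w.2.2) +
      2 * (deriv P.K y.1 * P.pp (y, w) + deriv P.C y.1 * P.pq (y, w)) *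
        (c1 P y.1 * w.2.1 + d1' P y.1 * w.2.2))) := by
  have hp := ((dhb P y.1).mul_const w.2.1).add ((dhc P y.1).mul_const w.2.2)
  have hq := ((dhc P y.1).mul_const w.2.1).add ((dhd P y.1).mul_const w.2.2)
  have h := fd_fst (y := y) ((((((d2 P.sA y.1).mul (hp.mul hp)).add
    (((d2 P.sK y.1).mul (hp.mul hq)).const_mul 2)).add
    ((d2 P.sC y.1).mul (hq.mul hq))).neg).const_mul ξ.1) a
  refine Eq.trans (congrArg (fun F : E3 → ℝ => fderiv ℝ F y a) (funext fun u => ?_))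
    (h.trans ?_)
  · simp only [fd_GN, Pi.add_apply, Pi.mul_apply, Pi.neg_apply, b1, c1, d1']
    ring
  · simp only [pp_eq, pq_eq, Prof.V2, qf, Pi.add_apply, Pi.mul_apply]
    ring

end NeckA

open NeckA

/-- Hamiltonian form of the geodesic and Jacobi equations in the neck -/
theorem neck_ham {z δ : ℝ → E3 × E3} {t : ℝ} (h : Sol P.GN z δ t) :
    HasDerivAt (fun s => P.pp (z s)) 0 t ∧ HasDerivAt (fun s => P.pq (z s)) 0 t ∧
    HasDerivAt (fun s => P.dp (z s) (δ s)) 0 t ∧ HasDerivAt (fun s => P.dq (z s) (δ s)) 0 t ∧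
    HasDerivAt (fun s => (z s).1.1) (z t).2.1 t ∧
    HasDerivAt (fun s => (z s).2.1) (- P.V1 (z t).1.1 (P.pp (z t)) (P.pq (z t))) t ∧
    HasDerivAt (fun s => (δ s).1.1) (δ t).2.1 t ∧
    HasDerivAt (fun s => (δ s).2.1)
      (- P.V2 (z t).1.1 (P.pp (z t)) (P.pq (z t)) * (δ t).1.1
        - (deriv P.A (z t).1.1 * P.pp (z t) * P.dp (z t) (δ t)
          + deriv P.K (z t).1.1 * (P.pp (z t) * P.dq (z t) (δ t) + P.pq (z t) * P.dp (z t) (δ t))
          + deriv P.C (z t).1.1 * P.pq (z t) * P.dq (z t) (δ t))) t ∧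
    HasDerivAt (fun s => (δ s).1.2.1)
      (P.A (z t).1.1 * P.dp (z t) (δ t) + P.K (z t).1.1 * P.dq (z t) (δ t)
        + (deriv P.A (z t).1.1 * P.pp (z t) + deriv P.K (z t).1.1 * P.pq (z t)) * (δ t).1.1) t ∧
    HasDerivAt (fun s => (δ s).1.2.2)
      (P.K (z t).1.1 * P.dp (z t) (δ t) + P.C (z t).1.1 * P.dq (z t) (δ t)
        + (deriv P.K (z t).1.1 * P.pp (z t) + deriv P.C (z t).1.1 * P.pq (z t)) * (δ t).1.1) t := by
  have L1 := lag_one (lmN P) (mem_univ _) h.1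
  have L2 := lag_two (lmN P) (mem_univ _) h
  have z1 : HasDerivAt (fun s => (z s).1) (z t).2 t := hfst h.1
  have δ1 : HasDerivAt (fun s => (δ s).1) (δ t).2 t := by
    have h2 := hfst h.2
    rw [fderiv_spray (lmN P) (mem_univ _)] at h2
    exact h2
  have i1 := inv1 P (z t).1.1
  have i2 := inv2 P (z t).1.1
  have i3 := inv3 P (z t).1.1
  have i4 := inv4 P (z t).1.1
  refine ⟨(L1 (0, 1, 0)).congr_deriv (by simp [fd_GN]), (L1 (0, 0, 1)).congr_deriv (by simp [fd_GN]),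
    (L2 (0, 1, 0)).congr_deriv (by simp [fd_GN]), (L2 (0, 0, 1)).congr_deriv (by simp [fd_GN]),
    hfst z1, ?_, hfst δ1, ?_, (hfst (hsnd δ1)).congr_deriv ?_, (hsnd (hsnd δ1)).congr_deriv ?_⟩
  · have h1 := L1 (1, 0, 0)
    simp only [GN_apply, mul_one, mul_zero, add_zero] at h1
    refine h1.congr_deriv ?_
    simp only [fd_GN, pp_eq, pq_eq, Prof.V1, qf, b1, c1, d1']
    ring
  · have h1 := L2 (1, 0, 0)
    rw [fd_two] at h1
    simp only [GN_apply, fd_GN, mul_one, mul_zero, add_zero] at h1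
    refine h1.congr_deriv ?_
    simp only [pp_eq, pq_eq, dp_eq, dq_eq, Prof.V2, qf, b1, c1, d1']
    ring
  · simp only [pp_eq, pq_eq, dp_eq, dq_eq, b1, c1, d1']
    linear_combination (-(δ t).2.2.1 + (δ t).1.1 * (deriv P.A (z t).1.1 *
      (hb P (z t).1.1 * (z t).2.2.1 + hc P (z t).1.1 * (z t).2.2.2) + deriv P.K (z t).1.1 *
      (hc P (z t).1.1 * (z t).2.2.1 + hd P (z t).1.1 * (z t).2.2.2))) * i1 +
      (-(δ t).2.2.2 + (δ t).1.1 * (deriv P.K (z t).1.1 *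
      (hb P (z t).1.1 * (z t).2.2.1 + hc P (z t).1.1 * (z t).2.2.2) + deriv P.C (z t).1.1 *
      (hc P (z t).1.1 * (z t).2.2.1 + hd P (z t).1.1 * (z t).2.2.2))) * i2
  · simp only [pp_eq, pq_eq, dp_eq, dq_eq, b1, c1, d1']
    linear_combination (-(δ t).2.2.1 + (δ t).1.1 * (deriv P.A (z t).1.1 *
      (hb P (z t).1.1 * (z t).2.2.1 + hc P (z t).1.1 * (z t).2.2.2) + deriv P.K (z t).1.1 *
      (hc P (z t).1.1 * (z t).2.2.1 + hd P (z t).1.1 * (z t).2.2.2))) * i3 +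
      (-(δ t).2.2.2 + (δ t).1.1 * (deriv P.K (z t).1.1 *
      (hb P (z t).1.1 * (z t).2.2.1 + hc P (z t).1.1 * (z t).2.2.2) + deriv P.C (z t).1.1 *
      (hc P (z t).1.1 * (z t).2.2.1 + hd P (z t).1.1 * (z t).2.2.2))) * i4

theorem QN_eq_mm (z δ : E3 × E3) (h : z.1.1 < 0 ∨ 1 < z.1.1) : P.QN z δ = mm P.GN z δ := by
  rw [mm_eq (lmN P) (mem_univ _), GN_apply, fd_GN, Prof.QN, Prof.QR, dp_eq, dq_eq]
  have hA := P.posA z.1.1
  have hD := P.posD z.1.1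
  rcases h with h | h
  · obtain ⟨h1, -, h2, h3, -⟩ := P.left _ h.le
    have hC : P.C z.1.1 ≠ 0 := fun e => by simp [e, h1] at hD
    have e1 : P.fR z.1.1 (P.pp z) (P.pq z) = 0 := by
      rw [Prof.fR, if_neg (by linarith), max_eq_right, zero_div]
      simp only [Prof.V1, qf, h2, h3]
      have := mul_nonneg (P.monoA z.1.1) (sq_nonneg (P.pp z))
      linarith
    rw [e1, Prof.fL, if_pos h]
    simp only [Prof.mL, pp_eq, b1, c1, d1', hb, hc, hd, Prof.Dt, h1, h2, h3]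
    field_simp
    ring
  · obtain ⟨h0, h1, h2, h3, -⟩ := P.right _ h.le
    rw [h0] at hA
    rw [h0, h1] at hD
    have hC : P.C z.1.1 - P.D ≠ 0 := fun e => by
      rw [sub_eq_zero.1 e, sq, sub_self] at hD
      exact lt_irrefl _ hD
    have e1 : P.fL z.1.1 (P.pp z) (P.pq z) = 0 := by
      rw [Prof.fL, if_neg (by linarith), max_eq_right, zero_div]
      simp only [Prof.V1, qf, h2, h3]
      have := mul_nonpos_of_nonpos_of_nonneg (P.monoC z.1.1) (sq_nonneg (P.pq z))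
      linarith
    have e2 : P.Dt z.1.1 = P.D * (P.C z.1.1 - P.D) := by
      rw [Prof.Dt, h0, h1]
      ring
    rw [e1, Prof.fR, if_pos h]
    simp only [Prof.mR, pp_eq, pq_eq, b1, c1, d1', hb, hc, hd, e2, h0, h1, h2, h3]
    field_simp
    ring

theorem QN_transl (z δ : E3 × E3) (s₁ s₂ : ℝ) : P.QN (z.1 + (0, s₁, s₂), z.2) δ = P.QN z δ := by
  simp only [Prof.QN, pp_eq, pq_eq, dp_eq, dq_eq, Prod.fst_add, add_zero]

theorem QN_zero (z : E3 × E3) (b : E3) : P.QN z (0, b) = 0 := by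
  simp [Prof.QN, Prof.QR]

theorem neck_nondeg (z δ : E3 × E3) (h1 : δ.1 = 0) (h2 : δ.2 ≠ 0) :
    ¬ (δ.2.1 = 0 ∧ P.dp z δ = 0 ∧ P.dq z δ = 0) := by
  rintro ⟨h3, h4, h5⟩
  have h6 := (lmN P).pos z.1 (mem_univ _) _ h2
  rw [dp_eq, h1] at h4
  rw [dq_eq, h1] at h5
  rw [GN_apply, h3] at h6
  simp only [Prod.fst_zero, zero_mul, add_zero] at h4 h5
  refine h6.ne' ?_
  linear_combination δ.2.2.1 * h4 + δ.2.2.2 * h5

end Vale.Agent.P255
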