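import Vale.Agent.P255.Base

open scoped ContDiff Manifold Topology
open Set Filter

noncomputable section

namespace Vale.Agent.P255

namespace NemX

variable {K X Y : Type} [TopologicalSpace K] [CompactSpace K]
  [NormedAddCommGroup X] [NormedSpace ℝ X] [NormedAddCommGroup Y] [NormedSpace ℝ Y]

def ap (A : C(K, X →L[ℝ] Y)) (h : C(K, X)) : C(K, Y) :=
  ⟨fun k => A k (h k), A.continuous.clm_apply h.continuous⟩

def ap2 : C(K, X →L[ℝ] Y) →ₗ[ℝ] C(K, X) →ₗ[ℝ] C(K, Y) :=
  LinearMap.mk₂ ℝ ap (fun _ _ _ => by ext; simp [ap]) (fun _ _ _ => by ext; simp [ap])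
    (fun _ _ _ => by ext; simp [ap]) fun _ _ _ => by ext; simp [ap]

lemma ap2_le (A : C(K, X →L[ℝ] Y)) (h : C(K, X)) : ‖ap2 A h‖ ≤ 1 * ‖A‖ * ‖h‖ := by
  refine (ContinuousMap.norm_le _ (by positivity)).2 fun k => ?_
  rw [one_mul]
  exact ((A k).le_opNorm _).trans
    (mul_le_mul (A.norm_coe_le_norm k) (h.norm_coe_le_norm k) (norm_nonneg _) (by positivity))

def apL : C(K, X →L[ℝ] Y) →L[ℝ] C(K, X) →L[ℝ] C(K, Y) :=
  LinearMap.mkContinuous₂ (𝕜 := ℝ) (𝕜₂ := ℝ) (𝕜₃ := ℝ) (E := C(K, X →L[ℝ] Y)) (F := C(K, X))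
    (G := C(K, Y)) ap2 1 ap2_le

lemma apL_apply (A : C(K, X →L[ℝ] Y)) (h : C(K, X)) (k : K) : apL A h k = A k (h k) := rfl

lemma apL_contDiff (n : ℕ) : ContDiff ℝ n fun A : C(K, X →L[ℝ] Y) => apL A := by
  refine IsBoundedLinearMap.contDiff ⟨⟨fun _ _ => map_add _ _ _, fun _ _ => map_smul _ _ _⟩,
    1, one_pos, fun A => ?_⟩
  exact ContinuousLinearMap.opNorm_le_bound _ (by positivity) fun h => ap2_le A h

lemma hasF (F : C(X, Y)) (F' : C(X, X →L[ℝ] Y)) (hF : ∀ x, HasFDerivAt F (F' x) x) (c : C(K, X)) :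
    HasFDerivAt (fun c : C(K, X) => F.comp c) (apL (F'.comp c)) c := by
  rw [hasFDerivAt_iff_isLittleO_nhds_zero, Asymptotics.isLittleO_iff]
  intro ε hε
  obtain ⟨δ, hδ, h⟩ := Metric.mem_uniformity_dist.1
    ((isCompact_range c.continuous).uniformContinuousAt_of_continuousAt F'
      (fun _ _ => F'.continuous.continuousAt) (Metric.dist_mem_uniformity hε))
  filter_upwards [Metric.ball_mem_nhds (0 : C(K, X)) hδ] with u hu
  rw [mem_ball_zero_iff] at hu
  refine (ContinuousMap.norm_le _ (by positivity)).2 fun k => ?_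
  have h1 := (convex_ball (c k) δ).norm_image_sub_le_of_norm_hasFDerivWithin_le' (f := F)
    (φ := F' (c k)) (C := ε) (x := c k) (y := c k + u k) (fun x _ => (hF x).hasFDerivWithinAt)
    (fun x hx => by
      have := h (a := c k) (b := x) (by rw [dist_comm]; exact hx) ⟨k, rfl⟩
      rw [← dist_eq_norm, dist_comm]
      exact le_of_lt this) (Metric.mem_ball_self hδ)
    (by simpa using (u.norm_coe_le_norm k).trans_lt hu)
  rw [add_sub_cancel_left] at h1
  exact h1.trans (mul_le_mul_of_nonneg_left (u.norm_coe_le_norm k) hε.le)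

end NemX

/-- composition with a globally C^n map is C^n on the space of continuous maps -/
theorem contDiff_postcomp {K X : Type} [TopologicalSpace K] [CompactSpace K]
    [NormedAddCommGroup X] [NormedSpace ℝ X] [FiniteDimensional ℝ X] (n : ℕ) :
    ∀ {Y : Type} [NormedAddCommGroup Y] [NormedSpace ℝ Y] (F : C(X, Y)), ContDiff ℝ n F →
      ContDiff ℝ n (fun c : C(K, X) => F.comp c) := by
  induction n with
  | zero =>
    intro Y _ _ F _
    exact contDiff_zero.2 F.continuous_postcomp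
  | succ n ih =>
    intro Y _ _ F hF
    rw [Nat.cast_add, Nat.cast_one, contDiff_succ_iff_hasFDerivAt] at hF ⊢
    obtain ⟨F', h1, h2⟩ := hF
    exact ⟨fun c => NemX.apL ((⟨F', h1.continuous⟩ : C(X, X →L[ℝ] Y)).comp c),
      (NemX.apL_contDiff n).comp (ih ⟨F', h1.continuous⟩ h1), fun c => NemX.hasF F ⟨F', h1.continuous⟩ h2 c⟩

end Vale.Agent.P255
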