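import Vale.Agent.P255.Lyp
import Vale.Agent.P255.Lyap
import Vale.Agent.P255.Neck
import Vale.Agent.P255.Met

open scoped ContDiff Manifold Topology
open Set Filter Real

noncomputable section

namespace Vale.Agent.P255

namespace NoConjA

theorem loc_const {f : ℝ → ℝ} {t : ℝ} (h : ∀ᶠ s in 𝓝 t, HasDerivAt f 0 s) :
    ∀ᶠ s in 𝓝 t, f s = f t := by
  obtain ⟨ε, hε, hb⟩ := Metric.eventually_nhds_iff_ball.1 h
  filter_upwards [Metric.ball_mem_nhds t hε] with s hs
  exact Metric.isOpen_ball.is_const_of_deriv_eq_zero (convex_ball t ε).isPreconnected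
    (fun x hx => (hb x hx).differentiableAt.differentiableWithinAt)
    (fun x hx => (hb x hx).deriv) hs (Metric.mem_ball_self hε)

theorem chris_const (B : E3 →L[ℝ] E3 →L[ℝ] ℝ) (y a b : E3) : chris (fun _ => B) y a b = 0 := by
  simp [chris]

theorem curv_const (B : E3 →L[ℝ] E3 →L[ℝ] ℝ) (y a b c : E3) :
    curv (fun _ => B) y a b c = 0 := by
  simp [curv, chris_const]

theorem mono_flat {B : E3 →L[ℝ] E3 →L[ℝ] ℝ} (hB : LM (fun _ : E3 => B) univ)
    {z δ : ℝ → E3 × E3} {t : ℝ} (h : Sol (fun _ => B) z δ t) :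
    ∃ κ, 0 ≤ κ ∧ LMo (fun s => mm (fun _ => B) (z s) (δ s)) t κ ∧
      ((δ t).1 = 0 → (δ t).2 ≠ 0 → 0 < κ) := by
  have h1 := mm_deriv hB (mem_univ _) h
  have h2 : qq (fun _ => B) (z t) (δ t) - rr (fun _ => B) (z t) (δ t) = B (δ t).2 (δ t).2 := by
    simp [qq, rr, dJ, chris_const, curv_const]
  rw [h2] at h1
  have hp : (δ t).2 ≠ 0 → 0 < B (δ t).2 (δ t).2 := hB.pos (z t).1 (mem_univ _) _
  refine ⟨_, ?_, LMo.of_hasDerivAt h1 le_rfl, fun _ => hp⟩
  by_cases h0 : (δ t).2 = 0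
  · simp [h0]
  · exact (hp h0).le

theorem mono_neck (P : Prof) {z δ : ℝ → E3 × E3} {t : ℝ} (h : ∀ᶠ s in 𝓝 t, Sol P.GN z δ s) :
    ∃ κ, 0 ≤ κ ∧ LMo (fun s => P.QN (z s) (δ s)) t κ ∧
      ((δ t).1 = 0 → (δ t).2 ≠ 0 → 0 < κ) := by
  have hh := h.mono fun s hs => neck_ham P hs
  have c1 := loc_const (hh.mono fun s hs => hs.1)
  have c2 := loc_const (hh.mono fun s hs => hs.2.1)
  have c3 := loc_const (hh.mono fun s hs => hs.2.2.1)
  have c4 := loc_const (hh.mono fun s hs => hs.2.2.2.1)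
  obtain ⟨κ, h0, h1, h2⟩ := lyap_real P (p := P.pp (z t)) (q := P.pq (z t))
    (dp := P.dp (z t) (δ t)) (dq := P.dq (z t) (δ t)) (x := fun s => (z s).1.1)
    (ξ := fun s => (z s).2.1) (X := fun s => (δ s).1.1) (Ξ := fun s => (δ s).2.1)
    (a₂ := fun s => (δ s).1.2.1) (a₃ := fun s => (δ s).1.2.2) (t := t) (by
      filter_upwards [hh, c1, c2, c3, c4] with s hs e1 e2 e3 e4
      rw [← e1, ← e2, ← e3, ← e4]
      exact hs.2.2.2.2)
  refine ⟨κ, h0, h1.congr ?_, fun a b => h2 ?_ ?_ ?_ (neck_nondeg P (z t) (δ t) a b)⟩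
  · filter_upwards [c1, c2, c3, c4] with s e1 e2 e3 e4
    rw [← e1, ← e2, ← e3, ← e4]
    rfl
  · simp [a]
  · simp [a]
  · simp [a]

theorem hgt_cases {b : Bool} {y : E3} (h : 1 < hgt b y) : y.1 < 0 ∨ 1 < y.1 := by
  cases b
  · left
    simp only [hgt, Bool.false_eq_true, if_false] at h
    linarith
  · right
    simp only [hgt, if_true] at h
    linarith

theorem tmap_transl {τ : E3 → E3} {z : E3 × E3} {v : E3} (h : τ =ᶠ[𝓝 z.1] fun y => y + v) :
    tmap τ =ᶠ[𝓝 z] fun w => w + (v, 0) := by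
  have h1 : ∀ᶠ w : E3 × E3 in 𝓝 z, τ =ᶠ[𝓝 w.1] fun y => y + v :=
    continuous_fst.continuousAt h.eventuallyEq_nhds
  filter_upwards [h1] with w hw
  rw [tmap, hw.fderiv_eq, hw.eq_of_nhds, fderiv_add_const, fderiv_fun_id]
  simp [Prod.ext_iff]

end NoConjA

open NoConjA

variable {M : Type} [TopologicalSpace M] [ChartedSpace E3 M] [IsManifold 𝓘(ℝ, E3) ∞ M]

theorem exists_noConj (P : Prof) {π' : Option Bool → E3 → M} (h : Pres (Om P.c) (Rel P.c) π') :
    ∃ g : RMetric E3 M, NoConj g := by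
  obtain ⟨g, hg⟩ := exists_metric h
    (fun i => (lm_Gm P i).mono (isOpen_Om _ i) (subset_univ _)) (compat_model P)
  have hch : ∀ e : OpenPartialHomeomorph M E3, ∃ i, e ∈ atlas E3 M → Ty (Om P.c) π' e i := by
    intro e
    by_cases he : e ∈ atlas E3 M
    · obtain ⟨i, hi⟩ := h.ty e he
      exact ⟨i, fun _ => hi⟩
    · exact ⟨none, fun h => absurd h he⟩
  choose ix hix using hch
  have hev : ∀ e ∈ atlas E3 M, ∀ y ∈ e.target, loc g.inner e =ᶠ[𝓝 y] P.Gm (ix e) := by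
    intro e he y hy
    filter_upwards [e.open_target.mem_nhds hy] with w hw using hg e he _ (hix e he) w hw
  refine ⟨g, noConj_of_lyap g (fun e => P.Qm (ix e)) ?_ ?_ ?_⟩
  · intro e he e' he' z δ hz
    have hr := h.trans_rel (hix e he) (hix e' he') hz
    have hz' : (e' ∘ e.symm) z.1 ∈ e'.target := e'.map_source hz.2
    have hm : mm (P.Gm (ix e')) (tmap (e' ∘ e.symm) z) (fderiv ℝ (tmap (e' ∘ e.symm)) z δ) =
        mm (P.Gm (ix e)) z δ := by
      rw [← mm_congr (hev e he _ hz.1), ← (pb_loc g he he').mm_eq hz δ]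
      exact (mm_congr (z := tmap (e' ∘ e.symm) z) (hev e' he' _ hz') _).symm
    have h1 := (hix e he).1 hz.1
    have h2 := (hix e' he').1 hz'
    show P.Qm (ix e') _ _ = P.Qm (ix e) _ _
    generalize ix e = i at *
    generalize ix e' = j at *
    rcases i with _ | b <;> rcases j with _ | b'
    · have hc : ContinuousAt (e' ∘ e.symm) z.1 :=
        (contDiffOn_trans he he').continuousOn.continuousAt ((isOpen_trans e e').mem_nhds hz)
      obtain ⟨s₁, s₂, ht⟩ := rel_none_transl hc hr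
      have h3 := tmap_transl ht
      rw [h3.fderiv_eq, h3.eq_of_nhds, fderiv_add_const, fderiv_fun_id]
      have h4 := QN_transl P z δ s₁ s₂
      have h5 : z + (((0 : ℝ), s₁, s₂), (0 : E3)) = (z.1 + (0, s₁, s₂), z.2) := by
        simp [Prod.ext_iff]
      rw [h5]
      exact h4
    · have h3 := one_lt_hgt P.hc h2 hr.self_of_nhds
      exact hm.trans (QN_eq_mm P z δ (hgt_cases h3)).symm
    · have h3 := one_lt_hgt P.hc h1 (rel_symm _ _ _ _ _ hr.self_of_nhds)
      exact (QN_eq_mm P _ _ (hgt_cases h3)).trans hm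
    · exact hm
  · intro e _ z _ b
    show P.Qm (ix e) _ _ = 0
    rcases ix e with _ | b'
    · exact QN_zero P z b
    · simp [Prof.Qm, mm]
  · intro e he z δ t hz hs
    have hc : ContinuousAt (fun s => (z s).1) t :=
      continuous_fst.continuousAt.comp hs.self_of_nhds.1.continuousAt
    have h1 : ∀ᶠ s in 𝓝 t, Sol (P.Gm (ix e)) z δ s := by
      filter_upwards [hs, hc.eventually_mem (e.open_target.mem_nhds hz)] with s h1 h2
      exact h1.congr (hev e he _ h2)
    show ∃ κ, 0 ≤ κ ∧ LMo (fun s => P.Qm (ix e) (z s) (δ s)) t κ ∧ _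
    generalize ix e = i at *
    rcases i with _ | b
    · exact mono_neck P h1
    · exact mono_flat (lm_Gm P (some b)) h1.self_of_nhds

end Vale.Agent.P255
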