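import Vale.Agent.P255.Model

open scoped ContDiff Manifold Topology
open Set Filter Real

noncomputable section

namespace Vale.Agent.P255

theorem sT_symm (x : ℝ) : smoothTransition (1 - x) = 1 - smoothTransition x := by
  have h := smoothTransition.pos_denom x
  unfold smoothTransition
  rw [sub_sub_cancel, add_comm (expNegInvGlue (1 - x))]
  field_simp
  ring

theorem glue_hasDerivAt (x : ℝ) : HasDerivAt expNegInvGlue (x⁻¹ ^ 2 * expNegInvGlue x) x := by
  have h := expNegInvGlue.hasDerivAt_polynomial_eval_inv_mul 1 x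
  simpa using h

theorem sT_hasDerivAt (x : ℝ) : HasDerivAt smoothTransition
    (smoothTransition x * (1 - smoothTransition x) * (x⁻¹ ^ 2 + (1 - x)⁻¹ ^ 2)) x := by
  have h := smoothTransition.pos_denom x
  have h1 := glue_hasDerivAt x
  have h2 : HasDerivAt (fun y => expNegInvGlue (1 - y))
      ((1 - x)⁻¹ ^ 2 * expNegInvGlue (1 - x) * (-1)) x :=
    (glue_hasDerivAt (1 - x)).comp x ((hasDerivAt_id x).const_sub 1)
  have h3 := h1.div (h1.add h2) h.ne'
  refine HasDerivAt.congr_deriv h3 ?_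
  unfold smoothTransition
  simp only [Pi.add_apply]
  generalize x⁻¹ = a
  generalize (1 - x)⁻¹ = b
  field_simp
  ring

theorem sT_deriv_eq (x : ℝ) : deriv smoothTransition x =
    smoothTransition x * (1 - smoothTransition x) * (x⁻¹ ^ 2 + (1 - x)⁻¹ ^ 2) :=
  (sT_hasDerivAt x).deriv

theorem sT_hasDerivAt' (x : ℝ) : HasDerivAt smoothTransition (deriv smoothTransition x) x :=
  (sT_hasDerivAt x).differentiableAt.hasDerivAt

theorem sT_deriv_of_nonpos {x : ℝ} (hx : x ≤ 0) : deriv smoothTransition x = 0 := by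
  rw [sT_deriv_eq, smoothTransition.zero_of_nonpos hx]; ring

theorem sT_deriv_of_one_le {x : ℝ} (hx : 1 ≤ x) : deriv smoothTransition x = 0 := by
  rw [sT_deriv_eq, smoothTransition.one_of_one_le hx]; ring

/-- logistic inequality -/
theorem sT_deriv (x : ℝ) :
    8 * smoothTransition x * (1 - smoothTransition x) ≤ deriv smoothTransition x := by
  rcases le_or_gt x 0 with hx | hx
  · rw [sT_deriv_of_nonpos hx, smoothTransition.zero_of_nonpos hx]; norm_num
  rcases le_or_gt 1 x with hx1 | hx1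
  · rw [sT_deriv_of_one_le hx1, smoothTransition.one_of_one_le hx1]; norm_num
  rw [sT_deriv_eq]
  have h0 : 0 ≤ smoothTransition x * (1 - smoothTransition x) :=
    mul_nonneg (smoothTransition.nonneg x) (sub_nonneg.2 (smoothTransition.le_one x))
  have h1 : 0 < 1 - x := by linarith
  have h8 : 8 ≤ x⁻¹ ^ 2 + (1 - x)⁻¹ ^ 2 := by
    have ha : 4 ≤ x⁻¹ * (1 - x)⁻¹ := by
      rw [← mul_inv, le_inv_comm₀ (by norm_num) (mul_pos hx h1)]
      nlinarith [sq_nonneg (x - 1 / 2)]
    nlinarith [sq_nonneg (x⁻¹ - (1 - x)⁻¹)]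
  nlinarith [mul_le_mul_of_nonneg_left h8 h0]

theorem sT_deriv_nonneg (x : ℝ) : 0 ≤ deriv smoothTransition x := by
  have h := sT_deriv x
  have h0 : 0 ≤ smoothTransition x * (1 - smoothTransition x) :=
    mul_nonneg (smoothTransition.nonneg x) (sub_nonneg.2 (smoothTransition.le_one x))
  nlinarith

theorem le_of_hasDerivAt_nonneg {f f' : ℝ → ℝ} {a b : ℝ} (hab : a ≤ b)
    (hf : ∀ x ∈ Icc a b, HasDerivAt f (f' x) x) (h0 : ∀ x ∈ Icc a b, 0 ≤ f' x) : f a ≤ f b := by
  rcases hab.eq_or_lt with rfl | hlt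
  · exact le_rfl
  obtain ⟨c, hc, hc'⟩ := exists_hasDerivAt_eq_slope f f' hlt
    (fun x hx => (hf x hx).continuousAt.continuousWithinAt)
    (fun x hx => hf x (Ioo_subset_Icc_self hx))
  have h1 := h0 c (Ioo_subset_Icc_self hc)
  rw [hc'] at h1
  have h2 := mul_nonneg h1 (sub_pos.2 hlt).le
  rw [div_mul_cancel₀ _ (sub_pos.2 hlt).ne'] at h2
  linarith

theorem deriv_eq_of_eqOn_Ici {f g : ℝ → ℝ} {a x g' : ℝ} (hx : a ≤ x) (hf : DifferentiableAt ℝ f x)
    (hg : HasDerivAt g g' x) (h : ∀ y, a ≤ y → f y = g y) : deriv f x = g' := by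
  have h1 : HasDerivWithinAt f g' (Ici x) x :=
    hg.hasDerivWithinAt.congr (fun y hy => h y (hx.trans hy)) (h x hx)
  exact (uniqueDiffWithinAt_Ici x).eq_deriv _ hf.hasDerivAt.hasDerivWithinAt h1

theorem deriv_eq_of_eqOn_Iic {f g : ℝ → ℝ} {a x g' : ℝ} (hx : x ≤ a) (hf : DifferentiableAt ℝ f x)
    (hg : HasDerivAt g g' x) (h : ∀ y, y ≤ a → f y = g y) : deriv f x = g' := by
  have h1 : HasDerivWithinAt f g' (Iic x) x :=
    hg.hasDerivWithinAt.congr (fun y hy => h y (le_trans hy hx)) (h x hx)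
  exact (uniqueDiffWithinAt_Iic x).eq_deriv _ hf.hasDerivAt.hasDerivWithinAt h1

/-- derivative of the one-sided profile -/
def sideD (c l x : ℝ) : ℝ :=
  (1 - smoothTransition (x + 1)) * (2 / (c - x) ^ 3)
    + smoothTransition (x + 1) * (l * (1 - smoothTransition x))

def side (c l x : ℝ) : ℝ := 1 / (c + 1) ^ 2 + ∫ t in (-1 : ℝ)..x, sideD c l t

theorem sideD_contDiff {c : ℝ} (hc : 2 ≤ c) (l : ℝ) : ContDiff ℝ ∞ (sideD c l) := by
  have hs : ContDiff ℝ ∞ smoothTransition := smoothTransition.contDiff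
  have hr : ContDiff ℝ ∞ (fun x : ℝ => smoothTransition (x + 1)) :=
    hs.comp (contDiff_id.add contDiff_const)
  have h1 : ContDiff ℝ ∞ (fun x : ℝ => (1 - smoothTransition (x + 1)) * (2 / (c - x) ^ 3)) := by
    rw [contDiff_iff_contDiffAt]
    intro x
    rcases lt_or_ge x c with hx | hx
    · refine (contDiff_const.sub hr).contDiffAt.mul ?_
      refine contDiffAt_const.div ((contDiffAt_const.sub contDiffAt_id).pow 3) ?_
      exact pow_ne_zero _ (sub_pos.2 hx).ne'
    · refine (contDiffAt_const (c := (0 : ℝ))).congr_of_eventuallyEq ?_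
      filter_upwards [lt_mem_nhds (show (0 : ℝ) < x by linarith)] with y hy
      rw [smoothTransition.one_of_one_le (by linarith)]
      ring
  exact h1.add (hr.mul (contDiff_const.mul (contDiff_const.sub hs)))

theorem side_hasDerivAt {c : ℝ} (hc : 2 ≤ c) (l x : ℝ) : HasDerivAt (side c l) (sideD c l x) x := by
  have h := (sideD_contDiff hc l).continuous
  exact (h.integral_hasStrictDerivAt (-1) x).hasDerivAt.const_add _

theorem side_deriv {c : ℝ} (hc : 2 ≤ c) (l : ℝ) : deriv (side c l) = sideD c l :=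
  funext fun x => (side_hasDerivAt hc l x).deriv

theorem side_contDiff {c : ℝ} (hc : 2 ≤ c) (l : ℝ) : ContDiff ℝ ∞ (side c l) := by
  rw [contDiff_infty_iff_deriv, side_deriv hc]
  exact ⟨fun x => (side_hasDerivAt hc l x).differentiableAt, sideD_contDiff hc l⟩

theorem side_neg_one (c l : ℝ) : side c l (-1) = 1 / (c + 1) ^ 2 := by
  simp [side]

theorem sideD_of_nonneg (c l : ℝ) {x : ℝ} (hx : 0 ≤ x) :
    sideD c l x = l * (1 - smoothTransition x) := by
  unfold sideD
  rw [smoothTransition.one_of_one_le (by linarith)]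
  ring

theorem sideD_of_nonpos (c l : ℝ) {x : ℝ} (hx : x ≤ 0) :
    sideD c l x = (1 - smoothTransition (x + 1)) * (2 / (c - x) ^ 3)
      + smoothTransition (x + 1) * l := by
  unfold sideD
  rw [smoothTransition.zero_of_nonpos hx]
  ring

theorem sideD_of_le (c l : ℝ) {x : ℝ} (hx : x ≤ -1) : sideD c l x = 2 / (c - x) ^ 3 := by
  unfold sideD
  rw [smoothTransition.zero_of_nonpos (show x + 1 ≤ 0 by linarith)]
  ring

theorem sideD_nonneg {c l : ℝ} (hc : 2 ≤ c) (hl : 0 < l) (x : ℝ) : 0 ≤ sideD c l x := by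
  have a0 := smoothTransition.nonneg (x + 1)
  have a1 := sub_nonneg.2 (smoothTransition.le_one (x + 1))
  have b1 := sub_nonneg.2 (smoothTransition.le_one x)
  rcases le_total 0 x with hx | hx
  · rw [sideD_of_nonneg c l hx]; positivity
  · rw [sideD_of_nonpos c l hx]
    have : 0 < c - x := by linarith
    positivity

theorem inv_sq_hasDerivAt {c x : ℝ} (hx : x < c) :
    HasDerivAt (fun y : ℝ => 1 / (c - y) ^ 2) (2 / (c - x) ^ 3) x := by
  have h0 : c - x ≠ 0 := (sub_pos.2 hx).ne'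
  have h1 : HasDerivAt (fun y : ℝ => (c - y) ^ 2) (2 * (c - x) * (-1)) x := by
    have := ((hasDerivAt_id' x).const_sub c).fun_pow 2
    exact HasDerivAt.congr_deriv this (by norm_num)
  have h2 := (hasDerivAt_const x (1 : ℝ)).div h1 (pow_ne_zero 2 h0)
  refine HasDerivAt.congr_deriv h2 ?_
  field_simp
  ring

theorem inv_cube_hasDerivAt {c x : ℝ} (hx : x < c) :
    HasDerivAt (fun y : ℝ => 2 / (c - y) ^ 3) (6 / (c - x) ^ 4) x := by
  have h0 : c - x ≠ 0 := (sub_pos.2 hx).ne'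
  have h1 : HasDerivAt (fun y : ℝ => (c - y) ^ 3) (3 * (c - x) ^ 2 * (-1)) x := by
    have := ((hasDerivAt_id' x).const_sub c).fun_pow 3
    exact HasDerivAt.congr_deriv this (by norm_num)
  have h2 := (hasDerivAt_const x (2 : ℝ)).div h1 (pow_ne_zero 3 h0)
  refine HasDerivAt.congr_deriv h2 ?_
  field_simp
  ring

theorem side_of_le {c : ℝ} (hc : 2 ≤ c) (l : ℝ) {x : ℝ} (hx : x ≤ -1) :
    side c l x = 1 / (c - x) ^ 2 := by
  have hd : ∀ y ∈ Icc x (-1), HasDerivAt (fun y => side c l y - 1 / (c - y) ^ 2) 0 y := by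
    intro y hy
    have h := (side_hasDerivAt hc l y).sub (inv_sq_hasDerivAt (show y < c by linarith [hy.2]))
    rw [sideD_of_le c l hy.2, sub_self] at h
    exact h
  have h1 := le_of_hasDerivAt_nonneg (f' := fun _ => 0) hx hd (fun _ _ => le_rfl)
  have h2 := le_of_hasDerivAt_nonneg (f := fun y => -(side c l y - 1 / (c - y) ^ 2))
    (f' := fun _ => -0) hx (fun y hy => (hd y hy).neg) (fun _ _ => by simp)
  simp only [side_neg_one, sub_neg_eq_add, sub_self] at h1 h2
  linarith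

theorem side_mono {c l : ℝ} (hc : 2 ≤ c) (hl : 0 < l) {x y : ℝ} (h : x ≤ y) :
    side c l x ≤ side c l y :=
  le_of_hasDerivAt_nonneg h (fun z _ => side_hasDerivAt hc l z) (fun z _ => sideD_nonneg hc hl z)

theorem le_inv_cube {c l x : ℝ} (hc : 2 ≤ c) (hl' : l ≤ 1 / (c + 1) ^ 3) (h1 : -1 ≤ x)
    (h0 : x ≤ 0) : l ≤ 1 / (c - x) ^ 3 := by
  refine hl'.trans (one_div_le_one_div_of_le (by have : 0 < c - x := by linarith
                                                 positivity) ?_)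
  exact pow_le_pow_left₀ (by linarith) (by linarith) 3

theorem side_le_inv_sq {c l : ℝ} (hc : 2 ≤ c) (hl' : l ≤ 1 / (c + 1) ^ 3) {x : ℝ} (h1 : -1 ≤ x)
    (h0 : x ≤ 0) : side c l x ≤ 1 / (c - x) ^ 2 := by
  have h := le_of_hasDerivAt_nonneg (f := fun y => 1 / (c - y) ^ 2 - side c l y)
    (f' := fun y => 2 / (c - y) ^ 3 - sideD c l y) h1
    (fun y hy => (inv_sq_hasDerivAt (show y < c by linarith [hy.2])).sub (side_hasDerivAt hc l y))
    (fun y hy => by
      have hy0 : y ≤ 0 := hy.2.trans h0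
      have h2 := le_inv_cube hc hl' hy.1 hy0
      have h3 : 0 < 1 / (c - y) ^ 3 := by
        have : 0 < c - y := by linarith
        positivity
      have h4 : 2 / (c - y) ^ 3 = 2 * (1 / (c - y) ^ 3) := by ring
      have a0 := smoothTransition.nonneg (y + 1)
      rw [sideD_of_nonpos c l hy0, h4]
      nlinarith)
  simp only [side_neg_one, sub_neg_eq_add, sub_self] at h
  linarith

theorem side_le {c l : ℝ} (hc : 2 ≤ c) (hl : 0 < l) (hl' : l ≤ 1 / (c + 1) ^ 3) (x : ℝ) :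
    side c l x ≤ 1 / c ^ 2 + l := by
  have h0 : side c l 0 ≤ 1 / c ^ 2 := by
    simpa using side_le_inv_sq hc hl' (x := 0) (by norm_num) le_rfl
  have h1 : side c l 1 ≤ side c l 0 + l := by
    have h := le_of_hasDerivAt_nonneg (f := fun y => l * y - side c l y)
      (f' := fun y => l * 1 - sideD c l y) zero_le_one
      (fun y _ => ((hasDerivAt_id y).const_mul l).sub (side_hasDerivAt hc l y))
      (fun y hy => by
        rw [sideD_of_nonneg c l hy.1]
        nlinarith [smoothTransition.nonneg y])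
    linarith
  rcases le_total x 1 with hx | hx
  · linarith [side_mono hc hl hx]
  · have h := le_of_hasDerivAt_nonneg (f := fun y => - side c l y)
      (f' := fun y => - sideD c l y) hx
      (fun y _ => (side_hasDerivAt hc l y).neg)
      (fun y hy => by
        rw [sideD_of_nonneg c l (by linarith [hy.1]), smoothTransition.one_of_one_le hy.1]
        norm_num)
    linarith

theorem sideD_deriv_of_nonpos {c : ℝ} (hc : 2 ≤ c) (l : ℝ) {x : ℝ} (hx : x ≤ 0) :
    deriv (sideD c l) x = -(deriv smoothTransition (x + 1) * (2 / (c - x) ^ 3 - l))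
      + (1 - smoothTransition (x + 1)) * (6 / (c - x) ^ 4) := by
  have hr : HasDerivAt (fun y : ℝ => smoothTransition (y + 1)) (deriv smoothTransition (x + 1)) x :=
    (sT_hasDerivAt' (x + 1)).comp_add_const x 1
  have h := ((hr.const_sub 1).mul (inv_cube_hasDerivAt (show x < c by linarith))).add
    (hr.mul_const l)
  refine deriv_eq_of_eqOn_Iic hx
    ((sideD_contDiff hc l).differentiable (by simp) x) (HasDerivAt.congr_deriv h (by ring)) ?_
  intro y hy
  rw [sideD_of_nonpos c l hy]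
  rfl

theorem side_npc_alg {c l r F ρ ρ' : ℝ} (hc : 2 ≤ c) (hl : 0 < l) (hr : c ≤ r) (hlr : l ≤ 1 / r ^ 3)
    (hF : 1 / (c + 1) ^ 2 ≤ F) (hF' : F ≤ 1 / r ^ 2) (h0 : 0 ≤ ρ) (h1 : ρ ≤ 1)
    (hρ : 8 * ρ * (1 - ρ) ≤ ρ') :
    2 * F * (-(ρ' * (2 / r ^ 3 - l)) + (1 - ρ) * (6 / r ^ 4))
      ≤ 3 * ((1 - ρ) * (2 / r ^ 3) + ρ * l) ^ 2 := by
  have hr0 : 0 < r := by linarith
  set u := 1 / r with hu
  have hu0 : 0 < u := by positivity
  have e2 : 1 / r ^ 2 = u ^ 2 := by rw [hu]; field_simp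
  have e3 : 1 / r ^ 3 = u ^ 3 := by rw [hu]; field_simp
  have e3' : 2 / r ^ 3 = 2 * u ^ 3 := by rw [hu]; field_simp
  have e4 : 6 / r ^ 4 = 6 * u ^ 4 := by rw [hu]; field_simp
  rw [e3', e4]
  rw [e2] at hF'
  rw [e3] at hlr
  have hρ0 : 0 ≤ ρ * (1 - ρ) := mul_nonneg h0 (by linarith)
  have hρ'0 : 0 ≤ ρ' := by nlinarith
  have hF0 : 0 < F := lt_of_lt_of_le (by positivity) hF
  have hk : 12 * u ^ 3 ≤ 16 * F := by
    have h2 : u ^ 3 ≤ 1 / c ^ 3 := by
      rw [← e3]
      exact one_div_le_one_div_of_le (by positivity) (pow_le_pow_left₀ (by linarith) hr 3)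
    have h3 : 12 * (1 / c ^ 3) ≤ 16 * (1 / (c + 1) ^ 2) := by
      rw [mul_one_div, mul_one_div, div_le_div_iff₀ (by positivity) (by positivity)]
      nlinarith [mul_nonneg (sub_nonneg.2 hc) (sq_nonneg c), mul_nonneg (sub_nonneg.2 hc) (sub_nonneg.2 hc)]
    linarith
  have hu3 : 0 < u ^ 3 := by positivity
  have s1 : 3 * ((1 - ρ) * (2 * u ^ 3)) ^ 2 ≤ 3 * ((1 - ρ) * (2 * u ^ 3) + ρ * l) ^ 2 := by
    have : 0 ≤ (1 - ρ) * (2 * u ^ 3) := mul_nonneg (by linarith) (by positivity)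
    have h5 : 0 ≤ ρ * l := by positivity
    nlinarith
  have s2 : 2 * F * ((1 - ρ) * (6 * u ^ 4)) ≤ 2 * u ^ 2 * ((1 - ρ) * (6 * u ^ 4)) :=
    mul_le_mul_of_nonneg_right (by linarith) (mul_nonneg (by linarith) (by positivity))
  have s3 : 8 * (ρ * (1 - ρ)) * u ^ 3 ≤ ρ' * (2 * u ^ 3 - l) :=
    mul_le_mul (by linarith) (by linarith) hu3.le hρ'0
  have s4 : 2 * F * (8 * (ρ * (1 - ρ)) * u ^ 3) ≤ 2 * F * (ρ' * (2 * u ^ 3 - l)) :=
    mul_le_mul_of_nonneg_left s3 (by positivity)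
  have s5 : 12 * u ^ 3 * (ρ * (1 - ρ) * u ^ 3) ≤ 16 * F * (ρ * (1 - ρ) * u ^ 3) :=
    mul_le_mul_of_nonneg_right hk (by positivity)
  nlinarith

theorem side_npc {c l : ℝ} (hc : 2 ≤ c) (hl : 0 < l) (hl' : l ≤ 1 / (c + 1) ^ 3) {x : ℝ}
    (hx : x ≤ 0) : 2 * side c l x * deriv (sideD c l) x ≤ 3 * sideD c l x ^ 2 := by
  rw [sideD_deriv_of_nonpos hc l hx]
  rcases le_total x (-1) with h1 | h1
  · rw [sideD_of_le c l h1, side_of_le hc l h1, sT_deriv_of_nonpos (show x + 1 ≤ 0 by linarith),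
      smoothTransition.zero_of_nonpos (show x + 1 ≤ 0 by linarith)]
    have : c - x ≠ 0 := by linarith
    apply le_of_eq
    field_simp
    ring
  · rw [sideD_of_nonpos c l hx]
    refine side_npc_alg hc hl (by linarith) (le_inv_cube hc hl' h1 hx) ?_
      (side_le_inv_sq hc hl' h1 hx) (smoothTransition.nonneg _) (smoothTransition.le_one _)
      (sT_deriv _)
    rw [← side_neg_one c l]
    exact side_mono hc hl h1

/-- one-sided profile -/
theorem exists_side {c l : ℝ} (hc : 2 ≤ c) (hl : 0 < l) (hl' : l ≤ 1 / (c + 1) ^ 3) :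
    ∃ F : ℝ → ℝ, ContDiff ℝ ∞ F ∧ (∀ x, 0 < F x) ∧ (∀ x, x ≤ -1 → F x = 1 / (c - x) ^ 2) ∧
      (∀ x, 0 ≤ deriv F x) ∧
      (∀ x, 0 ≤ x → deriv F x = l * (1 - smoothTransition x) ∧
        deriv (deriv F) x = -(l * deriv smoothTransition x)) ∧
      (∀ x, x ≤ 0 → 2 * F x * deriv (deriv F) x ≤ 3 * deriv F x ^ 2) ∧
      (∀ x, -1 ≤ x → 1 / (c + 1) ^ 2 ≤ F x ∧ F x ≤ 1 / c ^ 2 + l) := by
  have hlow : ∀ x, -1 ≤ x → 1 / (c + 1) ^ 2 ≤ side c l x := by
    intro x hx
    rw [← side_neg_one c l]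
    exact side_mono hc hl hx
  refine ⟨side c l, side_contDiff hc l, fun x => ?_, fun x hx => side_of_le hc l hx, fun x => ?_,
    fun x hx => ⟨?_, ?_⟩, fun x hx => ?_, fun x hx => ⟨hlow x hx, side_le hc hl hl' x⟩⟩
  · rcases le_total x (-1) with h | h
    · rw [side_of_le hc l h]
      have : 0 < c - x := by linarith
      positivity
    · refine lt_of_lt_of_le ?_ (hlow x h)
      have : 0 < c + 1 := by linarith
      positivity
  · rw [side_deriv hc]; exact sideD_nonneg hc hl x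
  · rw [side_deriv hc]; exact sideD_of_nonneg c l hx
  · rw [side_deriv hc]
    have h := ((sT_hasDerivAt' x).const_sub 1).const_mul l
    refine deriv_eq_of_eqOn_Ici hx ((sideD_contDiff hc l).differentiable (by simp) x)
      (HasDerivAt.congr_deriv h (by ring)) ?_
    intro y hy
    exact sideD_of_nonneg c l hy
  · rw [side_deriv hc]; exact side_npc hc hl hl' hx

end Vale.Agent.P255
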