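import Vale.Agent.P255.Dep
import Vale.Agent.P255.Real

open scoped ContDiff Manifold Topology
open Set Filter

noncomputable section

namespace Vale.Agent.P255

variable {E : Type} [NormedAddCommGroup E] [NormedSpace ℝ E] [FiniteDimensional ℝ E]
variable {M : Type} [TopologicalSpace M] [ChartedSpace E M] [IsManifold 𝓘(ℝ, E) ∞ M] [T2Space M] [CompactSpace M]

namespace RauchX

/-- the geodesic in the chart `e` -/
def zz (g : RMetric E M) (p : M) (v₀ : E) (e : OpenPartialHomeomorph M E) (t : ℝ) : E × E :=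
  Lam e (Phi g t (p, v₀))

/-- the variation field in the chart `e` -/
def dd (g : RMetric E M) (p : M) (v₀ η : E) (e : OpenPartialHomeomorph M E) (t : ℝ) : E × E :=
  fderiv ℝ (fun v => Lam e (Phi g t (p, v))) v₀ η

variable {g : RMetric E M} {p : M} {v₀ η : E} {e e' : OpenPartialHomeomorph M E} {t : ℝ}

theorem cont (g : RMetric E M) (p : M) (t : ℝ) : Continuous fun v => (Phi g t (p, v)).1 :=
  continuous_iff_continuousAt.2 fun v₀ =>
    ContinuousAt.comp (f := fun v : E => (t, v)) (Phi_smooth' g p t v₀).1 (by fun_prop)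

theorem cd (he : e ∈ atlas E M) (hs : (Phi g t (p, v₀)).1 ∈ e.source) :
    ContDiffAt ℝ 2 (fun v => Lam e (Phi g t (p, v))) v₀ :=
  ContDiffAt.comp (f := fun v : E => (t, v)) v₀ ((Phi_smooth' g p t v₀).2 e he hs) (by fun_prop)

theorem ev (hs : (Phi g t (p, v₀)).1 ∈ e.source) :
    ∀ᶠ v in 𝓝 v₀, (Phi g t (p, v)).1 ∈ e.source :=
  (cont g p t).continuousAt.eventually (e.open_source.mem_nhds hs)

theorem sol (he : e ∈ atlas E M) (hs : (Phi g t (p, v₀)).1 ∈ e.source) :
    Sol (loc g.inner e) (zz g p v₀ e) (dd g p v₀ η e) t := by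
  refine ⟨(geoL_Phi g (p, v₀) t).2 e he hs, ?_⟩
  refine variation (Ψ := fun x : ℝ × E => Lam e (Phi g x.1 (p, x.2)))
    ((Phi_smooth' g p t v₀).2 e he hs) ?_ ?_ η
  · exact ((contDiffOn_spray (lm_loc g he)).contDiffAt ((e.open_target.prod isOpen_univ).mem_nhds
      ⟨e.map_source hs, mem_univ _⟩)).differentiableAt (by simp)
  · filter_upwards [ev hs] with v hv
    exact (geoL_Phi g (p, v) t).2 e he hv

theorem mem (hs : (Phi g t (p, v₀)).1 ∈ e.source) (hs' : (Phi g t (p, v₀)).1 ∈ e'.source) :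
    (zz g p v₀ e t).1 ∈ e.target ∩ e.symm ⁻¹' e'.source :=
  ⟨e.map_source hs, by
    change e.symm (e _) ∈ e'.source
    rwa [e.left_inv hs]⟩

theorem dd_trans (he : e ∈ atlas E M) (he' : e' ∈ atlas E M)
    (hs : (Phi g t (p, v₀)).1 ∈ e.source) (hs' : (Phi g t (p, v₀)).1 ∈ e'.source) :
    dd g p v₀ η e' t = fderiv ℝ (tmap (e' ∘ e.symm)) (zz g p v₀ e t) (dd g p v₀ η e t) := by
  have h1 : (fun v => Lam e' (Phi g t (p, v))) =ᶠ[𝓝 v₀]
      tmap (e' ∘ e.symm) ∘ fun v => Lam e (Phi g t (p, v)) := by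
    filter_upwards [ev hs, ev hs'] with v h h'
    exact Lam_trans he he' h h'
  have h2 : DifferentiableAt ℝ (tmap (e' ∘ e.symm)) (zz g p v₀ e t) :=
    ((contDiffOn_tmap (isOpen_trans e e') (contDiffOn_trans he he')).contDiffAt
      (((isOpen_trans e e').prod isOpen_univ).mem_nhds ⟨mem hs hs', mem_univ _⟩)).differentiableAt
      (by simp)
  rw [dd, h1.fderiv_eq, fderiv_comp v₀ h2 ((cd he hs).differentiableAt (by simp))]
  rfl

theorem nn_trans (he : e ∈ atlas E M) (he' : e' ∈ atlas E M)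
    (hs : (Phi g t (p, v₀)).1 ∈ e.source) (hs' : (Phi g t (p, v₀)).1 ∈ e'.source) :
    nn (loc g.inner e') (zz g p v₀ e' t) (dd g p v₀ η e' t) =
      nn (loc g.inner e) (zz g p v₀ e t) (dd g p v₀ η e t) := by
  rw [dd_trans he he' hs hs', ← (pb_loc g he he').nn_eq (mem hs hs')]
  exact congrArg (fun z => nn (loc g.inner e') z _) (Lam_trans he he' hs hs')

theorem mm_trans (he : e ∈ atlas E M) (he' : e' ∈ atlas E M)
    (hs : (Phi g t (p, v₀)).1 ∈ e.source) (hs' : (Phi g t (p, v₀)).1 ∈ e'.source) :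
    mm (loc g.inner e') (zz g p v₀ e' t) (dd g p v₀ η e' t) =
      mm (loc g.inner e) (zz g p v₀ e t) (dd g p v₀ η e t) := by
  rw [dd_trans he he' hs hs', ← (pb_loc g he he').mm_eq (mem hs hs')]
  exact congrArg (fun z => mm (loc g.inner e') z _) (Lam_trans he he' hs hs')

theorem zz_zero : zz g p v₀ (chartAt E p) 0 = (chartAt E p p, v₀) := by
  simp [zz, Phi_zero, Lam, toChart_self]

theorem dd_zero : dd g p v₀ η (chartAt E p) 0 = (0, η) := by
  have h : (fun v : E => Lam (chartAt E p) (Phi g 0 (p, v))) = fun v => (chartAt E p p, v) := by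
    funext v
    simp [Phi_zero, Lam, toChart_self]
  rw [dd, h, (hasFDerivAt_prodMk_right _ v₀).fderiv]
  simp

omit [FiniteDimensional ℝ E] in
theorem nonneg (β : E →L[ℝ] E →L[ℝ] ℝ) (hp : ∀ a, a ≠ 0 → 0 < β a a) (a : E) : 0 ≤ β a a := by
  by_cases h0 : a = 0
  · simp [h0]
  · exact (hp a h0).le

theorem main (hg : Nonpos g) (he : e ∈ atlas E M) (hs : (Phi g 1 (p, v₀)).1 ∈ e.source) :
    g.inner p η η ≤ nn (loc g.inner e) (zz g p v₀ e 1) (dd g p v₀ η e 1) := by
  let ch : ℝ → OpenPartialHomeomorph M E := fun t => chartAt E (Phi g t (p, v₀)).1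
  have c1 : ∀ t, ch t ∈ atlas E M := fun t => chart_mem_atlas E _
  have c2 : ∀ t, (Phi g t (p, v₀)).1 ∈ (ch t).source := fun t => mem_chart_source E _
  have c3 : ∀ t, (zz g p v₀ (ch t) t).1 ∈ (ch t).target := fun t => (ch t).map_source (c2 t)
  have c4 : ∀ t, ∀ᶠ s in 𝓝 t, (Phi g s (p, v₀)).1 ∈ (ch t).source := fun t =>
    (geoL_Phi g (p, v₀) t).1.eventually ((ch t).open_source.mem_nhds (c2 t))
  have c0 : ch 0 = chartAt E p := by simp only [ch, Phi_zero]
  have key := rauch_real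
    (n := fun t => nn (loc g.inner (ch t)) (zz g p v₀ (ch t) t) (dd g p v₀ η (ch t) t))
    (m := fun t => mm (loc g.inner (ch t)) (zz g p v₀ (ch t) t) (dd g p v₀ η (ch t) t))
    (q := fun t => qq (loc g.inner (ch t)) (zz g p v₀ (ch t) t) (dd g p v₀ η (ch t) t))
    (m' := fun t => qq (loc g.inner (ch t)) (zz g p v₀ (ch t) t) (dd g p v₀ η (ch t) t) -
      rr (loc g.inner (ch t)) (zz g p v₀ (ch t) t) (dd g p v₀ η (ch t) t))
    (fun t => (nn_deriv (lm_loc g (c1 t)) (c3 t) (sol (c1 t) (c2 t))).congr_of_eventuallyEq <| by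
      filter_upwards [c4 t] with s h
      exact nn_trans (c1 t) (c1 s) h (c2 s))
    (fun t => (mm_deriv (lm_loc g (c1 t)) (c3 t) (sol (c1 t) (c2 t))).congr_of_eventuallyEq <| by
      filter_upwards [c4 t] with s h
      exact mm_trans (c1 t) (c1 s) h (c2 s))
    (fun t => (le_sub_self_iff _).2 (hg _ (c1 t) _ (c3 t) _ _))
    (fun t => cauchy_schwarz _ ((lm_loc g (c1 t)).symm _ (c3 t))
      ((lm_loc g (c1 t)).pos _ (c3 t)) _ _)
    (fun t => nonneg _ ((lm_loc g (c1 t)).pos _ (c3 t)) _)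
    (fun t => nonneg _ ((lm_loc g (c1 t)).pos _ (c3 t)) _)
    (by simp only [c0, dd_zero, nn, map_zero])
    (by simp only [c0, dd_zero, mm, map_zero, zero_apply])
  simp only [c0, dd_zero, zz_zero, nn_trans he (c1 1) hs (c2 1)] at key
  refine le_trans (le_of_eq ?_) key
  have h1 := loc_toChart g.inner (chart_mem_atlas E p) (mem_chart_source E p) η η
  rw [toChart_self] at h1
  have h2 : dJ (loc g.inner (chartAt E p)) (chartAt E p p, v₀) (0, η) = η := by
    simp [dJ, chris]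
  rw [qq, h2]
  exact h1.symm

end RauchX

open RauchX

theorem expand_ex (g : RMetric E M) (hg : Nonpos g) (p : M) : Expand g (g.inner p) (ex g p) := by
  refine ⟨cont g p 1, fun v e he hs => ⟨((cd he hs).fst).of_le (by norm_num), fun η => ?_⟩⟩
  have h1 := main (η := η) hg he hs
  have h2 : fderiv ℝ (e ∘ ex g p) v η = (dd g p v η e 1).1 := by
    have := fderiv.fst ((cd he hs).differentiableAt (by simp))
    exact congrArg (fun L : E →L[ℝ] E => L η) this
  rw [h2]
  exact h1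

end Vale.Agent.P255
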