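import Vale.Agent.P255.GeoA

open scoped ContDiff Manifold Topology
open Set Filter Real

noncomputable section

namespace Vale.Agent.P255

def lam (x : ℝ) : ℝ := max 0 (min 1 (x - 1))

def Wc (c : Bool → ℝ) : Option Bool → E3 → ℝ × ℝ
  | none => fun y => ((c true + y.1 - 1) * lam y.1 * cos (y.2.2 - y.2.1),
      (c true + y.1 - 1) * lam y.1 * sin (y.2.2 - y.2.1))
  | some true => fun y => (y.1, y.2.1)
  | some false => fun _ => (0, 0)

def z1 (c : Bool → ℝ) (i : Option Bool) (y : E3) : ℝ := (Wc c i y).1 / (2 * (c true + 10))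
def z2 (c : Bool → ℝ) (i : Option Bool) (y : E3) : ℝ := (Wc c i y).2 / (2 * (c true + 10))

def kap (c : Bool → ℝ) (v : ℝ) : ℝ := max (-1) (min 1 (v / (c true + 9)))

def Sf (k z : ℝ) : ℂ := (k * cos (π * z) : ℝ) + Complex.I * (sin (π * z) : ℝ)

def sig (c : Bool → ℝ) : Option Bool → E3 → ℂ
  | none => fun y => Complex.exp (-(Complex.I * y.2.1)) *
      (Sf (kap c (Wc c none y).2) (z1 c none y)
        + ((1 - lam y.1 : ℝ) : ℂ) * ((sin (y.2.2 - y.2.1) : ℝ) + Complex.I * (cos (y.2.2 - y.2.1) : ℝ)))
  | some true => fun y => Complex.exp (-(Complex.I * y.2.2)) * Sf (kap c y.2.1) (z1 c (some true) y)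
  | some false => fun y => Complex.I * Complex.exp (-(Complex.I * y.2.2))

def Th (c : Bool → ℝ) (i : Option Bool) (y : E3) (r : ℝ) : ℂ :=
  sig c i y ^ 2 * Complex.exp (4 * π * Complex.I * (z1 c i y * (r - z2 c i y) : ℝ))

variable {c : Bool → ℝ}

theorem continuous_lam : Continuous lam := by unfold lam; fun_prop

theorem continuous_Wc (i : Option Bool) : Continuous (Wc c i) := by
  have := continuous_lam
  rcases i with _ | _ | _ <;> unfold Wc <;> fun_prop

theorem continuous_z1 (i : Option Bool) : Continuous (z1 c i) := by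
  have := continuous_Wc (c := c) i
  unfold z1; fun_prop

theorem continuous_z2 (i : Option Bool) : Continuous (z2 c i) := by
  have := continuous_Wc (c := c) i
  unfold z2; fun_prop

theorem continuous_kap : Continuous (kap c) := by unfold kap; fun_prop

theorem continuous_sig (i : Option Bool) : Continuous (sig c i) := by
  have h1 := continuous_lam
  have h2 := continuous_kap (c := c)
  have h3 := continuous_Wc (c := c) none
  have h4 := continuous_z1 (c := c) none
  have h5 := continuous_z1 (c := c) (some true)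
  rcases i with _ | _ | _ <;> unfold sig Sf <;> fun_prop

theorem continuous_Th (i : Option Bool) : Continuous (fun x : E3 × ℝ => Th c i x.1 x.2) := by
  have h1 := continuous_sig (c := c) i
  have h2 := continuous_z1 (c := c) i
  have h3 := continuous_z2 (c := c) i
  unfold Th; fun_prop

theorem lam_one {x : ℝ} (h : 2 ≤ x) : lam x = 1 := by
  unfold lam; rw [min_eq_left (by linarith), max_eq_right zero_le_one]

theorem lam_zero {x : ℝ} (h : x ≤ 1) : lam x = 0 := by
  unfold lam; exact max_eq_left ((min_le_right _ _).trans (by linarith))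

theorem lam_mem (x : ℝ) : 0 ≤ lam x ∧ lam x ≤ 1 :=
  ⟨le_max_left _ _, max_le zero_le_one (min_le_left _ _)⟩

theorem exp_per (a : ℝ) (n : ℤ) :
    Complex.exp (-(Complex.I * ((a + 2 * π * n : ℝ) : ℂ))) = Complex.exp (-(Complex.I * a)) := by
  rw [Complex.exp_eq_exp_iff_exists_int]
  exact ⟨-n, by push_cast; ring⟩

theorem Sf_sq_shift (k z : ℝ) (l : ℤ) : Sf k (z + l) ^ 2 = Sf k z ^ 2 := by
  unfold Sf
  rw [mul_add, mul_comm π (l : ℝ), Real.cos_add_int_mul_pi, Real.sin_add_int_mul_pi]
  have : ((-1 : ℂ) ^ l) ^ 2 = 1 := by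
    rw [← zpow_natCast, ← zpow_mul, mul_comm, zpow_mul]; simp
  push_cast
  linear_combination (k * Complex.cos (π * z) + Complex.I * Complex.sin (π * z)) ^ 2 * this

theorem Sf_one (z : ℝ) : Sf 1 z = Complex.exp (π * z * Complex.I) := by
  unfold Sf
  rw [Complex.exp_mul_I]
  push_cast
  ring

theorem Sf_neg_one (z : ℝ) : Sf (-1) z = - Complex.exp (-(π * z) * Complex.I) := by
  unfold Sf
  rw [Complex.exp_mul_I, Complex.cos_neg, Complex.sin_neg]
  push_cast
  ring

theorem Sf_twist (z : ℝ) :
    Sf 1 z ^ 2 = Sf (-1) z ^ 2 * Complex.exp (4 * π * Complex.I * z) := by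
  rw [Sf_one, Sf_neg_one, neg_sq, ← Complex.exp_nat_mul, ← Complex.exp_nat_mul, ← Complex.exp_add]
  congr 1
  push_cast
  ring

theorem kap_one (hc : ∀ b, 2 ≤ c b) {v : ℝ} (h : c true + 9 ≤ v) : kap c v = 1 := by
  have := hc true
  unfold kap
  rw [min_eq_left ((one_le_div (by linarith)).2 h)]
  simp

theorem kap_neg_one (hc : ∀ b, 2 ≤ c b) {v : ℝ} (h : v ≤ -(c true + 9)) : kap c v = -1 := by
  have := hc true
  unfold kap
  refine max_eq_left ((min_le_right _ _).trans ?_)
  rw [div_le_iff₀ (by linarith)]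
  linarith

theorem kap_sign (hc : ∀ b, 2 ≤ c b) {v w : ℝ} (h : 0 ≤ v * w) : 0 ≤ kap c v * w := by
  have h0 : 0 < c true + 9 := by linarith [hc true]
  unfold kap
  rcases lt_trichotomy w 0 with hw | hw | hw
  · have hv : v ≤ 0 := by nlinarith
    have : v / (c true + 9) ≤ 0 := div_nonpos_of_nonpos_of_nonneg hv h0.le
    exact mul_nonneg_of_nonpos_of_nonpos (max_le (by norm_num) ((min_le_right _ _).trans this)) hw.le
  · simp [hw]
  · have hv : 0 ≤ v := by nlinarith
    have : 0 ≤ v / (c true + 9) := div_nonneg hv h0.le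
    exact mul_nonneg ((le_min zero_le_one this).trans (le_max_right _ _)) hw.le

theorem kap_eq_zero (hc : ∀ b, 2 ≤ c b) {v : ℝ} (h : kap c v = 0) : v = 0 := by
  have h0 : 0 < c true + 9 := by linarith [hc true]
  unfold kap at h
  have : v / (c true + 9) = 0 := by
    rcases le_total 1 (v / (c true + 9)) with h1 | h1
    · rw [min_eq_left h1] at h; norm_num at h
    · rw [min_eq_right h1] at h
      rcases le_total (-1) (v / (c true + 9)) with h2 | h2
      · rwa [max_eq_right h2] at h
      · rw [max_eq_left h2] at h; norm_num at h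
  rcases div_eq_zero_iff.1 this with h1 | h1
  · exact h1
  · linarith

theorem Sf_ne (hc : ∀ b, 2 ≤ c b) {u v : ℝ} (hu : |u| < c true + 11)
    (h : Sf (kap c v) (u / (2 * (c true + 10))) = 0) : u = 0 ∧ v = 0 := by
  have h0 : 0 < 2 * (c true + 10) := by linarith [hc true]
  have him := congrArg Complex.im h
  have hre := congrArg Complex.re h
  simp only [Sf, Complex.add_im, Complex.ofReal_im, Complex.mul_im, Complex.I_re, Complex.I_im,
    Complex.ofReal_re, Complex.add_re, Complex.mul_re, mul_zero, one_mul, zero_add, zero_mul,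
    Complex.zero_im, Complex.zero_re, sub_zero, add_zero] at him hre
  have hz : |u / (2 * (c true + 10))| < 1 := by
    rw [abs_div, abs_of_pos h0, div_lt_one h0]; linarith [hc true]
  obtain ⟨h1, h2⟩ := abs_lt.1 hz
  have := (Real.sin_eq_zero_iff_of_lt_of_lt (by nlinarith [pi_pos]) (by nlinarith [pi_pos])).1 him
  have hz0 : u / (2 * (c true + 10)) = 0 := by
    rcases mul_eq_zero.1 this with h3 | h3
    · exact absurd h3 pi_ne_zero
    · exact h3
  rw [hz0] at hre
  refine ⟨?_, kap_eq_zero hc (by simpa using hre)⟩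
  rcases div_eq_zero_iff.1 hz0 with h3 | h3
  · exact h3
  · linarith

theorem sig_ne (hc : ∀ b, 2 ≤ c b) (i : Option Bool) {y : E3} (hy : y ∈ Om c i) :
    sig c i y ≠ 0 := by
  have hc' := hc true
  rcases i with _ | _ | _
  · refine mul_ne_zero (Complex.exp_ne_zero _) ?_
    obtain ⟨hy1, hy2⟩ := hy
    obtain ⟨l0, l1⟩ := lam_mem y.1
    set θ := y.2.2 - y.2.1
    set ρ := (c true + y.1 - 1) * lam y.1 with hρ
    have hρ0 : 0 ≤ ρ := by
      by_cases h : y.1 ≤ 1
      · rw [hρ, lam_zero h, mul_zero]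
      · exact mul_nonneg (by linarith [not_le.1 h]) l0
    have hρ1 : ρ ≤ c true + 3 := by
      by_cases h : y.1 ≤ 1
      · rw [hρ, lam_zero h, mul_zero]; linarith
      · nlinarith [not_le.1 h]
    have hW : Wc c none y = (ρ * cos θ, ρ * sin θ) := rfl
    have hz : z1 c none y = ρ * cos θ / (2 * (c true + 10)) := rfl
    have habs : |ρ * cos θ| ≤ c true + 3 := by
      rw [abs_mul, abs_of_nonneg hρ0]
      nlinarith [abs_cos_le_one θ, abs_nonneg (cos θ)]
    have h0 : 0 < 2 * (c true + 10) := by linarith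
    intro h
    rw [hW, hz] at h
    by_cases hl : lam y.1 = 1
    · rw [hl] at h
      have := Sf_ne hc (u := ρ * cos θ) (v := ρ * sin θ) (by linarith) (by simpa using h)
      have hx : 1 < y.1 := by
        by_contra hx
        rw [lam_zero (not_lt.1 hx)] at hl
        norm_num at hl
      have hρp : 0 < ρ := by rw [hρ, hl]; linarith
      have h1 : cos θ = 0 := by simpa [hρp.ne'] using this.1
      have h2 : sin θ = 0 := by simpa [hρp.ne'] using this.2
      have := sin_sq_add_cos_sq θ
      rw [h1, h2] at this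
      norm_num at this
    · have him := congrArg Complex.im h
      have hre := congrArg Complex.re h
      simp only [Sf, Complex.add_im, Complex.ofReal_im, Complex.mul_im, Complex.I_re, Complex.I_im,
        Complex.ofReal_re, Complex.add_re, Complex.mul_re, mul_zero, one_mul, zero_add, zero_mul,
        Complex.zero_im, Complex.zero_re, sub_zero, add_zero] at him hre
      set z := ρ * cos θ / (2 * (c true + 10)) with hzdef
      have hz : |z| ≤ 1 / 2 := by
        rw [hzdef, abs_div, abs_of_pos h0, div_le_iff₀ h0]; linarith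
      obtain ⟨g1, g2⟩ := abs_le.1 hz
      have hcos : 0 ≤ cos (π * z) :=
        cos_nonneg_of_neg_pi_div_two_le_of_le (by nlinarith [pi_pos]) (by nlinarith [pi_pos])
      have k1 : 0 ≤ kap c (ρ * sin θ) * sin θ :=
        kap_sign hc (by nlinarith [mul_nonneg hρ0 (mul_self_nonneg (sin θ))])
      have k2 : 0 ≤ sin (π * z) * cos θ := by
        rcases le_total 0 (cos θ) with h1 | h1
        · have : 0 ≤ z := div_nonneg (mul_nonneg hρ0 h1) h0.le
          exact mul_nonneg (sin_nonneg_of_nonneg_of_le_pi (by positivity) (by nlinarith [pi_pos])) h1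
        · have : z ≤ 0 := div_nonpos_of_nonpos_of_nonneg (mul_nonpos_of_nonneg_of_nonpos hρ0 h1) h0.le
          exact mul_nonneg_of_nonpos_of_nonpos
            (sin_nonpos_of_nonpos_of_neg_pi_le (by nlinarith [pi_pos]) (by nlinarith [pi_pos])) h1
      have k3 : 0 < 1 - lam y.1 := sub_pos.2 (lt_of_le_of_ne l1 hl)
      have k4 := sin_sq_add_cos_sq θ
      have k5 : kap c (ρ * sin θ) * sin θ * cos (π * z) + sin (π * z) * cos θ + (1 - lam y.1) = 0 := by
        linear_combination sin θ * hre + cos θ * him - (1 - lam y.1) * k4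
      nlinarith [mul_nonneg k1 hcos]
  · exact mul_ne_zero Complex.I_ne_zero (Complex.exp_ne_zero _)
  · refine mul_ne_zero (Complex.exp_ne_zero _) fun h => ?_
    obtain ⟨h1, -, h3⟩ := hy
    obtain ⟨g1, g2⟩ := Sf_ne hc h1 h
    rw [g1, g2] at h3
    nlinarith

theorem Th_ne (hc : ∀ b, 2 ≤ c b) (i : Option Bool) {y : E3} (hy : y ∈ Om c i) (r : ℝ) :
    Th c i y r ≠ 0 :=
  mul_ne_zero (pow_ne_zero 2 (sig_ne hc i hy)) (Complex.exp_ne_zero _)

end Vale.Agent.P255
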